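import Vale.Agent.P321.AllQ.BaseExp
import Vale.Agent.P321.Super.Dilute

/-!
P321, all deletion probabilities, base: the exceptional bound of the pair
`F^k H F^(k+1)`, `F^(k+1) H F^k` and the weighted distance it gives.
-/

open Finset

namespace Vale.Agent.P321

lemma sum_choose_mul_succ (h : ℕ) :
    ∑ s ∈ range (h + 1), h.choose s * h.choose (s + 1) = (2 * h).choose (h + 1) := by
  rw [two_mul, Nat.add_choose_eq, Finset.Nat.sum_antidiagonal_eq_sum_range_succ_mk]
  rw [sum_range_succ' (fun k => h.choose k * h.choose (h + 1 - k)) (h + 1), Nat.sub_zero,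
    Nat.choose_succ_self, mul_zero, add_zero]
  refine sum_congr rfl fun s hs => ?_
  rw [mem_range] at hs
  rw [show h + 1 - (s + 1) = h - s by omega, Nat.choose_symm (by omega), mul_comm]

/-- The squared variation of the binomial weights is `O(h^(-3/2))`. -/
lemma sum_sq_choose_diff (h : ℕ) :
    ∑ s ∈ range (h + 2),
      ((h.choose s : ℝ) / 2 ^ h - (if s = 0 then 0 else (h.choose (s - 1) : ℝ) / 2 ^ h)) ^ 2 ≤
      2 / (((h : ℝ) + 1) * Real.sqrt (2 * h + 1)) := by
  set S : ℝ := ((2 * h).choose h : ℝ)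
  set T : ℝ := ((2 * h).choose (h + 1) : ℝ)
  have hS : ∑ s ∈ range (h + 1), (h.choose s : ℝ) ^ 2 = S := by
    simp only [S]; exact_mod_cast Nat.sum_range_choose_sq h
  have hT : ∑ s ∈ range (h + 1), (h.choose s : ℝ) * h.choose (s + 1) = T := by
    simp only [T]; exact_mod_cast sum_choose_mul_succ h
  have hT' : T * (h + 1) = S * h := by
    have := Nat.choose_succ_right_eq (2 * h) h
    rw [show 2 * h - h = h by omega] at this
    simp only [S, T]
    exact_mod_cast this
  have e : ∑ s ∈ range (h + 2),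
      ((h.choose s : ℝ) / 2 ^ h - (if s = 0 then 0 else (h.choose (s - 1) : ℝ) / 2 ^ h)) ^ 2 =
      (2 * S - 2 * T) / (2 ^ h) ^ 2 := by
    rw [sum_range_succ' _ (h + 1)]
    simp only [if_true, Nat.succ_ne_zero, if_false, Nat.add_sub_cancel, sub_zero,
      Nat.choose_zero_right, Nat.cast_one, ← sub_div, div_pow, ← sum_div, ← add_div]
    congr 1
    have h2 : ∑ s ∈ range (h + 1), (h.choose (s + 1) : ℝ) ^ 2 + 1 = S := by
      have := sum_range_succ' (fun s => (h.choose s : ℝ) ^ 2) (h + 1)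
      rw [sum_range_succ _ (h + 1), hS] at this
      simpa using this.symm
    simp only [sub_sq, sum_add_distrib, sum_sub_distrib, hS, mul_assoc, ← mul_sum]
    simp only [mul_comm ((h.choose (_ + 1) : ℝ))] at *
    rw [hT]
    linarith
  rw [e]
  have hsq : S * Real.sqrt (2 * h + 1) ≤ (2 ^ h) ^ 2 := by
    refine le_of_pow_le_pow_left₀ two_ne_zero (by positivity) ?_
    rw [mul_pow, Real.sq_sqrt (by positivity)]
    refine (le_of_eq ?_).trans ((central_sq h).trans_eq ?_)
    · simp only [S, Nat.centralBinom_eq_two_mul_choose]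
    · rw [← pow_mul, ← pow_mul, show (16 : ℝ) = 2 ^ 4 by norm_num, ← pow_mul]; ring_nf
  rw [div_le_div_iff₀ (by positivity) (by positivity)]
  have : (2 * S - 2 * T) * (((h : ℝ) + 1) * Real.sqrt (2 * h + 1)) =
      2 * (S * Real.sqrt (2 * h + 1)) := by
    linear_combination (-2 * Real.sqrt (2 * h + 1)) * hT'
  rw [this]
  linarith

/-- The pair against pure cells and against each other. -/
theorem exc_pair {F H : Alg} (hF : IsProb F) (hH : IsProb H) {θ : ℝ} (hθ : 0 ≤ θ)
    (hle : Le1 (H - F) (θ • F)) (B : ℕ) (hB : nrm (F ^ (B + 1) - F ^ B) ≤ 1) (h : ℕ)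
    {lam lam' η : ℝ} (hlam : 0 < lam) (hlam' : 0 < lam') (hη : 0 ≤ η)
    (hsum : lam ^ 2 * θ ^ 2 * (2 / (((h : ℝ) + 1) * Real.sqrt (2 * h + 1))) ≤ 1)
    (hsum' : lam' ^ 2 * θ ^ 2 * (1 / Real.sqrt (h + 1)) ≤ 1) :
    Exc (F ^ (48 * h * (B + 1)) * H * F ^ (48 * h * (B + 1) + 1))
      (F ^ (48 * h * (B + 1) + 1) * H * F ^ (48 * h * (B + 1))) (2 * η)
      (6 / lam * Real.exp (-(lam * η)) + (2 ^ (2 * h))⁻¹ * (2 * θ) +
        2 * η * (6 / lam' * Real.exp (-(lam' * (1 / 2))) + (2 ^ (2 * h))⁻¹ * θ)) := by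
  set D := H - F with hD
  set P := 48 * h * (B + 1) with hP
  have hD0 : mass D = 0 := by rw [hD, map_sub, hH.mass_one, hF.mass_one, sub_self]
  have hF2 : F ^ 2 = F * F := sq F
  have tail : ∀ Z : Alg, ∀ a : ℝ, 0 ≤ a → Le1 Z (a • F ^ 2) → ∀ η' : ℝ, 0 ≤ η' →
      Near η' Z (F ^ 2) a := by
    intro Z a ha hZ η' hη'
    refine ⟨a • F ^ 2, (hF.pow 2).pos.smul ha, ?_, hZ.trans_pos ?_⟩
    · rw [map_smul, (hF.pow 2).mass_one, smul_eq_mul, mul_one]
    · rw [add_sub_cancel_right]
      exact (hF.pow 2).pos.smul hη'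
  have leDF : Le1 (D * F) (θ • F ^ 2) := by
    have := hle.mul (Le1.of_pos hF.pos)
    rwa [smul_mul_assoc, ← hF2] at this
  have leFD : Le1 (F * D) (θ • F ^ 2) := by
    have := (Le1.of_pos hF.pos).mul hle
    rwa [mul_smul_comm, ← hF2] at this
  have hshF : (sh F)^[h] (F ^ 2) = F ^ (h + 2) := sh_pow F 2 h
  -- the difference
  have h1 : Near η (F ^ P * (D * F - F * D) * F ^ P) (F ^ P * F ^ 2 * F ^ P)
      (6 / lam * Real.exp (-(lam * η)) + (2 ^ (2 * h))⁻¹ * (2 * θ)) := by
    refine pad (closed_near η) hF B hB h (by positivity) (by positivity) ?_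
      (tail _ _ (by positivity) ?_ η hη)
    · set u : ℕ → Alg := fun s => F ^ s * D * F ^ (h + 1 - s)
      set d : ℕ → ℝ := fun s =>
        (h.choose s : ℝ) / 2 ^ h - (if s = 0 then 0 else (h.choose (s - 1) : ℝ) / 2 ^ h)
      have e : (sh F)^[h] (D * F - F * D) = zlin F D (h + 2) d := by
        rw [zlin, show ∑ s ∈ range (h + 2), d s • (F ^ s * D * F ^ (h + 2 - 1 - s)) =
            ∑ s ∈ range (h + 2), d s • u s from rfl,
          ← shift_sum (fun t => (h.choose t : ℝ) / 2 ^ h) u h (by simp), sh_iterate]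
        refine sum_congr rfl fun t ht => ?_
        rw [mem_range] at ht
        congr 1
        simp only [u, show h + 1 - t = (h - t) + 1 by omega, show h + 1 - (t + 1) = h - t by omega,
          pow_succ', mul_sub, sub_mul, mul_assoc]
        rw [← mul_assoc (F ^ t) F, (Commute.pow_self F t).eq, mul_assoc]
      rw [e, hshF]
      exact le1_zlin hF hD0 hle _ _ hlam ((mul_le_mul_of_nonneg_left
        (sum_sq_choose_diff h) (by positivity)).trans hsum)
    · have := leDF.sub leFD
      rwa [← add_smul, ← two_mul] at this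
  -- against the pure power
  have h2 : Near (1 / 2) (F ^ P * (D * F) * F ^ P) (F ^ P * F ^ 2 * F ^ P)
      (6 / lam' * Real.exp (-(lam' * (1 / 2))) + (2 ^ (2 * h))⁻¹ * θ) := by
    refine pad (closed_near _) hF B hB h (by positivity) hθ ?_
      (tail _ _ hθ leDF _ (by norm_num))
    have e : (sh F)^[h] (D * F) = zlin F D (h + 2) fun t => (h.choose t : ℝ) / 2 ^ h := by
      rw [zlin, sum_range_succ _ (h + 1), Nat.choose_succ_self, Nat.cast_zero, zero_div, zero_smul,
        add_zero, sh_iterate]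
      refine sum_congr rfl fun t ht => ?_
      rw [mem_range] at ht
      congr 1
      rw [show h + 2 - 1 - t = h - t + 1 by omega, pow_succ']
      simp only [mul_assoc]
    rw [e, hshF]
    refine le1_zlin hF hD0 hle _ _ hlam' ((mul_le_mul_of_nonneg_left ?_ (by positivity)).trans hsum')
    rw [sum_range_succ _ (h + 1), Nat.choose_succ_self, Nat.cast_zero, zero_div, zero_pow two_ne_zero,
      add_zero]
    calc ∑ t ∈ range (h + 1), ((h.choose t : ℝ) / 2 ^ h) ^ 2
        ≤ ∑ t ∈ range (h + 1), 1 / Real.sqrt (h + 1) * bw h t := by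
          refine sum_le_sum fun t _ => ?_
          rw [← bw_natCast, sq]
          exact mul_le_mul_of_nonneg_right (bw_le_max h t) (bw_nonneg h t)
      _ = _ := by rw [← mul_sum, sum_bw, mul_one]
  obtain ⟨r, r0, rm, hr⟩ := h1
  obtain ⟨r', r0', rm', hr'⟩ := h2
  set X := F ^ P * H * F ^ (P + 1) with hX
  set Y := F ^ (P + 1) * H * F ^ P with hY
  set N := F ^ P * F ^ 2 * F ^ P with hN
  have eXY : X - Y = F ^ P * (D * F - F * D) * F ^ P := by
    have := (Commute.pow_self F P).eq
    rw [hX, hY, pow_succ' F P]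
    nth_rw 2 [show F * F ^ P = F ^ P * F from this.symm]
    rw [hD]; noncomm_ring
  have eXN : X - N = F ^ P * (D * F) * F ^ P := by
    rw [hX, hN, hF2, pow_succ' F P, hD]; noncomm_ring
  have hYp : Pos Y := (((hF.pow _).mul hH).mul (hF.pow _)).pos
  refine ⟨r + (2 * η) • r', r0.add (r0'.smul (by positivity)), ?_, ?_⟩
  · rw [map_add, map_smul, smul_eq_mul]
    exact add_le_add rm (mul_le_mul_of_nonneg_left rm' (by positivity))
  · rw [eXY]
    intro w
    have a := hr w
    have b := (abs_le.1 (hr' w)).1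
    have y := hYp w
    rw [← eXN] at b
    simp only [MonoidAlgebra.coeff_add, Finsupp.add_apply, MonoidAlgebra.coeff_sub,
      Finsupp.sub_apply, MonoidAlgebra.coeff_smul, Finsupp.smul_apply, smul_eq_mul] at a b ⊢
    refine a.trans ?_
    nlinarith

/-- The weighted distance follows from the exceptional bound. -/
theorem dev_of_exc_sq {U V : Alg} (hU : IsProb U) (hV : IsProb V) {η e a : ℝ} (hη : 0 ≤ η)
    (hη1 : η ≤ 1) (ha : 0 ≤ a) (h : Exc U V η e) (hb : 2 * η ^ 2 + 2 * e ≤ a ^ 2) :
    Dev (U - V) (U + V) a := by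
  classical
  have hle : Le1 (U - V) (U + V) := (Le1.of_pos hU.pos).sub (Le1.of_pos hV.pos)
  refine dev_of_special ha hle (le_trans ?_ hb)
  obtain ⟨r, r0, rm, hr⟩ := h
  set f := U - V with hf
  set s := U + V with hs
  have hn : nrm f ≤ 2 * η + e := by
    refine hr.nrm_le.trans ?_
    rw [map_add, map_smul, hs, map_add, hU.mass_one, hV.mass_one, smul_eq_mul]
    linarith
  have step : ev f (fun w => f.coeff (FreeMonoid.ofList w) / s.coeff (FreeMonoid.ofList w)) ≤
      η * nrm f + mass r := by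
    set S := f.coeff.support ∪ r.coeff.support
    rw [ev, Finsupp.sum_of_support_subset (s := S) _ subset_union_left _ (by simp),
      nrm_eq_sum (s := S) subset_union_left, mass_eq_sum (s := S) subset_union_right, mul_sum,
      ← sum_add_distrib]
    refine sum_le_sum fun w _ => ?_
    simp only [FreeMonoid.ofList_toList]
    have h1 := hr w
    have h2 := hle w
    simp only [MonoidAlgebra.coeff_add, Finsupp.add_apply, MonoidAlgebra.coeff_smul,
      Finsupp.smul_apply, smul_eq_mul] at h1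
    rcases eq_or_ne (s.coeff w) 0 with z | z
    · simp [z]
      exact add_nonneg (mul_nonneg hη (abs_nonneg _)) (r0 w)
    have hp : 0 < s.coeff w := (hle.pos w).lt_of_ne' z
    rw [← mul_div_assoc, div_le_iff₀ hp]
    calc f.coeff w * f.coeff w = |f.coeff w| * |f.coeff w| := (abs_mul_abs_self _).symm
      _ ≤ |f.coeff w| * (η * s.coeff w + r.coeff w) := mul_le_mul_of_nonneg_left h1 (abs_nonneg _)
      _ ≤ _ := by nlinarith [mul_le_mul_of_nonneg_left h2 (r0 w)]
  refine step.trans ?_
  nlinarith [mul_le_mul_of_nonneg_left hn hη, r0.mass_nonneg]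

end Vale.Agent.P321
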