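import Vale.Agent.P321.AllQ.BaseLift

/-!
P321, all deletion probabilities, base: the words `(01)^k 1 (01)^(k+1)` overlap at a power linear
in `k`.
-/

open Finset

namespace Vale.Agent.P321

open Walk Lift

/-- The law of the cell `01` given that it is alive. -/
noncomputable def liveCell (p : ℝ) : Alg :=
  (1 - (1 - p) ^ 2)⁻¹ • (MonoidAlgebra.single (FreeMonoid.of false) ((1 - p) * p) +
    MonoidAlgebra.single (FreeMonoid.of true) (p * (1 - p)) +
    MonoidAlgebra.single (FreeMonoid.of false * FreeMonoid.of true) (p * p))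

section Cell

variable {p : ℝ} (hp : 0 < p) (hp1 : p < 1)

include hp hp1 in
lemma live_pos : 0 < 1 - (1 - p) ^ 2 ∧ 1 - (1 - p) ^ 2 < 1 := by constructor <;> nlinarith

include hp hp1 in
lemma isProb_liveCell : IsProb (liveCell p) := by
  classical
  have ht := (live_pos hp hp1).1
  have hs : ∀ (w : FreeMonoid Bool) (r : ℝ), 0 ≤ r → Pos (MonoidAlgebra.single w r : Alg) :=
    fun w r hr => (Le1.of_pos fun v => by
      simp only [MonoidAlgebra.coeff_single, Finsupp.single_apply]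
      split_ifs <;> [exact hr; exact le_rfl]).pos
  refine ⟨(((hs _ _ (by nlinarith)).add (hs _ _ (by nlinarith))).add
    (hs _ _ (by nlinarith))).smul (inv_nonneg.2 ht.le), ?_⟩
  simp only [liveCell, map_smul, map_add, mass_eq, MonoidAlgebra.coeff_single,
    Finsupp.sum_single_index, smul_eq_mul]
  rw [inv_mul_eq_one₀ ht.ne']
  ring

include hp hp1 in
lemma tr_pair_eq : tr p [false, true] =
    (1 - (1 - (1 - p) ^ 2)) • (1 : Alg) + (1 - (1 - p) ^ 2) • liveCell p := by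
  have ht := (live_pos hp hp1).1
  rw [liveCell, smul_smul, mul_inv_cancel₀ ht.ne', one_smul,
    show tr p [false, true] = bitT p false * bitT p true by simp [tr], bitT, bitT]
  simp only [add_mul, mul_add, MonoidAlgebra.single_mul_single, MonoidAlgebra.one_def,
    MonoidAlgebra.smul_single', mul_one, one_mul]
  rw [show 1 - (1 - (1 - p) ^ 2) = (1 - p) * (1 - p) by ring]
  simp only [mul_comm p (1 - p)]
  abel

include hp hp1 in
lemma ev_liveCell_true : (1 - (1 - p) ^ 2) / (p * (1 - p)) *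
    ev (liveCell p) (fun a => if a = [true] then 1 else 0) = 1 := by
  have ht := (live_pos hp hp1).1
  have hq : 0 < 1 - p := by linarith
  simp only [liveCell, ev_smul, ev_add, ev_single]
  simp only [FreeMonoid.toList_of, FreeMonoid.toList_mul, List.singleton_append, List.cons.injEq,
    Bool.false_eq_true, false_and, if_false, if_true, mul_zero, mul_one, zero_add,
    add_zero]
  field_simp

end Cell

/-- Bounded statistics determine the norm. -/
lemma nrm_le_of_ev {F : Alg} {r : ℝ}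
    (h : ∀ Φ : List Bool → ℝ, (∀ w, |Φ w| ≤ 1) → ev F Φ ≤ r) : nrm F ≤ r := by
  classical
  set Φ : List Bool → ℝ := fun w => if 0 ≤ F.coeff (FreeMonoid.ofList w) then 1 else -1 with hΦ
  refine le_of_eq_of_le ?_ (h Φ fun w => by simp only [hΦ]; split_ifs <;> norm_num)
  refine sum_congr rfl fun w _ => ?_
  by_cases hw : 0 ≤ F.coeff w
  · simp [hΦ, hw, abs_of_nonneg hw]
  · simp [hΦ, hw, abs_of_neg (not_le.1 hw)]

lemma nrm_subst_pos {φ : Alg} (hφ : IsProb φ) {Y : Alg} (hY : Pos Y) :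
    nrm (subst φ Y) ≤ mass Y := by
  refine nrm_le_of_ev fun Φ hΦ => ?_
  rw [ev_subst, ← one_mul (mass Y), ← ev_const]
  refine ev_mono hY fun T => (le_abs_self _).trans ((abs_ev_le _ _ hΦ).trans ?_)
  rw [(isProb_wd hφ isProb_mark T).nrm_eq]

lemma subst_per {p : ℝ} (hp : 0 < p) (hp1 : p < 1) (k₁ k₂ : ℕ) :
    subst (liveCell p) (per (1 - (1 - p) ^ 2) p k₁ k₂) =
      tr p [false, true] ^ k₁ * tr p [true] * tr p [false, true] ^ k₂ := by
  have hb : ∀ (t : ℝ) (b : Bool), subst (liveCell p) (bitT t b) =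
      (1 - t) • 1 + t • (if b then mark else liveCell p) := fun t b => by
    rw [bitT_eq, map_add, map_smul, map_smul, map_one, subst, MonoidAlgebra.lift_single, one_smul,
      FreeMonoid.lift_eval_of]
  rw [per, map_mul, map_mul, map_pow, map_pow, hb, hb, tr_pair_eq hp hp1]
  congr 2
  rw [show tr p [true] = bitT p true by simp [tr], bitT_eq]
  simp

lemma exists_nat_ge_two (a b : ℝ) : ∃ n : ℕ, 1 ≤ n ∧ a ≤ n ∧ b ≤ n :=
  ⟨max 1 (max ⌈a⌉₊ ⌈b⌉₊), le_max_left _ _,
    (Nat.le_ceil a).trans (by exact_mod_cast (le_max_left _ _).trans (le_max_right _ _)),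
    (Nat.le_ceil b).trans (by exact_mod_cast (le_max_right _ _).trans (le_max_right _ _))⟩

lemma pow_half_small {N g : ℕ} (hg : 4 ≤ g) {e : ℝ} (he : (N : ℝ) ≤ e * g) :
    (N : ℝ) * (g + 1) * ((2 : ℝ) ^ g)⁻¹ ≤ 2 * e := by
  have key : ∀ n : ℕ, 4 ≤ n → n ^ 2 ≤ 2 ^ n := by
    intro n hn
    induction n, hn using Nat.le_induction with
    | base => norm_num
    | succ n hn ih =>
      rw [pow_succ 2 n]
      nlinarith
  have h1 : g ^ 2 ≤ 2 ^ g := key g hg
  have h2 : (g : ℝ) * g ≤ 2 ^ g := by rw [← sq]; exact_mod_cast h1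
  have hg0 : (4 : ℝ) ≤ g := by exact_mod_cast hg
  have he0 : 0 ≤ e := by
    by_contra h
    nlinarith [Nat.cast_nonneg (α := ℝ) N]
  rw [← div_eq_mul_inv, div_le_iff₀ (by positivity)]
  calc (N : ℝ) * (g + 1) ≤ e * g * (2 * g) :=
        mul_le_mul he (by linarith) (by positivity) (by positivity)
    _ = 2 * e * (g * g) := by ring
    _ ≤ _ := mul_le_mul_of_nonneg_left h2 (by positivity)

lemma seg_bound {t p Cs : ℝ} (ht : 0 ≤ t) (ht1 : t ≤ 1) (hp : 0 ≤ p) (hp1 : p ≤ 1) (hCs : 0 ≤ Cs)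
    (hsm : ∀ N : ℕ, 1 ≤ N → nrm (Lw t ^ N * (1 - MonoidAlgebra.single (FreeMonoid.of false) 1)) ≤
      Cs / Real.sqrt N)
    {c2 : ℝ} (hc2 : 1 ≤ c2) {k g G0 E0 : ℕ} (hg : 1 ≤ g) (hkg : k < G0 * (g + 1)) (hE0 : 1 ≤ E0)
    (hkE : E0 ≤ k) (hE0a : 24 * (c2 - 1) * G0 ≤ E0) (hE0b : (24 * (c2 - 1) * Cs) ^ 2 ≤ E0)
    (r k₁ k₂ : ℕ) (h1 : k ≤ k₁) (h2 : k ≤ k₂) :
    ∀ j ≤ r * (k / E0), ∀ S, Sparse g 3 S → mom c2 (per t p k₁ k₂ ^ j) S ≤ 2 ^ r := by
  set s := k / E0 with hs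
  have hgr : (0 : ℝ) < g := by exact_mod_cast hg
  have hkr : (1 : ℝ) ≤ k := by exact_mod_cast (show 1 ≤ k by omega)
  refine mom_blocks ht ht1 hp hp1 hc2 (mom_segment ht ht1 hp hp1 hc2
    (ρ := fun i => (3 : ℕ) / (g : ℝ) + (3 : ℕ) * (Cs / Real.sqrt k) *
      (1 / Real.sqrt ((i : ℝ) + 1)))
    (fun i _ S hS => hitAt_le ht ht1 hp hp1 hCs hsm (by omega) h1 h2 (by omega) i hS)
    (fun i _ => by positivity) ?_) r
  rw [sum_add_distrib, ← mul_sum, sum_const, card_range, nsmul_eq_mul]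
  have hse : (s : ℝ) * E0 ≤ k := by exact_mod_cast Nat.div_mul_le_self k E0
  have hkg' : (k : ℝ) ≤ 2 * G0 * g := by
    have : k ≤ 2 * G0 * g := by
      refine hkg.le.trans ?_
      rw [mul_comm 2, mul_assoc]
      exact Nat.mul_le_mul_left _ (by omega)
    exact_mod_cast this
  have hE : (0 : ℝ) < E0 := by exact_mod_cast hE0
  have h1' : 2 * (c2 - 1) * ((s : ℝ) * ((3 : ℕ) / (g : ℝ))) ≤ 1 / 2 := by
    push_cast
    rw [← mul_div_assoc, ← mul_div_assoc, div_le_iff₀ hgr]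
    refine le_of_mul_le_mul_right ?_ hE
    calc 2 * (c2 - 1) * ((s : ℝ) * 3) * E0 = 6 * (c2 - 1) * (s * E0) := by ring
      _ ≤ 6 * (c2 - 1) * (2 * G0 * g) :=
        mul_le_mul_of_nonneg_left (hse.trans hkg') (by linarith)
      _ = 24 * (c2 - 1) * G0 * g / 2 := by ring
      _ ≤ E0 * g / 2 := by gcongr
      _ = _ := by ring
  have h2' : 2 * (c2 - 1) * (((3 : ℕ) : ℝ) * (Cs / Real.sqrt k) *
      ∑ i ∈ range s, 1 / Real.sqrt ((i : ℝ) + 1)) ≤ 1 / 2 := by
    push_cast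
    have hsq : 0 < Real.sqrt k := Real.sqrt_pos.2 (by linarith)
    calc 2 * (c2 - 1) * (3 * (Cs / Real.sqrt k) * ∑ i ∈ range s, 1 / Real.sqrt ((i : ℝ) + 1))
        ≤ 2 * (c2 - 1) * (3 * (Cs / Real.sqrt k) * (2 * Real.sqrt s)) := by
          refine mul_le_mul_of_nonneg_left (mul_le_mul_of_nonneg_left (sum_inv_sqrt s) ?_) ?_
          · positivity
          · linarith
      _ = 12 * (c2 - 1) * Cs * Real.sqrt s / Real.sqrt k := by ring
      _ ≤ 1 / 2 := by
          rw [div_le_iff₀ hsq]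
          have a : 24 * (c2 - 1) * Cs ≤ Real.sqrt E0 := Real.le_sqrt_of_sq_le hE0b
          have b' : Real.sqrt E0 * Real.sqrt s ≤ Real.sqrt k := by
            rw [← Real.sqrt_mul hE.le, mul_comm]; exact Real.sqrt_le_sqrt hse
          nlinarith [mul_le_mul_of_nonneg_right a (Real.sqrt_nonneg s)]
  rw [mul_add]
  exact (add_le_add h1' h2').trans (by norm_num)

/-- The truncated powers lose little mass. -/
lemma trunc_mass {t τ : ℝ} (ht : 0 < t) (ht1 : t < 1) (hτ : 0 < τ) {Y : Alg} {k g G0 N0 b n : ℕ}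
    (hYm : 1 - 2 ^ g * (1 - t / 2) ^ (k + 1) ≤ mass Y) (hG0 : (1 - t / 2) ^ G0 < 1 / 4)
    (hkg : k < G0 * (g + 1)) (hgk : G0 * g ≤ k) (hg4 : 4 ≤ g) (hb : b = N0 * k) (hb1 : 1 ≤ b)
    (hgbig : ((4 * N0 * G0 : ℕ) : ℝ) * (64 / τ ^ 5) ≤ g) (hn : n ≤ b + 1) :
    1 - τ ^ 5 / 16 ≤ mass (Y ^ n) := by
  have he : (2 : ℝ) ^ g * (1 - t / 2) ^ (k + 1) ≤ ((2 : ℝ) ^ g)⁻¹ := by
    have h1 : (1 - t / 2) ^ (k + 1) ≤ ((1 - t / 2) ^ G0) ^ g := by
      rw [← pow_mul]
      exact pow_le_pow_of_le_one (by linarith) (by linarith)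
        (le_trans hgk (Nat.le_succ k))
    have h2 : ((1 - t / 2) ^ G0) ^ g ≤ (1 / 4 : ℝ) ^ g :=
      pow_le_pow_left₀ (pow_nonneg (by linarith) _) hG0.le g
    refine (mul_le_mul_of_nonneg_left (h1.trans h2) (by positivity)).trans (le_of_eq ?_)
    rw [← mul_pow, ← inv_pow]; norm_num
  have hy : 1 - ((2 : ℝ) ^ g)⁻¹ ≤ mass Y := by linarith
  have hgi : ((2 : ℝ) ^ g)⁻¹ ≤ 1 := inv_le_one_of_one_le₀ (one_le_pow₀ (by norm_num))
  rw [map_pow]
  refine le_trans ?_ (pow_le_pow_left₀ (by linarith) hy n)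
  have hber := one_add_mul_le_pow (a := -((2 : ℝ) ^ g)⁻¹) (by linarith) n
  rw [← sub_eq_add_neg] at hber
  refine le_trans ?_ hber
  have hn' : (n : ℝ) ≤ (2 * N0 * G0 : ℕ) * (g + 1) := by
    have : n ≤ 2 * N0 * G0 * (g + 1) := by
      have : N0 * k ≤ N0 * (G0 * (g + 1)) := Nat.mul_le_mul_left _ hkg.le
      subst hb
      rw [show 2 * N0 * G0 * (g + 1) = 2 * (N0 * (G0 * (g + 1))) by ring]
      omega
    exact_mod_cast this
  have := pow_half_small (N := 2 * N0 * G0) (g := g) (e := τ ^ 5 / 32) hg4 (by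
    have := hgbig
    rw [mul_div_assoc', div_le_iff₀ (by positivity)] at this
    push_cast at this ⊢
    have : (0 : ℝ) ≤ N0 * G0 := by positivity
    linarith)
  have h0 : (0 : ℝ) ≤ ((2 : ℝ) ^ g)⁻¹ := by positivity
  have := mul_le_mul_of_nonneg_right hn' h0
  linarith

/-- No single number of live cells is likely. -/
lemma point_half {t p Cs : ℝ} (ht : 0 ≤ t) (ht1 : t ≤ 1) (hp : 0 ≤ p) (hp1 : p ≤ 1) (hCs : 0 ≤ Cs)
    (hsm : ∀ N : ℕ, 1 ≤ N → nrm (Lw t ^ N * (1 - MonoidAlgebra.single (FreeMonoid.of false) 1)) ≤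
      Cs / Real.sqrt N) {k b j : ℕ} (hk : 4 ≤ k) (hbk : k ≤ b) (hj : b ≤ 2 * j + 1) (M o : ℕ) :
    ev (per t p k (k + 1) ^ j) (fun w => if o + w.length = M then 1 else 0) ≤
      2 * (1 + Cs) / k := by
  have hkr : (4 : ℝ) ≤ k := by exact_mod_cast hk
  have h1 : k * k ≤ 4 * (j * (k + (k + 1))) := by
    have : k ≤ 4 * j := by omega
    calc k * k ≤ 4 * j * k := Nat.mul_le_mul_right k this
      _ ≤ 4 * j * (k + (k + 1)) := Nat.mul_le_mul_left _ (by omega)
      _ = _ := by ring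
  have hpos : 1 ≤ j * (k + (k + 1)) := Nat.mul_pos (by omega) (by omega)
  refine (point_le ht ht1 hp hp1 hsm hpos M o).trans ?_
  rw [div_le_div_iff₀ (Real.sqrt_pos.2 (by exact_mod_cast hpos)) (by linarith)]
  have : (k : ℝ) ≤ 2 * Real.sqrt ((j * (k + (k + 1)) : ℕ) : ℝ) := by
    rw [show (2 : ℝ) = Real.sqrt (2 ^ 2) from (Real.sqrt_sq (by norm_num)).symm,
      ← Real.sqrt_mul (by norm_num)]
    refine Real.le_sqrt_of_sq_le ?_
    rw [sq, show ((2 : ℝ) ^ 2) = 4 by norm_num]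
    exact_mod_cast h1
  calc (1 + Cs) * k ≤ (1 + Cs) * (2 * Real.sqrt _) :=
        mul_le_mul_of_nonneg_left this (by linarith)
    _ = _ := by ring

/-- Chebyshev for the number of live cells. -/
lemma outside_bound {X : Alg} {μ : ℝ} {k N0 L b n : ℕ} {Win : Finset ℕ}
    (hmean : Mean X μ (k + 1 + (k + 1 : ℕ))) (hμ0 : 0 ≤ μ) (hμk : μ ≤ 3 * k) (hk : 4 ≤ k)
    (hN0 : 1 ≤ N0) (hb : b = N0 * k) (hL : L = 128 * N0)
    (inWin : ∀ M : ℕ, |(M : ℝ) - b * μ| ≤ L * k → M ∈ Win) (hn1 : b ≤ n) (hn2 : n ≤ b + 1)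
    {R : Alg} (hRle : Pos (X ^ n - R)) :
    ev R (fun T => if T.length ∈ Win then 0 else 1) ≤ 1 / 16 := by
  have hXp := hmean.prob
  have hkr : (4 : ℝ) ≤ k := by exact_mod_cast hk
  have hLpos : (0 : ℝ) < L := by
    have : 0 < L := by omega
    exact_mod_cast this
  have hm := (hmean.pow n).snd (-(b * μ))
  refine (ev_le_of_pos hRle fun w => by split_ifs <;> norm_num).trans ?_
  refine (ev_mono (hXp.pow n).pos (ψ := fun w =>
    ((L * k : ℝ) ^ 2)⁻¹ * (-(b * μ) + (w.length : ℝ)) ^ 2) fun w => ?_).trans ?_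
  · split_ifs with h
    · positivity
    · rw [le_inv_mul_iff₀ (by positivity), mul_one]
      have := not_le.1 (mt (inWin w.length) h)
      rw [show (-(b * μ) + (w.length : ℝ)) ^ 2 = |(w.length : ℝ) - b * μ| ^ 2 by rw [sq_abs]; ring]
      exact pow_le_pow_left₀ (by positivity) this.le 2
  · rw [ev_const_mul]
    refine (mul_le_mul_of_nonneg_left hm (by positivity)).trans ?_
    rw [inv_mul_le_iff₀ (by positivity)]
    have hd : |-((b : ℝ) * μ) + n * μ| ≤ 3 * k := by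
      have h1 : (b : ℝ) ≤ n := by exact_mod_cast hn1
      have h2 : (n : ℝ) ≤ b + 1 := by exact_mod_cast hn2
      rw [abs_of_nonneg (by nlinarith [mul_nonneg (sub_nonneg.2 h1) hμ0])]
      nlinarith [mul_nonneg (sub_nonneg.2 h2) hμ0]
    have hd2 := pow_le_pow_left₀ (abs_nonneg _) hd 2
    rw [sq_abs] at hd2
    have hnk : (n : ℝ) ≤ 2 * N0 * k := by
      have : n ≤ 2 * N0 * k := by
        have : 1 ≤ N0 * k := Nat.mul_pos hN0 (by omega)
        rw [mul_assoc]; omega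
      exact_mod_cast this
    have hN : (1 : ℝ) ≤ N0 := by exact_mod_cast hN0
    subst hL; push_cast
    nlinarith [mul_le_mul hnk (show (k : ℝ) + 1 + (k + 1) ≤ 3 * k by linarith) (by linarith)
      (by positivity), mul_le_mul_of_nonneg_right hN (sq_nonneg (k : ℝ)),
      mul_le_mul_of_nonneg_right (mul_le_mul hN hN zero_le_one (by positivity)) (sq_nonneg (k : ℝ))]

/-- Two sub-laws close to two close laws share mass inside the window. -/
lemma window_min {Z Z' Q Q' : Alg} {bad : ℝ} (hZ : IsProb Z) (hZ' : IsProb Z')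
    (hQle : Pos (Z - Q)) (hQle' : Pos (Z' - Q'))
    (hQm : 1 - bad ≤ mass Q) (hQm' : 1 - bad ≤ mass Q') (hbad : bad ≤ 1 / 16) {W Win : Finset ℕ}
    (hWQ : OnSupp Q fun T => T.length ∈ W) (hWQ' : OnSupp Q' fun T => T.length ∈ W)
    (out : ev Q (fun T => if T.length ∈ Win then 0 else 1) ≤ 1 / 16)
    (out' : ev Q' (fun T => if T.length ∈ Win then 0 else 1) ≤ 1 / 16)
    (hshift : ∀ gf : ℕ → ℝ, (∀ n, |gf n| ≤ 1) →
      ev Z (fun w => gf w.length) - ev Z' (fun w => gf w.length) ≤ 1 / 8) :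
    3 / 4 ≤ ∑ M ∈ W.filter (· ∈ Win), min (pM Q M) (pM Q' M) := by
  classical
  have hQ1 : mass Q ≤ 1 := by rw [← hZ.mass_one]; exact hQle.mass_mono
  have hQ1' : mass Q' ≤ 1 := by rw [← hZ'.mass_one]; exact hQle'.mass_mono
  -- mass inside the window
  have inMass : ∀ R : Alg, OnSupp R (fun T => T.length ∈ W) →
      (∑ M ∈ W.filter (· ∈ Win), pM R M) +
        ev R (fun T => if T.length ∈ Win then 0 else 1) = mass R := by
    intro R hR
    simp only [pM]
    rw [← ev_sum_fun, ← ev_add_fun, ← one_mul (mass R), ← ev_const]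
    refine sum_congr rfl fun w hw => ?_
    simp only
    have := hR w (Finsupp.mem_support_iff.1 hw)
    rw [sum_ite_eq]
    by_cases h : (FreeMonoid.toList w).length ∈ Win <;> simp [h, this]
  set Win' := W.filter (· ∈ Win) with hWin'
  have htv : ∑ M ∈ Win', |pM Q M - pM Q' M| ≤ 1 / 8 + 2 * bad := by
    set gf : ℕ → ℝ := fun M =>
      if M ∈ Win' then (if 0 ≤ pM Q M - pM Q' M then 1 else -1) else 0 with hgf
    have hgb : ∀ n, |gf n| ≤ 1 := fun n => by simp only [hgf]; split_ifs <;> norm_num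
    have e : ∀ R : Alg, ev R (fun w => gf w.length) = ∑ M ∈ Win', gf M * pM R M := by
      intro R
      simp only [pM, ← ev_const_mul]
      rw [← ev_sum_fun]
      congr 1
      funext w
      simp only [mul_ite, mul_one, mul_zero, sum_ite_eq]
      by_cases h : w.length ∈ Win' <;> simp [hgf, h]
    have e2 : ∑ M ∈ Win', |pM Q M - pM Q' M| =
        ev Q (fun w => gf w.length) - ev Q' (fun w => gf w.length) := by
      rw [e, e, ← sum_sub_distrib]
      refine sum_congr rfl fun M hM => ?_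
      simp only [hgf, hM, if_true]
      split_ifs with h
      · rw [abs_of_nonneg h]; ring
      · rw [abs_of_neg (not_le.1 h)]; ring
    rw [e2]
    have := hshift gf hgb
    have d1 := abs_le.1 ((abs_ev_le (Z - Q) _ fun w => hgb w.length).trans
      (nrm_of_pos hQle).le)
    have d2 := abs_le.1 ((abs_ev_le (Z' - Q') _ fun w => hgb w.length).trans
      (nrm_of_pos hQle').le)
    rw [ev_sub, map_sub, hZ.mass_one] at d1
    rw [ev_sub, map_sub, hZ'.mass_one] at d2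
    linarith
  have e : ∑ M ∈ Win', min (pM Q M) (pM Q' M) = ((∑ M ∈ Win', pM Q M) + (∑ M ∈ Win', pM Q' M) -
      ∑ M ∈ Win', |pM Q M - pM Q' M|) / 2 := by
    rw [← sum_add_distrib, ← sum_sub_distrib, sum_div]
    refine sum_congr rfl fun M _ => ?_
    rcases le_total (pM Q M) (pM Q' M) with h | h
    · rw [min_eq_left h, abs_of_nonpos (sub_nonpos.2 h)]; ring
    · rw [min_eq_right h, abs_of_nonneg (sub_nonneg.2 h)]; ring
  have i1 := inMass Q hWQ
  have i2 := inMass Q' hWQ'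
  rw [e]
  linarith

/-- One more period hardly moves the number of live cells. -/
lemma shift_small {t p Cs μ v : ℝ} (hp : 0 ≤ p) (hp1 : p ≤ 1) (hCs : 0 ≤ Cs)
    (hsm : ∀ N : ℕ, 1 ≤ N → nrm (Lw t ^ N * (1 - MonoidAlgebra.single (FreeMonoid.of false) 1)) ≤
      Cs / Real.sqrt N) {X : Alg} {k N0 b : ℕ} (hX : X = per t p k (k + 1))
    (hmean : Mean X μ v) (hμk : μ ≤ 3 * k) (hk4 : 4 ≤ k) (hb : b = N0 * k) (hbk : k ≤ b)
    (hN0C : (32 * Cs) ^ 2 ≤ N0) (gf : ℕ → ℝ) (hgf : ∀ n, |gf n| ≤ 1) :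
    ev (X ^ b) (fun w => gf w.length) - ev (X ^ (b + 1)) (fun w => gf w.length) ≤ 1 / 8 := by
  have hXp := hmean.prob
  have hdom := ((dom_per (t := t) hp hp1 k (k + 1)).npow b)
  rw [← hX] at hdom
  have hN : 1 ≤ b * (k + (k + 1)) := Nat.mul_pos (by omega) (by omega)
  rw [pow_succ]
  refine (shift_law hsm hdom hN hXp (μ := μ) (le_of_eq (by simpa using hmean.fst 0)) hCs
    hgf).trans ?_
  rw [← mul_div_assoc, div_le_iff₀ (Real.sqrt_pos.2 (by exact_mod_cast hN))]
  have h1 : Real.sqrt N0 * k ≤ Real.sqrt ((b * (k + (k + 1)) : ℕ) : ℝ) := by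
    rw [← Real.sqrt_sq (Nat.cast_nonneg (α := ℝ) k), ← Real.sqrt_mul (Nat.cast_nonneg _)]
    refine Real.sqrt_le_sqrt ?_
    have : N0 * k ^ 2 ≤ b * (k + (k + 1)) := by
      rw [hb, sq, ← mul_assoc]; exact Nat.mul_le_mul_left _ (by omega)
    exact_mod_cast this
  have h2 : 32 * Cs ≤ Real.sqrt N0 := Real.le_sqrt_of_sq_le hN0C
  have h3 := mul_le_mul_of_nonneg_right h2 (Nat.cast_nonneg (α := ℝ) k)
  have h4 := mul_le_mul_of_nonneg_right hμk hCs
  have h5 : 0 ≤ (k : ℝ) * Cs := by positivity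
  linarith

/-- Overlap of the new cell at a power linear in `k`. -/
theorem base_overlap {p : ℝ} (hp : 0 < p) (hp1 : p < 1) : ∃ Cov k₀ : ℕ, ∀ k, k₀ ≤ k → ∀ B,
    Cov * k ≤ B →
      nrm ((tr p [false, true] ^ k * tr p [true] * tr p [false, true] ^ (k + 1)) ^ (B + 1) -
        (tr p [false, true] ^ k * tr p [true] * tr p [false, true] ^ (k + 1)) ^ B) ≤ 1 / 2 := by
  classical
  set t := 1 - (1 - p) ^ 2 with ht_def
  obtain ⟨ht0, ht1⟩ := live_pos hp hp1
  rw [← ht_def] at ht0 ht1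
  have hφ := isProb_liveCell hp hp1
  set c := t / (p * (1 - p)) with hc_def
  have hcc : c * ev (liveCell p) (fun a => if a = [true] then 1 else 0) = 1 :=
    ev_liveCell_true hp hp1
  have hc1 : 1 ≤ c := by
    rw [hc_def, ht_def, one_le_div (mul_pos hp (by linarith))]; nlinarith
  obtain ⟨-, Cs, hCs, -, hsm'⟩ := exists_smooth_mix
    (isProb_single (FreeMonoid.of false)) ht0 ht1
  have hsm : ∀ N : ℕ, 1 ≤ N → nrm (Lw t ^ N * (1 - MonoidAlgebra.single (FreeMonoid.of false) 1)) ≤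
      Cs / Real.sqrt N := fun N hN => by rw [Lw, bitT_eq]; exact hsm' N hN
  -- constants
  obtain ⟨N0, hN0, hN0C, -⟩ := exists_nat_ge_two ((32 * Cs) ^ 2) 0
  obtain ⟨G0, hG0⟩ := exists_pow_lt_of_lt_one (show (0 : ℝ) < 1 / 4 by norm_num)
    (show 1 - t / 2 < 1 by linarith)
  have hG1 : 1 ≤ G0 := Nat.one_le_iff_ne_zero.2 fun h => by subst h; norm_num at hG0
  set c2 := c ^ 2 with hc2_def
  have hc2 : 1 ≤ c2 := one_le_pow₀ hc1
  obtain ⟨E0, hE0, hE0a, hE0b⟩ := exists_nat_ge_two (24 * (c2 - 1) * G0) ((24 * (c2 - 1) * Cs) ^ 2)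
  set r := 4 * E0 * N0
  set K : ℝ := 2 ^ r
  set L : ℕ := 128 * N0
  set τ : ℝ := 1 / (80 * K * (1 + Cs) * L) with hτ_def
  have hK : 1 ≤ K := one_le_pow₀ (by norm_num)
  have hLpos : (1 : ℝ) ≤ L := by
    have : 1 ≤ L := by simp only [L]; omega
    exact_mod_cast this
  have hden : 0 < 80 * K * (1 + Cs) * L := by positivity
  have hτ : 0 < τ := by rw [hτ_def]; positivity
  have hτ1 : τ ≤ 1 := by
    rw [hτ_def, div_le_one hden]
    nlinarith [mul_le_mul hK hLpos zero_le_one (by positivity), mul_nonneg hCs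
      (mul_nonneg (show (0 : ℝ) ≤ K by positivity) (show (0 : ℝ) ≤ L by positivity))]
  set lam := τ ^ 5 / 8 with hlam
  have hlam0 : 0 < lam := by positivity
  obtain ⟨Mb, hMb⟩ := exists_pow_lt_of_lt_one (show (0 : ℝ) < 1 / 2 ^ 66 by positivity)
    (show 1 - lam / 2 < 1 by linarith)
  obtain ⟨G1, hG1', hg4, hgbig⟩ :=
    exists_nat_ge_two 4 ((4 * N0 * G0 : ℕ) * (64 / τ ^ 5))
  refine ⟨Mb * (2 * N0), max (max 4 E0) (G0 * (G1 + 1)), fun k hk B hB => ?_⟩
  have hk4 : 4 ≤ k := le_trans ((le_max_left _ _).trans (le_max_left _ _)) hk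
  have hkE : E0 ≤ k := le_trans ((le_max_right _ _).trans (le_max_left _ _)) hk
  have hkG : G0 * (G1 + 1) ≤ k := le_trans (le_max_right _ _) hk
  have hkr : (4 : ℝ) ≤ k := by exact_mod_cast hk4
  set X := per t p k (k + 1) with hX
  have hXp : IsProb X := isProb_per ht0.le ht1.le hp.le hp1.le _ _
  set b := N0 * k with hb
  have hbk : k ≤ b := Nat.le_mul_of_pos_left k hN0
  -- gaps
  set g := k / G0 with hg
  have hgG : G1 ≤ g := (Nat.le_div_iff_mul_le hG1).2 (by
    have : G0 * G1 ≤ G0 * (G1 + 1) := Nat.mul_le_mul_left _ (Nat.le_succ _)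
    rw [mul_comm]; omega)
  have hg4' : 4 ≤ g := by
    have : (4 : ℕ) ≤ G1 := by exact_mod_cast hg4
    omega
  have hkg : k < G0 * (g + 1) := Nat.lt_mul_div_succ k hG1
  -- truncation
  set Y := tper t p k (k + 1) g with hY
  obtain ⟨hYp, hYle, hYm⟩ := tper_le ht0.le ht1.le hp.le hp1.le k (k + 1) g
  rw [← hY] at hYp hYle hYm
  set bad : ℝ := τ ^ 5 / 16
  have hYmass : mass Y ≤ 1 := by
    rw [← hXp.mass_one]; exact Pos.mass_mono hYle
  have hbadn : ∀ n, n ≤ b + 1 → 1 - bad ≤ mass (Y ^ n) := fun n hn =>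
    trunc_mass ht0 ht1 hτ hYm hG0 hkg (Nat.mul_div_le k G0) hg4' hb (by omega)
      (hgbig.trans (by exact_mod_cast hgG)) hn
  -- the walk
  set s := k / E0 with hs
  have hs1 : 1 ≤ s := (Nat.one_le_div_iff hE0).2 hkE
  have hgr : (0 : ℝ) < g := by exact_mod_cast (show 0 < g by omega)
  have seg : ∀ k₁ k₂, k ≤ k₁ → k ≤ k₂ → ∀ j ≤ r * s, ∀ S, Sparse g 3 S →
      mom c2 (per t p k₁ k₂ ^ j) S ≤ K := seg_bound ht0.le ht1.le hp.le hp1.le hCs hsm hc2
    (by omega) hkg hE0 hkE hE0a hE0b r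
  have hrs : b + 1 ≤ r * s := by
    have h1 : k < E0 * (s + 1) := Nat.lt_mul_div_succ k hE0
    have h2 : E0 * (s + 1) ≤ 2 * (E0 * s) := by
      rw [Nat.mul_succ, two_mul]; exact Nat.add_le_add_left (Nat.le_mul_of_pos_right _ hs1) _
    have h3 : N0 * k ≤ N0 * (2 * (E0 * s)) := Nat.mul_le_mul_left _ (h1.le.trans h2)
    rw [show r * s = 2 * (N0 * (2 * (E0 * s))) by simp only [r]; ring]
    omega
  set A : ℝ := K * (2 * (1 + Cs) / k) with hA
  have point : ∀ j, b ≤ 2 * j + 1 → ∀ M o,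
      ev (X ^ j) (fun w => if o + w.length = M then 1 else 0) ≤ 2 * (1 + Cs) / k :=
    fun j hj => point_half ht0.le ht1.le hp.le hp1.le hCs hsm hk4 hbk hj
  have bound : ∀ n, b ≤ n → n ≤ b + 1 → ∀ M S, Sparse g 3 S →
      ev (Y ^ n) (fun T => if T.length = M then c ^ hits T S else 0) ≤ A := by
    intro n hn1 hn2 M S hS
    refine le_trans (ev_le_of_pos (pos_pow_sub hXp.pos hYp hYle n).1 fun w => by
      split_ifs <;> positivity) ?_
    rw [show n = n / 2 + (n - n / 2) by omega]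
    exact mom_at ht0.le ht1.le hp.le hp1.le hc1
      (seg k (k + 1) le_rfl (Nat.le_succ k) _ (by omega))
      (seg (k + 1) k (Nat.le_succ k) le_rfl _ (by omega))
      (point _ (by omega)) (point _ (by omega)) M hS
  -- the window
  set Q := Y ^ b with hQ
  set Q' := Y ^ (b + 1) with hQ'
  have hQp : Pos Q := (pos_pow_sub hXp.pos hYp hYle b).2
  have hQp' : Pos Q' := (pos_pow_sub hXp.pos hYp hYle (b + 1)).2
  have hQle : Pos (X ^ b - Q) := (pos_pow_sub hXp.pos hYp hYle b).1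
  have hQle' : Pos (X ^ (b + 1) - Q') := (pos_pow_sub hXp.pos hYp hYle (b + 1)).1
  set W : Finset ℕ := Q.coeff.support.image (fun w => (FreeMonoid.toList w).length) ∪
    Q'.coeff.support.image (fun w => (FreeMonoid.toList w).length) with hW
  set μ : ℝ := k * t + p + (k + 1 : ℕ) * t with hμ
  have hmean : Mean X μ (k + 1 + (k + 1 : ℕ)) := mean_per ht0.le ht1.le hp.le hp1.le k (k + 1)
  have hμ0 : 0 ≤ μ := by positivity
  have hμk : μ ≤ 3 * k := by
    rw [hμ]; push_cast; nlinarith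
  set a := ⌊(b : ℝ) * μ - L * k⌋₊ with ha
  set Win : Finset ℕ := Icc a (a + (2 * (L * k) + 1)) with hWin
  have inWin : ∀ M : ℕ, |(M : ℝ) - b * μ| ≤ L * k → M ∈ Win := by
    intro M hM
    obtain ⟨h1, h2⟩ := abs_le.1 hM
    rw [hWin, mem_Icc]
    refine ⟨Nat.floor_le_of_le (by linarith), ?_⟩
    have h3 : (b : ℝ) * μ - L * k < a + 1 := Nat.lt_floor_add_one _
    have : (M : ℝ) < (a + (2 * (L * k) + 1) : ℕ) := by push_cast; linarith
    exact_mod_cast this.le
  have outside : ∀ n, b ≤ n → n ≤ b + 1 → ∀ R : Alg, Pos (X ^ n - R) →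
      ev R (fun T => if T.length ∈ Win then 0 else 1) ≤ 1 / 16 :=
    fun n hn1 hn2 R hR => outside_bound hmean hμ0 hμk hk4 hN0 hb rfl inWin hn1 hn2 hR
  -- shift of the law of the number of live cells
  have hshift : ∀ gf : ℕ → ℝ, (∀ n, |gf n| ≤ 1) →
      ev (X ^ b) (fun w => gf w.length) - ev (X ^ (b + 1)) (fun w => gf w.length) ≤ 1 / 8 :=
    shift_small hp.le hp1.le hCs hsm hX hmean hμk hk4 hb hbk hN0C
  have hWQ : OnSupp Q fun T => T.length ∈ W := fun w hw =>
    mem_union_left _ (mem_image_of_mem _ (Finsupp.mem_support_iff.2 hw))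
  have hWQ' : OnSupp Q' fun T => T.length ∈ W := fun w hw =>
    mem_union_right _ (mem_image_of_mem _ (Finsupp.mem_support_iff.2 hw))
  have hbad : bad ≤ 1 / 16 := by
    have := pow_le_one₀ (n := 5) hτ.le hτ1
    simp only [bad]; linarith
  have hw := window_min (hXp.pow b) (hXp.pow (b + 1)) hQle hQle' (hbadn b (Nat.le_succ b))
    (hbadn (b + 1) le_rfl) hbad hWQ hWQ' (outside b le_rfl (Nat.le_succ b) Q hQle)
    (outside (b + 1) (Nat.le_succ b) le_rfl Q' hQle') hshift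
  set Win' := W.filter (· ∈ Win) with hWin'
  have hmin : 5 / 8 ≤ ∑ M ∈ Win', (min (pM Q M) (pM Q' M) - τ * A) := by
    rw [sum_sub_distrib, sum_const, nsmul_eq_mul]
    have hcard : (Win'.card : ℝ) ≤ 5 * L * k := by
      have h1 : Win'.card ≤ Win.card := card_le_card fun M hM => (mem_filter.1 hM).2
      have h2 : Win.card ≤ 5 * L * k := by
        rw [hWin, Nat.card_Icc]
        have : 1 ≤ L * k := Nat.mul_pos (by simp only [L]; omega) (by omega)
        rw [mul_assoc 5 L k]; omega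
      exact_mod_cast h1.trans h2
    have hτA : (Win'.card : ℝ) * (τ * A) ≤ 1 / 8 := by
      refine (mul_le_mul_of_nonneg_right hcard (by positivity)).trans (le_of_eq ?_)
      rw [hτ_def, hA]
      field_simp
      ring
    linarith
  have hQm : 1 - bad ≤ mass Q := hbadn b (Nat.le_succ b)
  have hQm' : 1 - bad ≤ mass Q' := hbadn (b + 1) le_rfl
  have hgap : OnSupp Y (Gap g) := gap_tper t p k (k + 1) g
  have hcm : τ ^ 5 / 2 * (5 / 8) ≤
      ∑ M ∈ W, tupE (liveCell p) M fun u => min (fM c Q M u) (fM c Q' M u) := by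
    refine le_trans (mul_le_mul_of_nonneg_left hmin (by positivity)) ?_
    rw [mul_sum]
    refine (sum_le_sum fun M _ => common_M hφ hcc hc1 hQp hQp' (gap_pow hgap b)
      (gap_pow hgap (b + 1)) (fun S hS => bound b le_rfl (Nat.le_succ b) M S hS)
      (fun S hS => bound (b + 1) (Nat.le_succ b) le_rfl M S hS) hτ).trans ?_
    refine sum_le_sum_of_subset_of_nonneg (filter_subset _ _) fun M _ _ => ?_
    refine tupE_nonneg hφ.pos M fun u => le_min ?_ ?_
    · exact ev_nonneg hQp fun T => by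
        split_ifs
        · exact dens_nonneg (by linarith) T u
        · exact le_rfl
    · exact ev_nonneg hQp' fun T => by
        split_ifs
        · exact dens_nonneg (by linarith) T u
        · exact le_rfl
  set Z := tr p [false, true] ^ k * tr p [true] * tr p [false, true] ^ (k + 1)
  have hsub : subst (liveCell p) X = Z := subst_per hp hp1 k (k + 1)
  have hov : nrm (Z ^ (b + 1) - Z ^ b) ≤ 2 - 2 * lam := by
    rw [← hsub, ← map_pow, ← map_pow, nrm_sub_comm]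
    have e : subst (liveCell p) (X ^ b) - subst (liveCell p) (X ^ (b + 1)) =
        (subst (liveCell p) Q - subst (liveCell p) Q') +
          (subst (liveCell p) (X ^ b - Q) - subst (liveCell p) (X ^ (b + 1) - Q')) := by
      rw [map_sub, map_sub]; abel
    rw [e]
    refine (nrm_add _ _).trans ((add_le_add (nrm_subst_le hφ hcc W hWQ hWQ')
      ((nrm_sub _ _).trans (add_le_add (nrm_subst_pos hφ hQle) (nrm_subst_pos hφ hQle')))).trans ?_)
    rw [map_sub, map_sub, (hXp.pow _).mass_one, (hXp.pow _).mass_one]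
    simp only [hlam]
    linarith [pow_pos hτ 5]
  have hZ : IsProb Z := ((((isProb_tr hp.le hp1.le _).pow _).mul
    (isProb_tr hp.le hp1.le _))).mul ((isProb_tr hp.le hp1.le _).pow _)
  have hboost := overlap_boost hZ b hov (M := Mb) (by
    have h66 : (0 : ℝ) < 2 ^ 66 := by positivity
    rw [lt_div_iff₀ h66, mul_comm] at hMb
    exact hMb.le)
  have hmonoto : ∀ {n n' : ℕ}, n ≤ n' →
      nrm (Z ^ (n' + 1) - Z ^ n') ≤ nrm (Z ^ (n + 1) - Z ^ n) := by
    intro n n' h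
    obtain ⟨j, rfl⟩ := Nat.exists_eq_add_of_le h
    rw [show n + j + 1 = j + (n + 1) by omega, show n + j = j + n by omega, pow_add Z j (n + 1),
      pow_add Z j n, ← mul_sub]
    exact (hZ.pow j).nrm_mul_left _
  refine (hmonoto ?_).trans hboost
  refine le_trans ?_ hB
  rw [mul_assoc]
  refine Nat.mul_le_mul_left _ ?_
  rw [hb, mul_assoc]
  omega

end Vale.Agent.P321
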