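import Vale.Agent.P321.AllQ.Interfaces
import Vale.Agent.P321.AllQ.BaseExc
import Vale.Agent.P321.AllQ.BaseOverlap

/-!
P321, every deletion probability: the base pairs `(01)^k 1 (01)^(k+1)`, `(01)^(k+1) 1 (01)^k`, with
ratio exponent `7/10` of the length exponent and any linear exceptional exponent.
-/

open Finset

namespace Vale.Agent.P321

open Walk Lift

lemma block_succ' (x : List Bool) (k : ℕ) : block x (k + 1) = block x k ++ x := by
  rw [block, block, List.replicate_succ', List.flatten_concat]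

lemma base_pair_ne (k : ℕ) :
    block [false, true] k ++ [true] ++ block [false, true] (k + 1) ≠
      block [false, true] (k + 1) ++ [true] ++ block [false, true] k := by
  intro h
  nth_rw 2 [block_succ'] at h
  simp only [List.append_assoc] at h
  have := List.append_cancel_left h
  simp at this

lemma exp_neg_le_inv_two_pow {n : ℕ} {x : ℝ} (h : (n : ℝ) ≤ x) :
    Real.exp (-x) ≤ ((2 : ℝ) ^ n)⁻¹ := by
  rw [Real.exp_neg]
  refine inv_anti₀ (by positivity) ?_
  calc (2 : ℝ) ^ n ≤ Real.exp 1 ^ n :=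
        pow_le_pow_left₀ (by norm_num) (by linarith [Real.add_one_le_exp (1 : ℝ)]) n
    _ = Real.exp n := by rw [← Real.exp_nat_mul, mul_one]
    _ ≤ _ := Real.exp_le_exp.2 h

lemma linear_le_two_pow (a b : ℕ) : ∀ u, 10 * (10 * a + b + 4) ≤ u → a * u + b ≤ 2 ^ (u / 10) := by
  intro u hu
  set j := u / 10 with hj
  have hj1 : 10 * a + b + 4 ≤ j := (Nat.le_div_iff_mul_le (by norm_num)).2 (by omega)
  have hsq : ∀ n : ℕ, 4 ≤ n → n ^ 2 ≤ 2 ^ n := by
    intro n hn
    induction n, hn using Nat.le_induction with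
    | base => norm_num
    | succ n hn ih => rw [pow_succ 2 n]; nlinarith
  refine le_trans ?_ (hsq j (by omega))
  have h1 : a * u ≤ a * (10 * j + 9) := Nat.mul_le_mul_left _ (by omega)
  have h2 : (10 * a + b + 4) * j ≤ j * j := Nat.mul_le_mul_right _ hj1
  have h3 : b * 4 ≤ b * j := Nat.mul_le_mul_left _ (by omega)
  have h4 : a * 9 ≤ j * 4 := by omega
  rw [sq]
  linarith

/-- The numerical side of the exceptional bound. -/
lemma exc_small {θ : ℝ} {A u F n : ℕ} (hθ1 : 1 ≤ θ) (hA : θ ≤ A) (hF : F + 2 + u / 10 ≤ 3 * u)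
    (hu : 2 * A * n ≤ 2 ^ (u / 10)) :
    6 / (2 ^ (3 * u) / (2 * θ)) *
        Real.exp (-(2 ^ (3 * u) / (2 * θ) * ((2 : ℝ) ^ (F + 2))⁻¹)) +
      (2 ^ (2 * 2 ^ (4 * u)))⁻¹ * (2 * θ) +
      2 * ((2 : ℝ) ^ (F + 2))⁻¹ * (6 / (2 ^ u / θ) * Real.exp (-(2 ^ u / θ * (1 / 2))) +
        (2 ^ (2 * 2 ^ (4 * u)))⁻¹ * θ) ≤ 32 * θ * ((2 : ℝ) ^ n)⁻¹ := by
  have hθ : 0 < θ := by linarith
  set x : ℝ := ((2 : ℝ) ^ n)⁻¹ with hx
  have hn : 2 * θ * n ≤ (2 : ℝ) ^ (u / 10) := by
    have : (2 * A * n : ℝ) ≤ 2 ^ (u / 10) := by exact_mod_cast hu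
    refine le_trans ?_ this
    gcongr
  have ea : Real.exp (-(2 ^ (3 * u) / (2 * θ) * ((2 : ℝ) ^ (F + 2))⁻¹)) ≤ x := by
    refine exp_neg_le_inv_two_pow ?_
    rw [← div_eq_mul_inv, div_div, le_div_iff₀ (by positivity)]
    calc (n : ℝ) * (2 * θ * 2 ^ (F + 2)) = 2 * θ * n * 2 ^ (F + 2) := by ring
      _ ≤ 2 ^ (u / 10) * 2 ^ (F + 2) := mul_le_mul_of_nonneg_right hn (by positivity)
      _ ≤ _ := by rw [← pow_add]; exact pow_le_pow_right₀ one_le_two (by omega)
  have eb : Real.exp (-(2 ^ u / θ * (1 / 2))) ≤ x := by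
    refine exp_neg_le_inv_two_pow ?_
    rw [mul_one_div, div_div, le_div_iff₀ (by positivity)]
    calc (n : ℝ) * (θ * 2) = 2 * θ * n := by ring
      _ ≤ _ := hn.trans (pow_le_pow_right₀ one_le_two (Nat.div_le_self u 10))
  have ec : ((2 : ℝ) ^ (2 * 2 ^ (4 * u)))⁻¹ ≤ x := by
    refine inv_anti₀ (by positivity) (pow_le_pow_right₀ one_le_two ?_)
    have h1 : 1 ≤ A := by exact_mod_cast (hθ1.trans hA)
    have h2 : n ≤ 2 * A * n := Nat.le_mul_of_pos_left _ (by omega)
    have h3 : 2 ^ (u / 10) ≤ 2 ^ (4 * u) := Nat.pow_le_pow_right (by norm_num) (by omega)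
    omega
  have p1 : 6 / (2 ^ (3 * u) / (2 * θ)) ≤ 12 * θ := by
    rw [div_div_eq_mul_div, div_le_iff₀ (by positivity)]
    nlinarith [one_le_pow₀ (M₀ := ℝ) (a := 2) one_le_two (n := 3 * u)]
  have p2 : 6 / (2 ^ u / θ) ≤ 6 * θ := by
    rw [div_div_eq_mul_div, div_le_iff₀ (by positivity)]
    nlinarith [one_le_pow₀ (M₀ := ℝ) (a := 2) one_le_two (n := u)]
  have p3 : 2 * ((2 : ℝ) ^ (F + 2))⁻¹ ≤ 2 := by
    have := inv_le_one_of_one_le₀ (one_le_pow₀ (M₀ := ℝ) (a := 2) one_le_two (n := F + 2))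
    linarith
  have hx0 : 0 ≤ x := by rw [hx]; positivity
  calc _ ≤ 12 * θ * x + x * (2 * θ) + 2 * (6 * θ * x + x * θ) := by gcongr
    _ = 28 * θ * x := by ring
    _ ≤ _ := by gcongr; linarith

/-- The base of the climb at every deletion probability. -/
theorem base_stmt : BaseStmt := by
  intro p hp hp1 C
  classical
  set q := 1 - p with hq_def
  have hq : 0 < q := by rw [hq_def]; linarith
  set Fc := tr p [false, true] with hFc
  set Hc := tr p [true] with hHc
  have hFp : IsProb Fc := isProb_tr hp.le hp1.le _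
  have hHp : IsProb Hc := isProb_tr hp.le hp1.le _
  -- one cell
  obtain ⟨ht0, ht1⟩ := live_pos hp hp1
  obtain ⟨B₀, -, -, hB0, -⟩ := exists_smooth_mix (isProb_liveCell hp hp1) ht0 ht1
  rw [← tr_pair_eq hp hp1, ← hFc] at hB0
  set θ := q⁻¹ + 1 with hθ
  have hθ1 : 1 ≤ θ := by rw [hθ]; have := inv_pos.2 hq; linarith
  have hle : Le1 (Hc - Fc) (θ • Fc) := by
    have h1 : Pos (q⁻¹ • Fc - Hc) := by
      have hs : ∀ (w : FreeMonoid Bool) (r : ℝ), 0 ≤ r → Pos (MonoidAlgebra.single w r : Alg) :=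
        fun w r hr v => by
          simp only [MonoidAlgebra.coeff_single, Finsupp.single_apply]
          split_ifs <;> [exact hr; exact le_rfl]
      have e : q⁻¹ • Fc - Hc = MonoidAlgebra.single (FreeMonoid.of false) p +
          MonoidAlgebra.single (FreeMonoid.of false * FreeMonoid.of true) (q⁻¹ * (p * p)) := by
        rw [hFc, hHc, show tr p [false, true] = bitT p false * bitT p true by simp [tr],
          show tr p [true] = bitT p true by simp [tr], bitT, bitT, ← hq_def]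
        simp only [add_mul, mul_add, MonoidAlgebra.single_mul_single, smul_add,
          MonoidAlgebra.smul_single', mul_one, one_mul]
        rw [show q⁻¹ * (q * q) = q by field_simp, show q⁻¹ * (q * p) = p by field_simp,
          show q⁻¹ * (p * q) = p by field_simp]
        abel
      rw [e]
      exact (hs _ _ hp.le).add (hs _ _ (by positivity))
    refine ((Le1.of_pos hHp.pos).sub (Le1.of_pos hFp.pos)).trans_pos ?_
    rw [show θ • Fc - (Hc + Fc) = q⁻¹ • Fc - Hc by rw [hθ, add_smul, one_smul]; abel]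
    exact h1
  obtain ⟨Cov, k₀, hov⟩ := base_overlap hp hp1
  obtain ⟨c₀, hc₀⟩ : ∃ c, 48 * (B₀ + 1) * (8 + Cov) ≤ 2 ^ c :=
    ⟨_, Nat.lt_two_pow_self.le⟩
  obtain ⟨A, hA⟩ := exists_nat_ge θ
  obtain ⟨Lθ, hLθ⟩ : ∃ L, 32 * A ≤ 2 ^ L := ⟨_, Nat.lt_two_pow_self.le⟩
  set a := 2 * A * ((C + 4) * 4) with ha
  set b := 2 * A * ((C + 4) * c₀ + Lθ) with hb
  obtain ⟨u, hu⟩ : ∃ u, u = max (max k₀ C) (max (7 * c₀ + 29) (10 * (10 * a + b + 4))) :=
    ⟨_, rfl⟩
  have huk : k₀ ≤ u := hu ▸ (le_max_left _ _).trans (le_max_left _ _)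
  have huC : C ≤ u := hu ▸ (le_max_right _ _).trans (le_max_left _ _)
  have huc : 7 * c₀ + 29 ≤ u := hu ▸ (le_max_left _ _).trans (le_max_right _ _)
  have hue : 10 * (10 * a + b + 4) ≤ u := hu ▸ (le_max_right _ _).trans (le_max_right _ _)
  clear hu
  set β := 4 * u + c₀ with hβ
  set F := (7 * β + 9) / 10 with hF
  set h := 2 ^ (4 * u) with hh
  set k := 48 * h * (B₀ + 1) with hk
  have hu4 : u ≤ h := by
    rw [hh]; exact (Nat.lt_two_pow_self.le).trans (Nat.pow_le_pow_right (by norm_num) (by omega))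
  have hkh : h ≤ k := by rw [hk]; nlinarith
  have hbig : (8 + Cov) * k ≤ 2 ^ β := by
    rw [hβ, pow_add, ← hh, hk]
    calc (8 + Cov) * (48 * h * (B₀ + 1)) = h * (48 * (B₀ + 1) * (8 + Cov)) := by ring
      _ ≤ _ := Nat.mul_le_mul_left _ hc₀
  set x := block [false, true] k ++ [true] ++ block [false, true] (k + 1) with hx
  set y := block [false, true] (k + 1) ++ [true] ++ block [false, true] k with hy
  set η : ℝ := ((2 : ℝ) ^ (F + 2))⁻¹ with hη
  set lam : ℝ := 2 ^ (3 * u) / (2 * θ) with hlam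
  set lam' : ℝ := 2 ^ u / θ with hlam'
  have hθ0 : 0 < θ := by linarith
  have hsq : (2 : ℝ) ^ (2 * u) ≤ Real.sqrt ((h : ℝ) + 1) := by
    refine Real.le_sqrt_of_sq_le ?_
    rw [hh, ← pow_mul, show 2 * u * 2 = 4 * u by ring]
    push_cast; linarith
  have hexc := exc_pair hFp hHp hθ0.le hle B₀ hB0 h (lam := lam) (lam' := lam') (η := η)
    (by rw [hlam]; positivity) (by rw [hlam']; positivity) (by positivity) (by
      have h1 : (2 : ℝ) ^ (4 * u) * 2 ^ (2 * u) ≤ ((h : ℝ) + 1) * Real.sqrt (2 * h + 1) := by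
        refine mul_le_mul ?_ (hsq.trans (Real.sqrt_le_sqrt (by linarith [Nat.cast_nonneg (α := ℝ) h])))
          (by positivity) (by positivity)
        rw [hh]; push_cast; linarith
      rw [hlam, div_pow, mul_pow, mul_div_assoc', div_le_one (by positivity)]
      rw [← pow_mul, show 3 * u * 2 = 4 * u + 2 * u by ring, pow_add]
      field_simp
      linarith [mul_pos (pow_pos (two_pos (α := ℝ)) (4 * u)) (pow_pos (two_pos (α := ℝ)) (2 * u))])
    (by
      rw [hlam', div_pow, div_mul_cancel₀ _ (pow_ne_zero 2 hθ0.ne'), ← pow_mul, mul_one_div,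
        div_le_one (by positivity), mul_comm u 2]
      exact hsq)
  set n := (C + 4) * β + Lθ with hn
  have hsmall := exc_small (u := u) (F := F) (n := n) hθ1 hA (by omega) (by
    refine le_trans (le_of_eq ?_) (linear_le_two_pow a b u hue)
    rw [ha, hb, hn, hβ]; ring)
  have htrx : tr p x = Fc ^ k * Hc * Fc ^ (k + 1) := by
    rw [hx, tr_append, tr_append, tr_block, tr_block]
  have htry : tr p y = Fc ^ (k + 1) * Hc * Fc ^ k := by
    rw [hy, tr_append, tr_append, tr_block, tr_block]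
  have hX : IsProb (tr p x) := isProb_tr hp.le hp1.le _
  have hY : IsProb (tr p y) := isProb_tr hp.le hp1.le _
  rw [← hh] at hsmall
  rw [← htrx, ← htry] at hexc
  have hexc' : Exc (tr p x) (tr p y) ((2 : ℝ) ^ (F + 1))⁻¹ ((2 : ℝ) ^ ((C + 4) * β))⁻¹ := by
    refine hexc.mono hX.pos hY.pos (le_of_eq ?_) (hsmall.trans ?_)
    · rw [hη, pow_succ _ (F + 1)]; field_simp
    · rw [hn, pow_add, mul_inv]
      have hb' : 32 * θ * ((2 : ℝ) ^ Lθ)⁻¹ ≤ 1 := by
        rw [← div_eq_mul_inv, div_le_one (by positivity)]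
        have : (32 * A : ℝ) ≤ 2 ^ Lθ := by exact_mod_cast hLθ
        linarith
      calc 32 * θ * (((2 : ℝ) ^ ((C + 4) * β))⁻¹ * ((2 : ℝ) ^ Lθ)⁻¹)
          = (32 * θ * ((2 : ℝ) ^ Lθ)⁻¹) * ((2 : ℝ) ^ ((C + 4) * β))⁻¹ := by ring
        _ ≤ _ := mul_le_of_le_one_left (by positivity) hb'
  have hFβ : F ≤ β := by omega
  refine ⟨x, y, F, β, C * β, ⟨?_, base_pair_ne k, ?_, ?_, ?_, ?_⟩, by omega, by omega, hFβ, le_rfl⟩
  · simp only [hx, hy, List.length_append, length_block]; omega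
  · simp only [hx, List.length_append, length_block, List.length_cons, List.length_nil]
    refine le_trans ?_ hbig
    have : 0 < k := lt_of_lt_of_le (Nat.two_pow_pos _) hkh
    nlinarith [Nat.zero_le (Cov * k)]
  · refine dev_of_exc_sq hX hY (by positivity) (inv_le_one_of_one_le₀ (one_le_pow₀ one_le_two))
      (by positivity) hexc' ?_
    have h1 : ((2 : ℝ) ^ ((C + 4) * β))⁻¹ ≤ ((2 : ℝ) ^ (2 * F + 2))⁻¹ :=
      inv_anti₀ (by positivity) (pow_le_pow_right₀ one_le_two (by nlinarith))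
    refine (add_le_add le_rfl (mul_le_mul_of_nonneg_left h1 (by norm_num))).trans (le_of_eq ?_)
    rw [inv_pow, inv_pow, ← pow_mul, ← pow_mul, show (F + 1) * 2 = 2 * F + 2 by ring,
      show F * 2 = 2 * F by ring, pow_add]
    ring
  · exact hexc'.mono hX.pos hY.pos (inv_anti₀ (by positivity)
      (pow_le_pow_right₀ one_le_two (by omega))) (inv_anti₀ (by positivity)
      (pow_le_pow_right₀ one_le_two (Nat.mul_le_mul_right _ (by omega))))
  · rw [htrx]
    refine hov k (by omega) _ (le_trans ?_ hbig)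
    exact Nat.mul_le_mul_right _ (by omega)

end Vale.Agent.P321
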