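import Vale.Agent.P321.Super.Pad

/-!
P321, all deletion probabilities, base: exponential moments in the `ℓ¹` algebra.

`Expo G ρ Z` says `G ≥ ρ · exp (Z / ρ)` pointwise, in tangent-line form. It is closed under
products, so a linear form `∑ c_s F^s D F^(n-1-s)` in independent cells is at most `η F^n` up to an
exponentially small mass.
-/

open Finset

namespace Vale.Agent.P321

open Classical in
lemma coeff_mul_sub {f g : Alg} {s t : Finset (FreeMonoid Bool)} (hs : f.coeff.support ⊆ s)
    (ht : g.coeff.support ⊆ t) (w : FreeMonoid Bool) :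
    (f * g).coeff w =
      ∑ a ∈ s, ∑ b ∈ t, if a * b = w then f.coeff a * g.coeff b else 0 := by
  classical
  rw [MonoidAlgebra.coeff_mul, Finsupp.sum_of_support_subset _ hs _ (by simp)]
  exact sum_congr rfl fun a _ => Finsupp.sum_of_support_subset _ ht _ (by simp)

/-- `G` dominates `ρ exp (Z / ρ)`. -/
structure Expo (G ρ Z : Alg) : Prop where
  pos : Pos ρ
  ac : ∀ w, ρ.coeff w = 0 → Z.coeff w = 0
  line : ∀ w (t : ℝ), Real.exp t * ((1 - t) * ρ.coeff w + Z.coeff w) ≤ G.coeff w

lemma Expo.posG {G ρ Z : Alg} (h : Expo G ρ Z) : Pos G := fun w => by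
  by_cases h0 : ρ.coeff w = 0
  · simpa [h0, h.ac w h0] using h.line w 0
  · have := h.line w (Z.coeff w / ρ.coeff w)
    refine le_trans ?_ this
    rw [sub_mul, one_mul, div_mul_cancel₀ _ h0, sub_add_cancel]
    exact mul_nonneg (Real.exp_pos _).le (h.pos w)

lemma Expo.exp_le {G ρ Z : Alg} (h : Expo G ρ Z) {w : FreeMonoid Bool} (h0 : ρ.coeff w ≠ 0) :
    ρ.coeff w * Real.exp (Z.coeff w / ρ.coeff w) ≤ G.coeff w := by
  have := h.line w (Z.coeff w / ρ.coeff w)
  rwa [sub_mul, one_mul, div_mul_cancel₀ _ h0, sub_add_cancel, mul_comm] at this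

lemma Expo.of_exp {G ρ Z : Alg} (hρ : Pos ρ) (hac : ∀ w, ρ.coeff w = 0 → Z.coeff w = 0)
    (hG : ∀ w, ρ.coeff w * Real.exp (Z.coeff w / ρ.coeff w) ≤ G.coeff w) : Expo G ρ Z := by
  refine ⟨hρ, hac, fun w t => le_trans ?_ (hG w)⟩
  rcases eq_or_ne (ρ.coeff w) 0 with h0 | h0
  · simp [h0, hac w h0]
  · have hp : 0 < ρ.coeff w := (hρ w).lt_of_ne' h0
    have e : (1 - t) * ρ.coeff w + Z.coeff w =
        ρ.coeff w * (Z.coeff w / ρ.coeff w - t + 1) := by field_simp; ring
    rw [e, mul_left_comm]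
    refine mul_le_mul_of_nonneg_left ?_ hp.le
    calc Real.exp t * (Z.coeff w / ρ.coeff w - t + 1)
        ≤ Real.exp t * Real.exp (Z.coeff w / ρ.coeff w - t) :=
          mul_le_mul_of_nonneg_left (Real.add_one_le_exp _) (Real.exp_pos _).le
      _ = _ := by rw [← Real.exp_add]; ring_nf

lemma Expo.one : Expo 1 1 0 := by
  refine Expo.of_exp Pos.one (fun _ _ => by simp) fun w => by simp

lemma Expo.mul {G ρ Z G' ρ' Z' : Alg} (h : Expo G ρ Z) (h' : Expo G' ρ' Z') :
    Expo (G * G') (ρ * ρ') (Z * ρ' + ρ * Z') := by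
  classical
  set s := G.coeff.support ∪ ρ.coeff.support ∪ Z.coeff.support
  set t := G'.coeff.support ∪ ρ'.coeff.support ∪ Z'.coeff.support
  have eG := coeff_mul_sub (f := G) (g := G') (s := s) (t := t)
    (subset_union_left.trans subset_union_left) (subset_union_left.trans subset_union_left)
  have eρ := coeff_mul_sub (f := ρ) (g := ρ') (s := s) (t := t)
    (subset_union_right.trans subset_union_left) (subset_union_right.trans subset_union_left)
  have eZ := coeff_mul_sub (f := Z) (g := ρ') (s := s) (t := t)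
    subset_union_right (subset_union_right.trans subset_union_left)
  have eZ' := coeff_mul_sub (f := ρ) (g := Z') (s := s) (t := t)
    (subset_union_right.trans subset_union_left) subset_union_right
  refine ⟨h.pos.mul h'.pos, fun w hw => ?_, fun w u => ?_⟩
  · rw [eρ w, sum_eq_zero_iff_of_nonneg (fun a _ => sum_nonneg fun b _ => by
      split_ifs
      · exact mul_nonneg (h.pos a) (h'.pos b)
      · exact le_rfl)] at hw
    rw [MonoidAlgebra.coeff_add, Finsupp.add_apply, eZ w, eZ' w, ← sum_add_distrib]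
    refine sum_eq_zero fun a ha => ?_
    have hab := (sum_eq_zero_iff_of_nonneg fun b _ => by
      split_ifs
      · exact mul_nonneg (h.pos a) (h'.pos b)
      · exact le_rfl).1 (hw a ha)
    rw [← sum_add_distrib]
    refine sum_eq_zero fun b hb => ?_
    have := hab b hb
    split_ifs at this ⊢ with e
    · rcases mul_eq_zero.1 this with z | z
      · simp [z, h.ac a z]
      · simp [z, h'.ac b z]
    · simp
  · rw [MonoidAlgebra.coeff_add, Finsupp.add_apply, eG w, eρ w, eZ w, eZ' w]
    simp only [mul_sum, ← sum_add_distrib]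
    refine sum_le_sum fun a _ => sum_le_sum fun b _ => ?_
    split_ifs
    swap
    · simp
    rcases eq_or_ne (ρ.coeff a) 0 with z | z
    · simp [z, h.ac a z, mul_nonneg (h.posG a) (h'.posG b)]
    rcases eq_or_ne (ρ'.coeff b) 0 with z' | z'
    · simp [z', h'.ac b z', mul_nonneg (h.posG a) (h'.posG b)]
    have hp : 0 < ρ.coeff a := (h.pos a).lt_of_ne' z
    have hp' : 0 < ρ'.coeff b := (h'.pos b).lt_of_ne' z'
    refine le_trans ?_ (mul_le_mul (h.exp_le z) (h'.exp_le z')
      (mul_nonneg hp'.le (Real.exp_pos _).le) (h.posG a))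
    set x := Z.coeff a / ρ.coeff a with hx
    set y := Z'.coeff b / ρ'.coeff b with hy
    rw [show Z.coeff a = x * ρ.coeff a by rw [hx]; field_simp,
      show Z'.coeff b = y * ρ'.coeff b by rw [hy]; field_simp]
    have hexp : Real.exp u * (x + y - u + 1) ≤ Real.exp x * Real.exp y := by
      rw [← Real.exp_add]
      calc Real.exp u * (x + y - u + 1) ≤ Real.exp u * Real.exp (x + y - u) :=
            mul_le_mul_of_nonneg_left (Real.add_one_le_exp _) (Real.exp_pos _).le
        _ = _ := by rw [← Real.exp_add]; ring_nf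
    nlinarith [mul_le_mul_of_nonneg_left hexp (mul_nonneg hp.le hp'.le)]

/-- One cell. -/
lemma expo_cell {F D : Alg} (hF : IsProb F) {θ : ℝ} (hle : Le1 D (θ • F)) {c : ℝ}
    (hc : |c| * θ ≤ 1) : Expo ((1 + c ^ 2 * θ ^ 2) • F + c • D) F (c • D) := by
  refine Expo.of_exp hF.pos (fun w hw => ?_) fun w => ?_
  · have := hle w
    simp [hw] at this
    simp [this]
  · simp only [MonoidAlgebra.coeff_add, Finsupp.add_apply, MonoidAlgebra.coeff_smul,
      Finsupp.smul_apply, smul_eq_mul]
    have hd := hle w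
    simp only [MonoidAlgebra.coeff_smul, Finsupp.smul_apply, smul_eq_mul] at hd
    rcases eq_or_ne (F.coeff w) 0 with z | z
    · simp [z] at hd
      simp [z, hd]
    have hp : 0 < F.coeff w := (hF.pos w).lt_of_ne' z
    set x := c * D.coeff w / F.coeff w with hx
    have hxb : |x| ≤ |c| * θ := by
      rw [hx, abs_div, abs_mul, abs_of_pos hp, div_le_iff₀ hp, mul_assoc]
      exact mul_le_mul_of_nonneg_left hd (abs_nonneg c)
    have h1 := (abs_le.1 (Real.abs_exp_sub_one_sub_id_le (hxb.trans hc))).2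
    have h2 : x ^ 2 ≤ c ^ 2 * θ ^ 2 := by
      rw [← sq_abs x, ← sq_abs c, ← mul_pow]
      exact pow_le_pow_left₀ (abs_nonneg _) hxb 2
    have e : c * D.coeff w = x * F.coeff w := by rw [hx]; field_simp
    rw [e]
    nlinarith [mul_le_mul_of_nonneg_left (h1.trans h2) hp.le]

/-- A linear form in the cells. -/
noncomputable def zlin (F D : Alg) (n : ℕ) (c : ℕ → ℝ) : Alg :=
  ∑ s ∈ range n, c s • (F ^ s * D * F ^ (n - 1 - s))

lemma zlin_succ (F D : Alg) (n : ℕ) (c : ℕ → ℝ) :
    zlin F D (n + 1) c = zlin F D n c * F + F ^ n * (c n • D) := by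
  rw [zlin, sum_range_succ, zlin, sum_mul]
  congr 1
  · refine sum_congr rfl fun s hs => ?_
    rw [mem_range] at hs
    rw [smul_mul_assoc, show n + 1 - 1 - s = n - 1 - s + 1 by omega, pow_succ]
    simp only [mul_assoc]
  · simp

lemma zlin_smul (F D : Alg) (n : ℕ) (c : ℕ → ℝ) (a : ℝ) :
    zlin F D n (fun s => a * c s) = a • zlin F D n c := by
  simp [zlin, smul_sum, smul_smul]

lemma expo_zlin {F D : Alg} (hF : IsProb F) (hD0 : mass D = 0) {θ : ℝ} (hle : Le1 D (θ • F)) :
    ∀ (n : ℕ) (c : ℕ → ℝ), (∀ s < n, |c s| * θ ≤ 1) →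
      ∃ G, Expo G (F ^ n) (zlin F D n c) ∧ mass G ≤ Real.exp (θ ^ 2 * ∑ s ∈ range n, c s ^ 2)
  | 0, c, _ => ⟨1, by simpa [zlin] using Expo.one, by simp⟩
  | n + 1, c, hc => by
      obtain ⟨G, hG, hm⟩ := expo_zlin hF hD0 hle n c fun s hs => hc s (by omega)
      refine ⟨_, by
        rw [pow_succ, zlin_succ]
        exact hG.mul (expo_cell hF hle (hc n (by omega))), ?_⟩
      rw [map_mul, map_add, map_smul, map_smul, hF.mass_one, hD0, smul_zero, add_zero, smul_eq_mul,
        mul_one, sum_range_succ, mul_add (θ ^ 2), Real.exp_add]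
      refine mul_le_mul hm ?_ (by positivity) (Real.exp_pos _).le
      rw [mul_comm (θ ^ 2)]
      linarith [Real.add_one_le_exp (c n ^ 2 * θ ^ 2)]

/-- A linear form is at most `η F^n` up to an exponentially small mass. -/
theorem le1_zlin {F D : Alg} (hF : IsProb F) (hD0 : mass D = 0) {θ : ℝ}
    (hle : Le1 D (θ • F)) (n : ℕ) (c : ℕ → ℝ) {lam η : ℝ} (hlam : 0 < lam)
    (hsum : lam ^ 2 * θ ^ 2 * ∑ s ∈ range n, c s ^ 2 ≤ 1) :
    ∃ r, Pos r ∧ mass r ≤ 6 / lam * Real.exp (-(lam * η)) ∧
      Le1 (zlin F D n c) (η • F ^ n + r) := by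
  have side : ∀ a : ℝ, a ^ 2 = lam ^ 2 → ∃ G, Expo G (F ^ n) (a • zlin F D n c) ∧ mass G ≤ 3 := by
    intro a ha
    have hS : θ ^ 2 * ∑ s ∈ range n, (a * c s) ^ 2 ≤ 1 := by
      simp only [mul_pow, ← mul_sum, ha]
      linarith
    obtain ⟨G, hG, hm⟩ := expo_zlin hF hD0 hle n (fun s => a * c s) fun s hs => by
      refine le_trans (le_abs_self _) (abs_le_one_iff_mul_self_le_one.2 (le_trans ?_ hS))
      rw [show |a * c s| * θ * (|a * c s| * θ) = θ ^ 2 * |a * c s| ^ 2 by ring, sq_abs]
      exact mul_le_mul_of_nonneg_left (single_le_sum (f := fun s => (a * c s) ^ 2)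
        (fun i _ => sq_nonneg _) (mem_range.2 hs)) (sq_nonneg θ)
    refine ⟨G, by rwa [zlin_smul] at hG, hm.trans ((Real.exp_le_exp.2 hS).trans ?_)⟩
    exact Real.exp_one_lt_d9.le.trans (by norm_num)
  obtain ⟨G, hG, hGm⟩ := side lam rfl
  obtain ⟨G', hG', hGm'⟩ := side (-lam) (neg_sq lam)
  refine ⟨(Real.exp (-(lam * η)) / lam) • (G + G'), (hG.posG.add hG'.posG).smul (by positivity),
    ?_, fun w => ?_⟩
  · rw [map_smul, map_add, smul_eq_mul]
    refine (mul_le_mul_of_nonneg_left (add_le_add hGm hGm') (by positivity)).trans_eq ?_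
    ring
  · simp only [MonoidAlgebra.coeff_add, Finsupp.add_apply, MonoidAlgebra.coeff_smul,
      Finsupp.smul_apply, smul_eq_mul]
    have g0 := hG.posG w
    have g1 := hG'.posG w
    rcases eq_or_ne ((F ^ n).coeff w) 0 with z | z
    · have := hG.ac w z
      simp only [MonoidAlgebra.coeff_smul, Finsupp.smul_apply, smul_eq_mul, mul_eq_zero,
        hlam.ne', false_or] at this
      rw [z, this, abs_zero, mul_zero, zero_add]
      positivity
    have hp : 0 < (F ^ n).coeff w := ((hF.pow n).pos w).lt_of_ne' z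
    set x := (zlin F D n c).coeff w / (F ^ n).coeff w with hx
    have e1 := hG.exp_le z
    have e2 := hG'.exp_le z
    simp only [MonoidAlgebra.coeff_smul, Finsupp.smul_apply, smul_eq_mul, neg_mul, neg_div,
      mul_div_assoc] at e1 e2
    rw [← hx] at e1 e2
    have key : lam * |x| ≤ lam * η +
        Real.exp (-(lam * η)) * (Real.exp (lam * x) + Real.exp (-(lam * x))) := by
      rw [mul_add, ← Real.exp_add, ← Real.exp_add]
      have := Real.exp_pos (-(lam * η) + lam * x)
      have := Real.exp_pos (-(lam * η) + -(lam * x))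
      have := Real.add_one_le_exp (-(lam * η) + lam * x)
      have := Real.add_one_le_exp (-(lam * η) + -(lam * x))
      rcases abs_cases x with ⟨hh, -⟩ | ⟨hh, -⟩ <;> rw [hh] <;> linarith
    rw [show (zlin F D n c).coeff w = x * (F ^ n).coeff w by rw [hx]; field_simp, abs_mul,
      abs_of_pos hp]
    refine le_of_mul_le_mul_left ?_ hlam
    calc lam * (|x| * (F ^ n).coeff w) = lam * |x| * (F ^ n).coeff w := by ring
      _ ≤ (lam * η + Real.exp (-(lam * η)) * (Real.exp (lam * x) + Real.exp (-(lam * x)))) *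
            (F ^ n).coeff w := mul_le_mul_of_nonneg_right key hp.le
      _ = lam * η * (F ^ n).coeff w + Real.exp (-(lam * η)) *
            ((F ^ n).coeff w * Real.exp (lam * x) + (F ^ n).coeff w * Real.exp (-(lam * x))) := by
          ring
      _ ≤ lam * η * (F ^ n).coeff w + Real.exp (-(lam * η)) * (G.coeff w + G'.coeff w) :=
          add_le_add le_rfl (mul_le_mul_of_nonneg_left (add_le_add e1 e2) (Real.exp_pos _).le)
      _ = _ := by field_simp

/-- `|Z| ≤ η ρ` up to mass `v`. -/
def Near (η : ℝ) (Z ρ : Alg) (v : ℝ) : Prop :=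
  ∃ r, Pos r ∧ mass r ≤ v ∧ Le1 Z (η • ρ + r)

lemma closed_near (η : ℝ) : Closed (Near η) where
  mono := by
    intro F G v v' h hv
    obtain ⟨r, h1, h2, h3⟩ := h
    exact ⟨r, h1, h2.trans hv, h3⟩
  sandwich := by
    intro F G α β v hα hβ h
    obtain ⟨r, h1, h2, h3⟩ := h
    refine ⟨α * r * β, (hα.pos.mul h1).mul hβ.pos, ?_, ?_⟩
    · rw [map_mul, map_mul, hα.mass_one, hβ.mass_one]; simpa
    · have := ((Le1.of_pos hα.pos).mul h3).mul (Le1.of_pos hβ.pos)
      simpa only [mul_add, add_mul, mul_smul_comm, smul_mul_assoc] using this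
  mix := by
    intro F G F' G' v v' s hs0 hs1 h h'
    obtain ⟨r, h1, h2, h3⟩ := h
    obtain ⟨r', h1', h2', h3'⟩ := h'
    have hs : 0 ≤ 1 - s := by linarith
    refine ⟨s • r + (1 - s) • r', (h1.smul hs0).add (h1'.smul hs), ?_, ?_⟩
    · rw [map_add, map_smul, map_smul, smul_eq_mul, smul_eq_mul]
      exact add_le_add (mul_le_mul_of_nonneg_left h2 hs0) (mul_le_mul_of_nonneg_left h2' hs)
    · have := (h3.smul s).add (h3'.smul (1 - s))
      rw [abs_of_nonneg hs0, abs_of_nonneg hs] at this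
      convert this using 1
      simp only [smul_add, smul_comm η]
      abel

end Vale.Agent.P321
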