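import Vale.Agent.P321.Super.Basic

/-!
P321, every deletion probability: shared definitions.

* `tupE U N F`: the expectation of `F` over `N` independent cells of law `U`.
* `dens d T u`: the likelihood ratio of the tuple `u` under the mask `T`, marks having ratio `1 + d`.
* `Inv2`: the state of the climb, with distance exponent `E`, ratio exponent `F`, length exponent
  `β` and exceptional mass exponent `R` kept apart.
-/

namespace Vale.Agent.P321

/-- Expectation over `N` independent cells with law `U`. -/
noncomputable def tupE (U : Alg) : ℕ → (List (List Bool) → ℝ) → ℝ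
  | 0, F => F []
  | N + 1, F => ev U fun a => tupE U N fun u => F (a :: u)

/-- Likelihood ratio of a tuple of cells under the mask `T`. -/
noncomputable def dens (d : List Bool → ℝ) (T : List Bool) (u : List (List Bool)) : ℝ :=
  (List.zipWith (fun b a => if b then 1 + d a else 1) T u).prod

/-- The number of marks two masks share. -/
def common (T T' : List Bool) : ℕ := (List.zipWith (fun a b => a && b) T T').count true

/-- The state of the climb. -/
structure Inv2 (p : ℝ) (x y : List Bool) (E F β R : ℕ) : Prop where
  len : x.length = y.length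
  ne : x ≠ y
  short : x.length ≤ 2 ^ β
  dist : Dev (tr p x - tr p y) (tr p x + tr p y) ((2 : ℝ) ^ E)⁻¹
  exc : Exc (tr p x) (tr p y) ((2 : ℝ) ^ F)⁻¹ ((2 : ℝ) ^ R)⁻¹
  overlap : nrm (tr p x ^ (2 ^ β + 1) - tr p x ^ (2 ^ β)) ≤ 1 / 2

/-- The exponential moment of the drift of `L` padded windows with `w` cells, `hj` moves in each
gap, ratio `η`, moment `2k`. -/
noncomputable def driftZ (k w L hj : ℕ) (η : ℝ) : ℝ :=
  2 ^ 14 * k * η ^ 2 * (w : ℝ) ^ 2 * (Real.sqrt L / Real.sqrt hj + 1)

/-- The mass of the atypical moves. -/
noncomputable def driftTail (L P hj : ℕ) : ℝ :=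
  ((L : ℝ) + P + 2) ^ 4 * Real.exp (-(hj : ℝ) / 2 ^ 12)

end Vale.Agent.P321
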