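import Vale.Agent.P321.AllQ.BaseWalk
import Vale.Agent.P321.AllQ.Defs

/-!
P321, all deletion probabilities, base: consecutive powers share mass.

A word is a mixture over masks of products of i.i.d. live cells `φ` and marks `σ`. Given the number
of cells its density `f` against `φ^M` has `E fg ≥ P P'`, and `E f²g²` is the moment of the shared
marks of four independent masks; hence the two laws share mass.
-/

open Finset

namespace Vale.Agent.P321

/-- A power that shares some mass with the next one gives overlap one half. -/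
theorem overlap_boost {P : Alg} (hP : IsProb P) (b : ℕ) {lam : ℝ}
    (hb : nrm (P ^ (b + 1) - P ^ b) ≤ 2 - 2 * lam) {M : ℕ}
    (hM : (2 : ℝ) ^ 66 * (1 - lam / 2) ^ M ≤ 1) :
    nrm (P ^ (M * (b + 1) + 1) - P ^ (M * (b + 1))) ≤ 1 / 2 := by
  classical
  set K := b + 1 with hK
  set μ : Alg := MonoidAlgebra.ofCoeff
    (Finsupp.zipWith min (min_self 0) (P ^ b).coeff (P ^ K).coeff) with hμ
  set A : Alg := (1 / 2 : ℝ) • (1 + P) with hA
  set R : Alg := P ^ K - A * μ with hR
  have hμw : ∀ w, μ.coeff w = min ((P ^ b).coeff w) ((P ^ K).coeff w) := fun w => by simp [hμ]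
  have hμpos : Pos μ := fun w => by
    rw [hμw]; exact le_min ((hP.pow b).pos w) ((hP.pow K).pos w)
  have hAp : IsProb A := by
    refine ⟨(Pos.one.add hP.pos).smul (by norm_num), ?_⟩
    rw [hA, map_smul, map_add, map_one, hP.mass_one]; norm_num
  have hRpos : Pos R := by
    intro w
    have hd : Pos (P ^ b - μ) := fun v => by simp [hμw]
    have h1 : 0 ≤ (P * (P ^ b - μ)).coeff w := hP.pos.mul hd w
    rw [mul_sub, ← pow_succ'] at h1
    have h2 : μ.coeff w ≤ (P ^ K).coeff w := by rw [hμw]; exact min_le_right _ _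
    have h3 : R = P ^ K - ((1 / 2 : ℝ) • μ + (1 / 2 : ℝ) • (P * μ)) := by
      rw [hR, hA, smul_mul_assoc, add_mul, one_mul, smul_add]
    rw [h3]
    simp only [MonoidAlgebra.coeff_sub, Finsupp.sub_apply, MonoidAlgebra.coeff_add,
      Finsupp.add_apply, MonoidAlgebra.coeff_smul, Finsupp.smul_apply, smul_eq_mul] at h1 ⊢
    linarith
  set l' := mass μ with hl'
  have hRmass : nrm R = 1 - l' := by
    rw [nrm_of_pos hRpos, hR, map_sub, map_mul, hAp.mass_one, one_mul, (hP.pow K).mass_one]
  have hll : lam ≤ l' := by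
    set s := (P ^ b).coeff.support ∪ (P ^ K).coeff.support
    have h1 : l' = ∑ w ∈ s, μ.coeff w := mass_eq_sum (by
      simpa [hμ] using Finsupp.support_zipWith (f := min) (hf := min_self (0 : ℝ))
        (g₁ := (P ^ b).coeff) (g₂ := (P ^ K).coeff))
    have h2 : nrm (P ^ K - P ^ b) = ∑ w ∈ s, |(P ^ K).coeff w - (P ^ b).coeff w| := by
      rw [nrm_eq_sum (s := s)]
      · simp
      · rw [MonoidAlgebra.coeff_sub]
        exact Finsupp.support_sub.trans (union_subset subset_union_right subset_union_left)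
    have h3 : (1 : ℝ) = ∑ w ∈ s, (P ^ K).coeff w := by
      rw [← mass_eq_sum subset_union_right, (hP.pow K).mass_one]
    have h4 : (1 : ℝ) = ∑ w ∈ s, (P ^ b).coeff w := by
      rw [← mass_eq_sum subset_union_left, (hP.pow b).mass_one]
    have h5 : ∑ w ∈ s, (2 * μ.coeff w + |(P ^ K).coeff w - (P ^ b).coeff w|) =
        ∑ w ∈ s, ((P ^ K).coeff w + (P ^ b).coeff w) := sum_congr rfl fun w _ => by
      rw [hμw]
      rcases le_total ((P ^ b).coeff w) ((P ^ K).coeff w) with h | h
      · rw [min_eq_left h, abs_of_nonneg (sub_nonneg.2 h)]; ring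
      · rw [min_eq_right h, abs_of_nonpos (sub_nonpos.2 h)]; ring
    rw [sum_add_distrib, sum_add_distrib, ← mul_sum, ← h1, ← h2, ← h3, ← h4] at h5
    linarith
  have hl'1 : l' ≤ 1 := by linarith [nrm_nonneg R]
  have hcomm : Commute P A := by
    rw [hA]; exact ((Commute.one_right P).add_right (Commute.refl P)).smul_right _
  have key : ∀ N d h : ℕ, d ≤ h → nrm (A ^ (h - d) * (1 - P) * P ^ (N * K)) ≤
      2 / Real.sqrt (h + 1) + 2 * (2 ^ d * (1 - l' / 2) ^ N) := by
    intro N
    induction N with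
    | zero =>
      intro d h _
      rw [Nat.zero_mul, pow_zero, mul_one, pow_zero, mul_one]
      refine ((hAp.pow _).nrm_mul_left _).trans ?_
      have h2 : nrm (1 - P) ≤ 2 := by
        refine (nrm_sub _ _).trans ?_
        rw [nrm_one, hP.nrm_eq]; norm_num
      have : (1 : ℝ) ≤ 2 ^ d := one_le_pow₀ (by norm_num)
      have : (0 : ℝ) ≤ 2 / Real.sqrt (h + 1) := by positivity
      linarith
    | succ N ih =>
      intro d h hd
      rcases d with _ | d
      · rw [Nat.sub_zero]
        refine le_trans (((hP.pow _).nrm_mul_right _).trans (half_pow_mul_le hP h)) ?_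
        exact le_add_of_nonneg_right (by have : 0 ≤ 1 - l' / 2 := by linarith
                                         positivity)
      · have e : A ^ (h - (d + 1)) * (1 - P) * P ^ ((N + 1) * K) =
            (A ^ (h - d) * (1 - P) * P ^ (N * K)) * μ +
              (A ^ (h - (d + 1)) * (1 - P) * P ^ (N * K)) * R := by
          have hc : (1 - P) * P ^ (N * K) * A = A * ((1 - P) * P ^ (N * K)) :=
            (((Commute.one_left A).sub_left hcomm).mul_left (hcomm.pow_left _)).eq
          rw [Nat.succ_mul, pow_add, ← mul_assoc (A ^ (h - (d + 1)) * (1 - P)),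
            show P ^ K = A * μ + R by rw [hR]; abel, mul_add,
            show h - d = h - (d + 1) + 1 by omega, pow_succ A (h - (d + 1))]
          congr 1
          calc A ^ (h - (d + 1)) * (1 - P) * P ^ (N * K) * (A * μ)
              = A ^ (h - (d + 1)) * ((1 - P) * P ^ (N * K) * A) * μ := by simp only [mul_assoc]
            _ = _ := by rw [hc]; simp only [mul_assoc]
        rw [e]
        refine (nrm_add _ _).trans ?_
        refine (add_le_add ((nrm_mul _ _).trans (mul_le_mul_of_nonneg_right (ih d h (by omega))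
          (nrm_nonneg _))) ((nrm_mul _ _).trans (mul_le_mul_of_nonneg_right (ih (d + 1) h hd)
          (nrm_nonneg _)))).trans (le_of_eq ?_)
        rw [nrm_of_pos hμpos, hRmass, ← hl', pow_succ (2 : ℝ), pow_succ (1 - l' / 2)]
        ring
  have h := key M 63 63 le_rfl
  rw [Nat.sub_self, pow_zero, one_mul] at h
  rw [nrm_sub_comm, pow_succ', ← one_sub_mul]
  refine h.trans ?_
  have h8 : Real.sqrt (((63 : ℕ) : ℝ) + 1) = 8 := by
    rw [show ((63 : ℕ) : ℝ) + 1 = 8 ^ 2 by norm_num, Real.sqrt_sq (by norm_num)]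
  rw [h8]
  have h9 : (2 : ℝ) ^ 63 * (1 - l' / 2) ^ M ≤ 1 / 8 := by
    refine le_trans (mul_le_mul_of_nonneg_left
      (pow_le_pow_left₀ (show 0 ≤ 1 - l' / 2 by linarith)
        (show 1 - l' / 2 ≤ 1 - lam / 2 by linarith) M) (by positivity)) ?_
    rw [le_div_iff₀ (by norm_num)]
    refine le_trans (le_of_eq ?_) hM
    ring
  linarith

namespace Lift

open Walk

lemma ev_comm (Y Z : Alg) (G : List Bool → List Bool → ℝ) :
    ev Y (fun a => ev Z (G a)) = ev Z (fun b => ev Y fun a => G a b) := by
  simp only [ev, Finsupp.sum, Finset.mul_sum]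
  rw [Finset.sum_comm]
  exact sum_congr rfl fun b _ => sum_congr rfl fun a _ => by ring

lemma ev_sub_fun (F : Alg) (a b : List Bool → ℝ) :
    ev F (fun w => a w - b w) = ev F a - ev F b := by
  simp only [ev, Finsupp.sum, ← sum_sub_distrib]
  exact sum_congr rfl fun w _ => by ring

lemma ev_sum_fun {ι : Type*} (F : Alg) (s : Finset ι) (a : ι → List Bool → ℝ) :
    ev F (fun w => ∑ i ∈ s, a i w) = ∑ i ∈ s, ev F (a i) := by
  simp only [ev, Finsupp.sum, Finset.mul_sum]
  exact Finset.sum_comm

lemma ev_mono_supp {Y : Alg} (hY : Pos Y) {P : List Bool → Prop} (hs : OnSupp Y P)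
    {F G : List Bool → ℝ} (h : ∀ w, P w → F w ≤ G w) : ev Y F ≤ ev Y G :=
  sum_le_sum fun w hw => mul_le_mul_of_nonneg_left
    (h _ (hs w (Finsupp.mem_support_iff.1 hw))) (hY w)

/-! ### Tuples -/

variable {φ : Alg}

lemma tupE_add : ∀ (M : ℕ) (F G : List (List Bool) → ℝ),
    tupE φ M (fun u => F u + G u) = tupE φ M F + tupE φ M G
  | 0, F, G => rfl
  | M + 1, F, G => by simp only [tupE, tupE_add M, ev_add_fun]

lemma tupE_sub : ∀ (M : ℕ) (F G : List (List Bool) → ℝ),
    tupE φ M (fun u => F u - G u) = tupE φ M F - tupE φ M G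
  | 0, F, G => rfl
  | M + 1, F, G => by simp only [tupE, tupE_sub M, ev_sub_fun]

lemma tupE_const_mul : ∀ (M : ℕ) (F : List (List Bool) → ℝ) (c : ℝ),
    tupE φ M (fun u => c * F u) = c * tupE φ M F
  | 0, F, c => rfl
  | M + 1, F, c => by simp only [tupE, tupE_const_mul M, ev_const_mul]

lemma tupE_ev (Q : Alg) : ∀ (M : ℕ) (G : List Bool → List (List Bool) → ℝ),
    tupE φ M (fun u => ev Q fun T => G T u) = ev Q fun T => tupE φ M (G T)
  | 0, G => rfl
  | M + 1, G => by
      simp only [tupE]
      simp only [fun a : List Bool => tupE_ev Q M fun T u => G T (a :: u)]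
      exact ev_comm _ _ _

lemma tupE_mono (hφ : Pos φ) : ∀ (M : ℕ) {F G : List (List Bool) → ℝ}, (∀ u, F u ≤ G u) →
    tupE φ M F ≤ tupE φ M G
  | 0, _, _, h => h []
  | M + 1, _, _, h => ev_mono hφ fun _ => tupE_mono hφ M fun _ => h _

lemma tupE_zero (M : ℕ) : tupE φ M (fun _ => 0) = 0 := by
  induction M with
  | zero => rfl
  | succ M ih => simp only [tupE, ih, ev_const, zero_mul]

lemma tupE_nonneg (hφ : Pos φ) (M : ℕ) {F : List (List Bool) → ℝ} (h : ∀ u, 0 ≤ F u) :
    0 ≤ tupE φ M F := by
  rw [← tupE_zero (φ := φ) M]; exact tupE_mono hφ M h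

lemma tupE_cs (hφ : Pos φ) (M : ℕ) (F G : List (List Bool) → ℝ) :
    tupE φ M (fun u => F u * G u) ^ 2 ≤
      tupE φ M (fun u => F u ^ 2) * tupE φ M (fun u => G u ^ 2) := by
  set a := tupE φ M fun u => G u ^ 2
  set b := tupE φ M fun u => F u * G u
  set c := tupE φ M fun u => F u ^ 2
  have h : ∀ t : ℝ, 0 ≤ a * (t * t) + 2 * b * t + c := fun t => by
    have := tupE_nonneg (φ := φ) hφ M fun u => sq_nonneg (F u + t * G u)
    rw [show (fun u => (F u + t * G u) ^ 2) =
      fun u => (t * t * G u ^ 2 + 2 * t * (F u * G u)) + F u ^ 2 from funext fun u => by ring,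
      tupE_add, tupE_add, tupE_const_mul, tupE_const_mul] at this
    linarith
  have := discrim_le_zero h
  rw [discrim] at this
  nlinarith

/-! ### Marks -/

/-- Ratio minus one of a mark against a cell. -/
def dd (c : ℝ) (a : List Bool) : ℝ := if a = [true] then c - 1 else -1

lemma one_add_dd (c : ℝ) (a : List Bool) : 1 + dd c a = if a = [true] then c else 0 := by
  unfold dd; split_ifs <;> ring

lemma dens_cons (d : List Bool → ℝ) (b : Bool) (T a : List Bool) (u : List (List Bool)) :
    dens d (b :: T) (a :: u) = (if b then 1 + d a else 1) * dens d T u := by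
  simp [dens]

lemma dens_nil (d : List Bool → ℝ) (u : List (List Bool)) : dens d [] u = 1 := by simp [dens]

lemma dens_nonneg {c : ℝ} (hc : 0 ≤ c) : ∀ (T : List Bool) (u : List (List Bool)),
    0 ≤ dens (dd c) T u
  | [], u => by simp [dens_nil]
  | b :: T, [] => by simp [dens]
  | b :: T, a :: u => by
      rw [dens_cons, one_add_dd]
      refine mul_nonneg ?_ (dens_nonneg hc T u)
      split_ifs <;> linarith

lemma dens_replicate (d : List Bool → ℝ) : ∀ (n : ℕ) (u : List (List Bool)),
    dens d (List.replicate n false) u = 1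
  | 0, u => by simp [dens_nil]
  | n + 1, [] => by simp [dens]
  | n + 1, a :: u => by simp [List.replicate_succ, dens_cons, dens_replicate d n u]

/-- The mark. -/
noncomputable abbrev mark : Alg := MonoidAlgebra.single (FreeMonoid.of true) (1 : ℝ)

section Cell

variable {c : ℝ} (hφ : IsProb φ) (hc : c * ev φ (fun a => if a = [true] then 1 else 0) = 1)

include hc in
lemma ev_ratio (g : List Bool → ℝ) :
    ev φ (fun a => (1 + dd c a) * g a) = g [true] := by
  rw [show (fun a => (1 + dd c a) * g a) =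
    fun a : List Bool => (c * g [true]) * if a = [true] then 1 else 0 from funext fun a => by
      rw [one_add_dd]; split_ifs with h <;> simp [h], ev_const_mul]
  linear_combination g [true] * hc

include hc in
lemma ev_wd : ∀ (T : List Bool) (Φ : List Bool → ℝ),
    ev (wd φ mark T) Φ = tupE φ T.length fun u => dens (dd c) T u * Φ u.flatten
  | [], Φ => by simp [tupE, dens_nil, ev_one]
  | b :: T, Φ => by
      rw [wd_cons, ev_mul, List.length_cons, tupE]
      simp only [dens_cons, List.flatten_cons, mul_assoc, tupE_const_mul]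
      cases b
      · simp only [Bool.false_eq_true, if_false, one_mul]
        congr 1
        funext a
        exact ev_wd T fun v => Φ (a ++ v)
      · simp only [if_true]
        rw [ev_ratio hc, mark, ev_single, one_mul]
        exact ev_wd T fun v => Φ (FreeMonoid.toList (FreeMonoid.of true) ++ v)

lemma bit_cons_zero (a : Bool) (T : List Bool) : bit (a :: T) 0 = a := rfl

lemma bit_cons_succ (a : Bool) (T : List Bool) (i : ℕ) : bit (a :: T) (i + 1) = bit T i := rfl

include hφ hc in
/-- Four masks. -/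
lemma four : ∀ (M : ℕ) (T₁ T₂ T₃ T₄ : List Bool), T₁.length = M → T₂.length = M → T₃.length = M →
    T₄.length = M →
    tupE φ M (fun u => dens (dd c) T₁ u * (dens (dd c) T₂ u * (dens (dd c) T₃ u * dens (dd c) T₄ u))) =
      c ^ (hits T₂ (bit T₁) + hits T₃ (fun i => bit T₁ i || bit T₂ i) +
        hits T₄ (fun i => bit T₁ i || bit T₂ i || bit T₃ i))
  | 0, [], [], [], [], _, _, _, _ => by simp [tupE, dens_nil, hits]
  | M + 1, b₁ :: T₁, b₂ :: T₂, b₃ :: T₃, b₄ :: T₄, h₁, h₂, h₃, h₄ => by
      simp only [List.length_cons, Nat.succ.injEq] at h₁ h₂ h₃ h₄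
      have ih := four M T₁ T₂ T₃ T₄ h₁ h₂ h₃ h₄
      have e : ∀ (a : List Bool) (u : List (List Bool)),
          dens (dd c) (b₁ :: T₁) (a :: u) * (dens (dd c) (b₂ :: T₂) (a :: u) *
            (dens (dd c) (b₃ :: T₃) (a :: u) * dens (dd c) (b₄ :: T₄) (a :: u))) =
          (1 + dd c a) ^ (b₁.toNat + b₂.toNat + b₃.toNat + b₄.toNat) *
            (dens (dd c) T₁ u * (dens (dd c) T₂ u * (dens (dd c) T₃ u * dens (dd c) T₄ u))) := by
        intro a u
        simp only [dens_cons]
        cases b₁ <;> cases b₂ <;> cases b₃ <;> cases b₄ <;> simp <;> ring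
      simp only [tupE, e, tupE_const_mul, ih]
      rw [show (fun a => (1 + dd c a) ^ (b₁.toNat + b₂.toNat + b₃.toNat + b₄.toNat) *
          c ^ (hits T₂ (bit T₁) + hits T₃ (fun i => bit T₁ i || bit T₂ i) +
            hits T₄ (fun i => bit T₁ i || bit T₂ i || bit T₃ i))) = fun a =>
        c ^ (hits T₂ (bit T₁) + hits T₃ (fun i => bit T₁ i || bit T₂ i) +
          hits T₄ (fun i => bit T₁ i || bit T₂ i || bit T₃ i)) *
          (1 + dd c a) ^ (b₁.toNat + b₂.toNat + b₃.toNat + b₄.toNat) from
        funext fun a => mul_comm _ _, ev_const_mul]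
      have hm : ev φ (fun a => (1 + dd c a) ^ (b₁.toNat + b₂.toNat + b₃.toNat + b₄.toNat)) =
          c ^ (b₁.toNat + b₂.toNat + b₃.toNat + b₄.toNat - 1) := by
        generalize b₁.toNat + b₂.toNat + b₃.toNat + b₄.toNat = n
        rcases n with _ | n
        · simp [ev_const, hφ.mass_one]
        · simp only [pow_succ', ev_ratio hc fun a => (1 + dd c a) ^ n]
          simp [one_add_dd]
      rw [hm, ← pow_add]
      congr 1
      simp only [hits, bit_cons_zero, bit_cons_succ]
      generalize hits T₂ (bit T₁) = n₂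
      cases b₁ <;> cases b₂ <;> cases b₃ <;> cases b₄ <;> simp <;> omega

/-- The density at `M` cells. -/
noncomputable def fM (c : ℝ) (Q : Alg) (M : ℕ) (u : List (List Bool)) : ℝ :=
  ev Q fun T => if T.length = M then dens (dd c) T u else 0

/-- The mass at `M` cells. -/
noncomputable def pM (Q : Alg) (M : ℕ) : ℝ := ev Q fun T => if T.length = M then 1 else 0

include hc in
lemma tupE_fM (Q : Alg) (M : ℕ) (Φ : List Bool → ℝ) :
    tupE φ M (fun u => fM c Q M u * Φ u.flatten) =
      ev Q fun T => if T.length = M then ev (wd φ mark T) Φ else 0 := by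
  have e : ∀ u : List (List Bool), fM c Q M u * Φ u.flatten =
      ev Q fun T => if T.length = M then dens (dd c) T u * Φ u.flatten else 0 := fun u => by
    rw [mul_comm, fM, ← ev_const_mul]
    congr 1
    funext T
    split_ifs <;> ring
  simp only [e, tupE_ev]
  congr 1
  funext T
  split_ifs with h
  · rw [ev_wd hc T Φ, h]
  · exact tupE_zero M

lemma isProb_mark : IsProb mark := isProb_single _

include hφ hc in
lemma tupE_fM_one (Q : Alg) (M : ℕ) : tupE φ M (fM c Q M) = pM Q M := by
  have := tupE_fM hc Q M fun _ => 1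
  simp only [mul_one, ev_const, (isProb_wd hφ isProb_mark _).mass_one] at this
  exact this

include hφ hc in
/-- Common mass of two mixtures at `M` cells. -/
theorem common_M (hc1 : 1 ≤ c) {Q Q' : Alg} (hQ : Pos Q) (hQ' : Pos Q') {g : ℕ}
    (hg : OnSupp Q (Gap g)) (hg' : OnSupp Q' (Gap g)) {M : ℕ} {A : ℝ}
    (hA : ∀ S, Sparse g 3 S → ev Q (fun T => if T.length = M then c ^ hits T S else 0) ≤ A)
    (hA' : ∀ S, Sparse g 3 S → ev Q' (fun T => if T.length = M then c ^ hits T S else 0) ≤ A)
    {τ : ℝ} (hτ : 0 < τ) :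
    τ ^ 5 / 2 * (min (pM Q M) (pM Q' M) - τ * A) ≤
      tupE φ M fun u => min (fM c Q M u) (fM c Q' M u) := by
  set f := fM c Q M with hf
  set h := fM c Q' M with hh
  have hf0 : ∀ u, 0 ≤ f u := fun u => ev_nonneg hQ fun T => by
    split_ifs
    · exact dens_nonneg (by linarith) T u
    · exact le_rfl
  have hh0 : ∀ u, 0 ≤ h u := fun u => ev_nonneg hQ' fun T => by
    split_ifs
    · exact dens_nonneg (by linarith) T u
    · exact le_rfl
  set cm := tupE φ M fun u => min (f u) (h u)
  have hcm0 : 0 ≤ cm := tupE_nonneg hφ.pos M fun u => le_min (hf0 u) (hh0 u)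
  set P := pM Q M with hP
  set P' := pM Q' M with hP'
  have hA0 : 0 ≤ A := le_trans (ev_nonneg hQ fun T => by split_ifs <;> positivity)
    (hA _ Sparse.none)
  have pos_ind : ∀ {R : Alg}, Pos R → 0 ≤ pM R M := fun hR => ev_nonneg hR fun T => by
    split_ifs <;> norm_num
  have le_ind : ∀ {R : Alg}, Pos R →
      (∀ S, Sparse g 3 S → ev R (fun T => if T.length = M then c ^ hits T S else 0) ≤ A) →
      pM R M ≤ A := fun hR hh => le_trans (ev_mono hR fun T => by
        split_ifs
        · exact one_le_pow₀ hc1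
        · exact le_rfl) (hh _ Sparse.none)
  have hP0 : 0 ≤ P := pos_ind hQ
  have hP'0 : 0 ≤ P' := pos_ind hQ'
  have hPA : P ≤ A := le_ind hQ hA
  have hPA' : P' ≤ A := le_ind hQ' hA'
  by_cases hm : min P P' ≤ τ * A
  · exact le_trans (mul_nonpos_of_nonneg_of_nonpos (by positivity) (by linarith)) hcm0
  rw [not_le] at hm
  have hm0 : 0 < min P P' := lt_of_le_of_lt (mul_nonneg hτ.le hA0) hm
  -- E fh ≥ P P'
  have h2 : P * P' ≤ tupE φ M fun u => f u * h u := by
    have e : ∀ u, f u * h u = ev Q fun T => ev Q' fun T' =>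
        if T.length = M then (if T'.length = M then dens (dd c) T u * dens (dd c) T' u else 0)
        else 0 := fun u => by
      rw [hf, hh, fM, fM, mul_comm, ← ev_const_mul]
      congr 1
      funext T
      rw [mul_comm, ← ev_const_mul]
      congr 1
      funext T'
      split_ifs <;> ring
    simp only [e, tupE_ev]
    rw [hP, hP', pM, pM, mul_comm, ← ev_const_mul]
    refine ev_mono hQ fun T => ?_
    rw [mul_comm, ← ev_const_mul]
    refine ev_mono hQ' fun T' => ?_
    by_cases hT : T.length = M <;> by_cases hT' : T'.length = M <;>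
      simp only [hT, hT', if_true, if_false, mul_zero, mul_one, tupE_zero, le_refl]
    have := four hφ hc M T T' (List.replicate M false) (List.replicate M false) hT hT'
      List.length_replicate List.length_replicate
    simp only [dens_replicate, mul_one] at this
    rw [this]
    exact one_le_pow₀ hc1
  -- E f² h² ≤ P A³
  have h4 : (tupE φ M fun u => (f u * h u) ^ 2) ≤ P * A ^ 3 := by
    set I : List Bool → List (List Bool) → ℝ :=
      fun T u => if T.length = M then dens (dd c) T u else 0 with hI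
    have e : ∀ u, (f u * h u) ^ 2 = ev Q fun T₁ => ev Q fun T₂ => ev Q' fun T₃ => ev Q' fun T₄ =>
        I T₁ u * (I T₂ u * (I T₃ u * I T₄ u)) := fun u => by
      simp only [ev_const_mul]
      rw [show (fun T₁ => I T₁ u * (ev Q fun T => I T u * (ev Q' fun T => I T u *
          (ev Q' fun T => I T u)))) = fun T₁ => (ev Q fun T => I T u * (ev Q' fun T => I T u *
          (ev Q' fun T => I T u))) * I T₁ u from funext fun _ => mul_comm _ _, ev_const_mul,
        show (fun T => I T u * (ev Q' fun T => I T u * (ev Q' fun T => I T u))) =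
          fun T => (ev Q' fun T => I T u * (ev Q' fun T => I T u)) * I T u from
          funext fun _ => mul_comm _ _, ev_const_mul,
        show (fun T => I T u * (ev Q' fun T => I T u)) =
          fun T => (ev Q' fun T => I T u) * I T u from funext fun _ => mul_comm _ _, ev_const_mul]
      change (ev Q (fun T => I T u) * ev Q' (fun T => I T u)) ^ 2 = _
      ring
    simp only [e, tupE_ev]
    rw [show P * A ^ 3 = A ^ 3 * P from mul_comm _ _, hP, pM, ← ev_const_mul]
    refine ev_mono_supp hQ hg fun T₁ g1 => ?_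
    by_cases n1 : T₁.length = M
    swap
    · simp [hI, n1, tupE_zero, ev_const]
    simp only [n1, if_true, mul_one]
    refine le_trans (ev_mono_supp hQ hg (G := fun T₂ => A ^ 2 *
      if T₂.length = M then c ^ hits T₂ (bit T₁) else 0) fun T₂ g2 => ?_) ?_
    swap
    · rw [ev_const_mul, pow_succ A 2]
      exact mul_le_mul_of_nonneg_left (hA _ (g1.sparse.mono (by norm_num))) (sq_nonneg A)
    by_cases n2 : T₂.length = M
    swap
    · simp [hI, n2, tupE_zero, ev_const]
    simp only [n2, if_true]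
    refine le_trans (ev_mono_supp hQ' hg' (G := fun T₃ => A * c ^ hits T₂ (bit T₁) *
      if T₃.length = M then c ^ hits T₃ (fun i => bit T₁ i || bit T₂ i) else 0) fun T₃ g3 => ?_) ?_
    swap
    · rw [ev_const_mul, sq, mul_assoc A A, mul_assoc A]
      refine mul_le_mul_of_nonneg_left ?_ hA0
      rw [mul_comm A]
      exact mul_le_mul_of_nonneg_left (hA' _ ((g1.sparse.or g2.sparse).mono (by norm_num)))
        (by positivity)
    by_cases n3 : T₃.length = M
    swap
    · simp [hI, n3, tupE_zero, ev_const]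
    simp only [n3, if_true]
    rw [mul_assoc A, ← pow_add, mul_comm A]
    refine le_trans (le_of_eq ?_) (mul_le_mul_of_nonneg_left
      (hA' _ ((g1.sparse.or g2.sparse).or g3.sparse)) (by positivity))
    rw [← ev_const_mul]
    congr 1
    funext T₄
    by_cases n4 : T₄.length = M
    · simp only [hI, n1, n2, n3, n4, if_true]
      rw [four hφ hc M T₁ T₂ T₃ T₄ n1 n2 n3 n4, pow_add]
    · simp [hI, n4, tupE_zero]
  -- interpolation
  set a : List (List Bool) → ℝ := fun u => Real.sqrt (f u * h u) with ha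
  have ha0 : ∀ u, 0 ≤ a u := fun u => Real.sqrt_nonneg _
  have hasq : ∀ u, a u ^ 2 = f u * h u := fun u => Real.sq_sqrt (mul_nonneg (hf0 u) (hh0 u))
  have q1 : (tupE φ M fun u => a u ^ 2) ^ 2 ≤ tupE φ M a * tupE φ M fun u => a u ^ 3 := by
    have := tupE_cs hφ.pos M (fun u => Real.sqrt (a u)) (fun u => a u * Real.sqrt (a u))
    rw [show (fun u => Real.sqrt (a u) * (a u * Real.sqrt (a u))) = fun u => a u ^ 2 from
        funext fun u => by linear_combination a u * Real.mul_self_sqrt (ha0 u),
      show (fun u => Real.sqrt (a u) ^ 2) = a from funext fun u => Real.sq_sqrt (ha0 u),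
      show (fun u => (a u * Real.sqrt (a u)) ^ 2) = fun u => a u ^ 3 from funext fun u => by
        rw [mul_pow, Real.sq_sqrt (ha0 u)]; ring] at this
    exact this
  have q2 : (tupE φ M fun u => a u ^ 3) ^ 2 ≤
      (tupE φ M fun u => a u ^ 2) * tupE φ M fun u => a u ^ 4 := by
    have := tupE_cs hφ.pos M a (fun u => a u ^ 2)
    rw [show (fun u => a u * a u ^ 2) = fun u => a u ^ 3 from funext fun u => by ring,
      show (fun u => (a u ^ 2) ^ 2) = fun u => a u ^ 4 from funext fun u => by ring] at this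
    exact this
  have q3 : tupE φ M a ^ 2 ≤ cm * (P + P') := by
    have := tupE_cs hφ.pos M (fun u => Real.sqrt (min (f u) (h u)))
      (fun u => Real.sqrt (max (f u) (h u)))
    rw [show (fun u => Real.sqrt (min (f u) (h u)) * Real.sqrt (max (f u) (h u))) = a from
        funext fun u => by rw [← Real.sqrt_mul (le_min (hf0 u) (hh0 u)), min_mul_max],
      show (fun u => Real.sqrt (min (f u) (h u)) ^ 2) = fun u => min (f u) (h u) from
        funext fun u => Real.sq_sqrt (le_min (hf0 u) (hh0 u)),
      show (fun u => Real.sqrt (max (f u) (h u)) ^ 2) = fun u => max (f u) (h u) from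
        funext fun u => Real.sq_sqrt ((hf0 u).trans (le_max_left _ _))] at this
    refine this.trans (mul_le_mul_of_nonneg_left ?_ hcm0)
    refine (tupE_mono hφ.pos M (G := fun u => f u + h u)
      fun u => max_le (le_add_of_nonneg_right (hh0 u)) (le_add_of_nonneg_left (hf0 u))).trans_eq ?_
    rw [tupE_add, hf, hh, tupE_fM_one hφ hc, tupE_fM_one hφ hc]
  set E2 := tupE φ M fun u => a u ^ 2 with hE2
  have hE2ge : P * P' ≤ E2 := by rw [hE2]; simp only [hasq]; exact h2
  have hE4 : (tupE φ M fun u => a u ^ 4) ≤ P * A ^ 3 := by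
    refine le_trans (le_of_eq ?_) h4
    congr 1
    funext u
    rw [← hasq u]; ring
  have hE2pos : 0 < E2 := lt_of_lt_of_le (mul_pos (lt_of_lt_of_le hm0 (min_le_left _ _))
    (lt_of_lt_of_le hm0 (min_le_right _ _))) hE2ge
  have q : E2 ^ 3 ≤ cm * (2 * A) * (A * A ^ 3) := by
    refine le_of_mul_le_mul_left ?_ hE2pos
    have a3 : 0 ≤ tupE φ M fun u => a u ^ 3 := tupE_nonneg hφ.pos M fun u => pow_nonneg (ha0 u) 3
    calc E2 * E2 ^ 3 = (E2 ^ 2) ^ 2 := by ring
      _ ≤ (tupE φ M a * tupE φ M fun u => a u ^ 3) ^ 2 := pow_le_pow_left₀ (sq_nonneg _) q1 2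
      _ = tupE φ M a ^ 2 * (tupE φ M fun u => a u ^ 3) ^ 2 := mul_pow _ _ _
      _ ≤ cm * (P + P') * (E2 * (P * A ^ 3)) :=
          mul_le_mul q3 (q2.trans (mul_le_mul_of_nonneg_left hE4 hE2pos.le)) (sq_nonneg _)
            (by positivity)
      _ ≤ cm * (2 * A) * (E2 * (A * A ^ 3)) := by gcongr; linarith
      _ = _ := by ring
  set m := min P P'
  have hm6 : m ^ 6 ≤ 2 * cm * A ^ 5 := by
    have : m ^ 2 ≤ E2 := le_trans (by
      rw [sq]; exact mul_le_mul (min_le_left _ _) (min_le_right _ _) hm0.le hP0) hE2ge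
    calc m ^ 6 = (m ^ 2) ^ 3 := by ring
      _ ≤ E2 ^ 3 := pow_le_pow_left₀ (sq_nonneg _) this 3
      _ ≤ _ := q.trans_eq (by ring)
  have hApos : 0 < A := lt_of_lt_of_le (lt_of_lt_of_le hm0 (min_le_left _ _)) hPA
  have : τ ^ 5 * A ^ 5 * m ≤ 2 * cm * A ^ 5 := by
    refine le_trans ?_ hm6
    rw [← mul_pow, show m ^ 6 = m ^ 5 * m by ring]
    exact mul_le_mul_of_nonneg_right (pow_le_pow_left₀ (by positivity) hm.le 5) hm0.le
  have h5 : τ ^ 5 * m ≤ 2 * cm := le_of_mul_le_mul_right
    (by linarith) (pow_pos hApos 5)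
  have hτA : 0 ≤ τ ^ 5 / 2 * (τ * A) := by positivity
  linarith

end Cell

/-- The substitution of cells and marks. -/
noncomputable def subst (φ : Alg) : Alg →ₐ[ℝ] Alg :=
  MonoidAlgebra.lift ℝ Alg (FreeMonoid Bool) (FreeMonoid.lift fun b => if b then mark else φ)

lemma ev_subst (Q : Alg) (Φ : List Bool → ℝ) :
    ev (subst φ Q) Φ = ev Q fun T => ev (wd φ mark T) Φ := by
  induction Q using MonoidAlgebra.induction_linear with
  | zero => simp [ev_zero]
  | add f g hf hg => rw [map_add, ev_add, hf, hg, ev_add]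
  | single w r =>
    rw [subst, MonoidAlgebra.lift_single, ev_smul, ev_single, FreeMonoid.lift_apply]
    rfl

/-- Two mixtures are at distance at most `|Q| + |Q'|` minus twice their common masses. -/
theorem nrm_subst_le {c : ℝ} (hφ : IsProb φ)
    (hc : c * ev φ (fun a => if a = [true] then 1 else 0) = 1) {Q Q' : Alg} (W : Finset ℕ)
    (hW : OnSupp Q fun T => T.length ∈ W) (hW' : OnSupp Q' fun T => T.length ∈ W) :
    nrm (subst φ Q - subst φ Q') ≤ mass Q + mass Q' -
      2 * ∑ M ∈ W, tupE φ M fun u => min (fM c Q M u) (fM c Q' M u) := by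
  classical
  set F := subst φ Q - subst φ Q' with hF
  set Φ : List Bool → ℝ := fun w => if 0 ≤ F.coeff (FreeMonoid.ofList w) then 1 else -1 with hΦ
  have e : ev F Φ = nrm F := sum_congr rfl fun w _ => by
    by_cases hw : 0 ≤ F.coeff w
    · simp [hΦ, hw, abs_of_nonneg hw]
    · simp [hΦ, hw, abs_of_neg (not_le.1 hw)]
  have hb : ∀ w, |Φ w| ≤ 1 := fun w => by simp only [hΦ]; split_ifs <;> norm_num
  have split : ∀ R : Alg, OnSupp R (fun T => T.length ∈ W) → ∀ G : List Bool → ℝ,
      ev R G = ∑ M ∈ W, ev R fun T => if T.length = M then G T else 0 := fun R hR G => by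
    rw [← ev_sum_fun]
    refine sum_congr rfl fun w hw => ?_
    simp only
    rw [sum_ite_eq, if_pos (hR w (Finsupp.mem_support_iff.1 hw))]
  have tot : ∀ R : Alg, OnSupp R (fun T => T.length ∈ W) → mass R = ∑ M ∈ W, tupE φ M (fM c R M) :=
    fun R hR => by
      rw [← one_mul (mass R), ← ev_const, split R hR]
      exact sum_congr rfl fun M _ => by rw [tupE_fM_one hφ hc]; rfl
  rw [← e, hF, ev_sub, ev_subst, ev_subst, split Q hW, split Q' hW', tot Q hW, tot Q' hW',
    mul_sum, ← sum_add_distrib, ← sum_sub_distrib, ← sum_sub_distrib]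
  refine sum_le_sum fun M _ => ?_
  rw [← tupE_fM hc Q M Φ, ← tupE_fM hc Q' M Φ, ← tupE_add, ← tupE_sub, ← tupE_const_mul,
    ← tupE_sub]
  refine tupE_mono hφ.pos M fun u => ?_
  have h1 := abs_le.1 (hb u.flatten)
  rcases le_total (fM c Q M u) (fM c Q' M u) with h | h
  · rw [min_eq_left h]; nlinarith
  · rw [min_eq_right h]; nlinarith

end Lift

end Vale.Agent.P321
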