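import Vale.Agent.P321.Super.Bessel
import Vale.Agent.P321.Super.Window

/-!
P321, all deletion probabilities, base: the walk of the marks.

A mask law is an element of the algebra whose letters are cells: `bitT t false ^ a` is `a` cells
each alive with probability `t`, `bitT p true` is a mark. For the periodic mask
`(L^k₁ M L^k₂)^j` the number of marks meeting a sparse set has bounded exponential moment.
-/

open Finset

namespace Vale.Agent.P321

namespace Walk

/-- The live cells. -/
noncomputable abbrev Lw (t : ℝ) : Alg := bitT t false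

/-- One period of the mask. -/
noncomputable def per (t p : ℝ) (k₁ k₂ : ℕ) : Alg := Lw t ^ k₁ * bitT p true * Lw t ^ k₂

lemma ev_bitT (p : ℝ) (b : Bool) (f : List Bool → ℝ) :
    ev (bitT p b) f = (1 - p) * f [] + p * f [b] := by
  rw [bitT, ev_add, ev_single, ev_single]; simp

lemma isProb_per {t p : ℝ} (ht : 0 ≤ t) (ht1 : t ≤ 1) (hp : 0 ≤ p) (hp1 : p ≤ 1) (k₁ k₂ : ℕ) :
    IsProb (per t p k₁ k₂) :=
  (((isProb_bitT ht ht1 false).pow _).mul (isProb_bitT hp hp1 true)).mul
    ((isProb_bitT ht ht1 false).pow _)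

/-! ### Cells mixed with the empty word -/

/-- A probability element mixed with the unit has smooth powers. -/
theorem exists_smooth_mix {P : Alg} (hP : IsProb P) {t : ℝ} (h0 : 0 < t) (h1 : t < 1) :
    ∃ B : ℕ, ∃ C : ℝ, 0 ≤ C ∧
      nrm (((1 - t) • 1 + t • P) ^ (B + 1) - ((1 - t) • 1 + t • P) ^ B) ≤ 1 ∧
      ∀ N : ℕ, 1 ≤ N → nrm (((1 - t) • 1 + t • P) ^ N * (1 - P)) ≤ C / Real.sqrt N := by
  set a := min t (1 - t) with ha
  have ha0 : 0 < a := lt_min h0 (by linarith)
  have hat : a ≤ t := min_le_left _ _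
  have hat' : a ≤ 1 - t := min_le_right _ _
  set Q : Alg := (1 - t) • 1 + t • P with hQ
  set A : Alg := (1 / 2 : ℝ) • (1 + P) with hA
  set R : Alg := (1 - t - a) • 1 + (t - a) • P with hR
  have hRp : Pos R := (Pos.one.smul (by linarith)).add (hP.pos.smul (by linarith))
  have hAp : Pos A := (Pos.one.add hP.pos).smul (by norm_num)
  have hQe : Q = (2 * a) • A + R := by rw [hQ, hA, hR]; module
  have hRm : nrm R = 1 - 2 * a := by
    rw [nrm_of_pos hRp, hR, map_add, map_smul, map_smul, map_one, hP.mass_one]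
    simp; ring
  have hAm : nrm A = 1 := by
    rw [nrm_of_pos hAp, hA, map_smul, map_add, map_one, hP.mass_one]; norm_num
  have hQp : IsProb Q := by
    have := IsProb.mix (s := 1 - t) (by linarith) (by linarith) IsProb.one hP
    rwa [show 1 - (1 - t) = t by ring] at this
  have hcAQ : Commute A Q := by
    have h : Commute P Q := by
      rw [hQ]
      exact ((Commute.one_right P).smul_right _).add_right ((Commute.refl P).smul_right _)
    rw [hA]
    exact ((Commute.one_left Q).add_left h).smul_left _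
  have f : ∀ M d h : ℕ, d ≤ h → nrm (A ^ (h - d) * (1 - P) * Q ^ M) ≤
      2 / Real.sqrt (h + 1) + 2 * (2 ^ d * (1 - a) ^ M) := by
    intro M
    induction M with
    | zero =>
      intro d h _
      rw [pow_zero, mul_one, pow_zero, mul_one]
      refine le_trans ((nrm_mul _ _).trans (le_trans (mul_le_mul
        (((⟨hAp, by rw [← nrm_of_pos hAp, hAm]⟩ : IsProb A).pow _).nrm_eq.le) le_rfl (nrm_nonneg _)
        zero_le_one) (le_of_eq (one_mul _)))) ?_
      have h2 : nrm (1 - P) ≤ 2 := by
        refine (nrm_sub _ _).trans ?_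
        rw [nrm_one, hP.nrm_eq]; norm_num
      have : (1 : ℝ) ≤ 2 ^ d := one_le_pow₀ (by norm_num)
      have : (0 : ℝ) ≤ 2 / Real.sqrt (h + 1) := by positivity
      linarith
    | succ M ih =>
      intro d h hd
      rcases d with _ | d
      · rw [Nat.sub_zero]
        refine le_trans (le_trans ((hQp.pow _).nrm_mul_right _) (half_pow_mul_le hP h)) ?_
        exact le_add_of_nonneg_right (by have : 0 ≤ 1 - a := by linarith
                                         positivity)
      · have i1 := ih d h (by omega)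
        have i2 := ih (d + 1) h hd
        have e : A ^ (h - (d + 1)) * (1 - P) * Q ^ (M + 1) =
            (2 * a) • (A ^ (h - d) * (1 - P) * Q ^ M) +
              A ^ (h - (d + 1)) * (1 - P) * Q ^ M * R := by
          have hc : (1 - P) * Q ^ M * A = A * ((1 - P) * Q ^ M) := by
            have hAP : Commute A P := by
              rw [hA]; exact ((Commute.one_left P).add_left (Commute.refl P)).smul_left _
            exact ((((Commute.one_right A).sub_right hAP)).mul_right (hcAQ.pow_right M)).eq.symm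
          rw [show h - d = h - (d + 1) + 1 by omega, pow_succ A, pow_succ Q, hQe, mul_add,
            mul_smul_comm, mul_add, mul_smul_comm, ← hQe]
          congr 1
          · congr 1
            calc A ^ (h - (d + 1)) * (1 - P) * (Q ^ M * A)
                = A ^ (h - (d + 1)) * ((1 - P) * Q ^ M * A) := by simp only [mul_assoc]
              _ = _ := by rw [hc]; simp only [mul_assoc]
          · simp only [mul_assoc]
        rw [e]
        refine (nrm_add _ _).trans ?_
        rw [nrm_smul, abs_of_pos (by linarith : 0 < 2 * a)]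
        refine (add_le_add (mul_le_mul_of_nonneg_left i1 (by linarith)) ((nrm_mul _ _).trans
          (mul_le_mul_of_nonneg_right i2 (nrm_nonneg _)))).trans (le_of_eq ?_)
        rw [hRm, pow_succ (2 : ℝ), pow_succ (1 - a)]
        ring
  obtain ⟨B, hB⟩ := exists_pow_lt_of_lt_one (show (0 : ℝ) < 1 / (8 * 2 ^ 63) by positivity)
    (show 1 - a < 1 by linarith)
  have hov : nrm (Q ^ (B + 1) - Q ^ B) ≤ 1 := by
    have e : Q ^ (B + 1) - Q ^ B = (-t) • (Q ^ B * (1 - P)) := by
      rw [pow_succ, hQ]
      simp only [mul_add, mul_sub, mul_smul_comm, mul_one]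
      module
    have hc : Q ^ B * (1 - P) = (1 - P) * Q ^ B := by
      have h : Commute P Q := by
        rw [hQ]
        exact ((Commute.one_right P).smul_right _).add_right ((Commute.refl P).smul_right _)
      exact ((Commute.one_right _).sub_right (h.pow_right B).symm).eq
    have := f B 63 63 le_rfl
    rw [Nat.sub_self, pow_zero, one_mul, ← hc] at this
    rw [e, nrm_smul, abs_neg, abs_of_pos h0]
    refine (mul_le_of_le_one_left (nrm_nonneg _) h1.le).trans (this.trans ?_)
    have h8 : Real.sqrt (((63 : ℕ) : ℝ) + 1) = 8 := by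
      rw [show ((63 : ℕ) : ℝ) + 1 = 8 ^ 2 by norm_num, Real.sqrt_sq (by norm_num)]
    rw [h8]
    have : (2 : ℝ) ^ 63 * (1 - a) ^ B ≤ 1 / 8 := by
      refine (mul_le_mul_of_nonneg_left hB.le (by positivity)).trans (le_of_eq ?_)
      field_simp
    linarith
  refine ⟨B, 4 * Real.sqrt (B + 1) / t, by positivity, hov, fun N hN => ?_⟩
  have hs := smooth_of_overlap hQp B hov N hN
  have e : Q ^ N * (1 - Q) = t • (Q ^ N * (1 - P)) := by
    rw [← mul_smul_comm]
    congr 1
    rw [hQ]; module
  rw [e, nrm_smul, abs_of_pos h0] at hs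
  rw [div_div, mul_comm t, ← div_div, le_div_iff₀ h0, mul_comm]
  exact hs

lemma bitT_eq (t : ℝ) (b : Bool) :
    bitT t b = (1 - t) • 1 + t • MonoidAlgebra.single (FreeMonoid.of b) (1 : ℝ) := by
  rw [bitT, MonoidAlgebra.one_def, MonoidAlgebra.smul_single', MonoidAlgebra.smul_single', mul_one,
    mul_one]

/-! ### The number of live cells -/

/-- Expectation of `g` at `o` plus the number of live cells among `N`. -/
noncomputable def lv (t : ℝ) (N : ℕ) (g : ℕ → ℝ) (o : ℕ) : ℝ :=
  ev (Lw t ^ N) fun w => g (o + w.length)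

lemma lv_add (t : ℝ) (n m : ℕ) (g : ℕ → ℝ) (o : ℕ) :
    lv t (n + m) g o = lv t n (fun x => lv t m g x) o := by
  simp only [lv, pow_add, ev_mul, List.length_append, ← add_assoc]

section Smooth

variable {t C : ℝ} (hC : 0 ≤ C)
  (hsm : ∀ N : ℕ, 1 ≤ N → nrm (Lw t ^ N * (1 - MonoidAlgebra.single (FreeMonoid.of false) 1)) ≤
    C / Real.sqrt N)

include hsm in
lemma lv_step {g : ℕ → ℝ} {M : ℝ} (hg : ∀ n, |g n| ≤ M) {N : ℕ} (hN : 1 ≤ N) (o : ℕ) :
    |lv t N g o - lv t N g (o + 1)| ≤ M * (C / Real.sqrt N) := by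
  have hM : 0 ≤ M := (abs_nonneg _).trans (hg 0)
  have e : lv t N g o - lv t N g (o + 1) =
      ev (Lw t ^ N * (1 - MonoidAlgebra.single (FreeMonoid.of false) 1))
        (fun w => g (o + w.length)) := by
    rw [mul_sub, mul_one, ev_sub, ev_mul _ (MonoidAlgebra.single _ _), lv, lv]
    simp [ev_single, add_comm, add_left_comm]
  rw [e]
  rcases hM.eq_or_lt with h0 | h0
  · have : (fun w : List Bool => g (o + w.length)) = fun _ => (0 : ℝ) := funext fun w =>
      abs_nonpos_iff.1 ((hg _).trans h0.ge)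
    rw [this, ev_const, zero_mul, abs_zero, ← h0, zero_mul]
  · have := abs_ev_le (Lw t ^ N * (1 - MonoidAlgebra.single (FreeMonoid.of false) 1))
      (fun w => M⁻¹ * g (o + w.length)) fun w => by
      rw [abs_mul, abs_of_pos (inv_pos.2 h0), inv_mul_le_iff₀ h0, mul_one]
      exact hg _
    rw [show (fun w : List Bool => M⁻¹ * g (o + w.length)) =
      fun w => M⁻¹ * (fun v : List Bool => g (o + v.length)) w from rfl] at this
    have lin : ∀ (F : Alg) (f : List Bool → ℝ), ev F (fun w => M⁻¹ * f w) = M⁻¹ * ev F f := by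
      intro F f
      simp only [ev, Finsupp.sum, Finset.mul_sum]
      exact sum_congr rfl fun w _ => by ring
    rw [lin, abs_mul, abs_of_pos (inv_pos.2 h0), inv_mul_le_iff₀ h0] at this
    exact this.trans (mul_le_mul_of_nonneg_left (hsm N hN) hM)

include hsm in
lemma lv_shift {g : ℕ → ℝ} {M : ℝ} (hg : ∀ n, |g n| ≤ M) {N : ℕ} (hN : 1 ≤ N) (o : ℕ) :
    ∀ j : ℕ, |lv t N g o - lv t N g (o + j)| ≤ j * (M * (C / Real.sqrt N))
  | 0 => by simp
  | j + 1 => by
      rw [← sub_add_sub_cancel _ (lv t N g (o + j)), ← add_assoc]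
      refine (abs_add_le _ _).trans
        ((add_le_add (lv_shift hg hN o j) (lv_step hsm hg hN _)).trans (le_of_eq ?_))
      push_cast; ring

/-- The indicator of a set. -/
def ind (S : ℕ → Bool) (n : ℕ) : ℝ := if S n then 1 else 0

lemma ind_nonneg (S : ℕ → Bool) (n : ℕ) : 0 ≤ ind S n := by unfold ind; split_ifs <;> norm_num

lemma ind_le_one (S : ℕ → Bool) (n : ℕ) : ind S n ≤ 1 := by unfold ind; split_ifs <;> norm_num

/-- At most `m` points in every window of `g`. -/
def Sparse (g m : ℕ) (S : ℕ → Bool) : Prop :=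
  ∀ a, #((range g).filter fun i => S (a + i) = true) ≤ m

lemma Sparse.shift {g m : ℕ} {S : ℕ → Bool} (h : Sparse g m S) (o : ℕ) :
    Sparse g m fun i => S (o + i) := fun a => by simpa only [add_assoc] using h (o + a)

lemma Sparse.or {g m m' : ℕ} {S S' : ℕ → Bool} (h : Sparse g m S) (h' : Sparse g m' S') :
    Sparse g (m + m') fun i => S i || S' i := fun a => by
  refine le_trans (le_of_eq ?_) ((card_union_le _ _).trans (add_le_add (h a) (h' a)))
  rw [← filter_or]
  simp

lemma Sparse.mono {g m m' : ℕ} {S : ℕ → Bool} (h : Sparse g m S) (hm : m ≤ m') : Sparse g m' S :=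
  fun a => (h a).trans hm

lemma Sparse.none {g m : ℕ} : Sparse g m fun _ => false := fun a => by simp

include hsm in
lemma lv_sparse (ht0 : 0 ≤ t) (ht1 : t ≤ 1) {g : ℕ} (hg : 0 < g) {S : ℕ → Bool} {m : ℕ} (hS : Sparse g m S) {N : ℕ}
    (hN : 1 ≤ N) (o : ℕ) : lv t N (ind S) o ≤ m / g + m * (C / Real.sqrt N) := by
  set f := ind S
  set A : ℕ → ℝ := fun x => (g : ℝ)⁻¹ * ∑ i ∈ range g, ∑ l ∈ range i, f (x + l) with hA
  set W : ℕ → ℝ := fun x => (g : ℝ)⁻¹ * ∑ i ∈ range g, f (x + i) with hW
  have hgr : (0 : ℝ) < g := by exact_mod_cast hg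
  have hwin : ∀ x, ∑ i ∈ range g, f (x + i) ≤ m := fun x => by
    simp only [f, ind, sum_boole]
    exact_mod_cast hS x
  have hA0 : ∀ x, 0 ≤ A x := fun x =>
    mul_nonneg (by positivity) (sum_nonneg fun i _ => sum_nonneg fun l _ => ind_nonneg _ _)
  have hAm : ∀ x, |A x| ≤ m := fun x => by
    rw [abs_of_nonneg (hA0 x), hA, inv_mul_le_iff₀ hgr]
    refine (sum_le_card_nsmul _ _ (m : ℝ) fun i hi => ?_).trans_eq (by simp)
    exact (sum_le_sum_of_subset_of_nonneg (range_subset_range.2 (mem_range.1 hi).le)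
      fun l _ _ => ind_nonneg _ _).trans (hwin x)
  have key : ∀ x, f x = (A x - A (x + 1)) + W x := fun x => by
    simp only [hA, hW, ← mul_sub, ← mul_add, ← sum_sub_distrib, ← sum_add_distrib]
    have : ∀ i : ℕ, ∑ l ∈ range i, (f (x + l) - f (x + 1 + l)) + f (x + i) = f x := fun i => by
      have := sum_range_sub' (fun l => f (x + l)) i
      simp only [add_zero] at this
      rw [show (fun l => f (x + l) - f (x + 1 + l)) = fun l => f (x + l) - f (x + (l + 1)) from
        funext fun l => by rw [add_assoc, add_comm 1 l], this]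
      ring
    rw [sum_congr rfl fun i _ => this i, sum_const, card_range, nsmul_eq_mul,
      ← mul_assoc, inv_mul_cancel₀ hgr.ne', one_mul]
  have lin : ∀ (F : Alg) (a b : List Bool → ℝ),
      ev F (fun w => a w + b w) = ev F a + ev F b := by
    intro F a b
    simp only [ev, Finsupp.sum, ← sum_add_distrib]
    exact sum_congr rfl fun w _ => by ring
  have e : lv t N f o = (lv t N A o - lv t N A (o + 1)) + lv t N W o := by
    simp only [lv]
    rw [show (fun w : List Bool => f (o + w.length)) =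
      fun w => (A (o + w.length) + -(A (o + 1 + w.length))) + W (o + w.length) from
      funext fun w => by rw [key, show o + 1 + w.length = o + w.length + 1 by omega, sub_eq_add_neg],
      lin, lin]
    simp [ev, Finsupp.sum, sub_eq_add_neg]
  rw [e, add_comm]
  refine add_le_add ?_ ((le_abs_self _).trans (lv_step hsm hAm hN o))
  have hp := (isProb_bitT ht0 ht1 false).pow N
  refine le_trans (ev_mono hp.pos fun w => ?_) (le_of_eq (by rw [ev_const, hp.mass_one, mul_one]))
  rw [hW, div_eq_inv_mul]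
  exact mul_le_mul_of_nonneg_left (hwin _) (by positivity)

end Smooth

/-! ### Domination by live cells -/

/-- The length of `Y` is at least as spread out as `n` live cells. -/
def Dom (t : ℝ) (Y : Alg) (n : ℕ) : Prop :=
  ∀ (g : ℕ → ℝ) (K : ℝ), (∀ o, lv t n g o ≤ K) → ∀ o, ev Y (fun w => g (o + w.length)) ≤ K

lemma dom_pow (t : ℝ) (n : ℕ) : Dom t (Lw t ^ n) n := fun _ _ h o => h o

lemma dom_prob (t : ℝ) {Y : Alg} (hY : IsProb Y) : Dom t Y 0 := by
  intro g K h o
  refine le_trans (ev_mono hY.pos fun w => ?_)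
    (le_of_eq (by rw [ev_const, hY.mass_one, mul_one]))
  have := h (o + w.length)
  simpa [lv, ev_one] using this

lemma Dom.mul {t : ℝ} {Y Z : Alg} {n m : ℕ} (hY : Dom t Y n) (hZ : Dom t Z m) :
    Dom t (Y * Z) (n + m) := by
  intro g K h o
  rw [ev_mul]
  simp only [List.length_append, ← add_assoc]
  refine hY (fun x => ev Z fun v => g (x + v.length)) K (fun o' => ?_) o
  have e : lv t n (fun x => ev Z fun v => g (x + v.length)) o' =
      ev Z (fun v => lv t n g (o' + v.length)) := by
    have h1 := ev_mul (Lw t ^ n) Z fun w => g (o' + w.length)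
    have h2 := ev_mul_swap (Lw t ^ n) Z fun w => g (o' + w.length)
    simp only [List.length_append] at h1 h2
    rw [h1] at h2
    simp only [lv]
    simp only [← add_assoc] at h2
    rw [h2]
    congr 1
    funext v
    congr 1
    funext u
    rw [add_right_comm]
  rw [e]
  refine hZ (lv t n g) K (fun o'' => ?_) o'
  rw [← lv_add, add_comm]
  exact h o''

lemma dom_per {t p : ℝ} (hp : 0 ≤ p) (hp1 : p ≤ 1) (k₁ k₂ : ℕ) :
    Dom t (per t p k₁ k₂) (k₁ + k₂) := by
  simpa [per] using ((dom_pow t k₁).mul (dom_prob t (isProb_bitT hp hp1 true))).mul (dom_pow t k₂)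

lemma Dom.npow {t : ℝ} {Y : Alg} {n : ℕ} (hY : Dom t Y n) : ∀ i, Dom t (Y ^ i) (i * n)
  | 0 => by simpa using dom_pow t 0
  | i + 1 => by rw [pow_succ, Nat.succ_mul]; exact (hY.npow i).mul hY

/-! ### Hits -/

/-- The number of marks of a mask in a set. -/
def hits : List Bool → (ℕ → Bool) → ℕ
  | [], _ => 0
  | b :: w, S => (if b && S 0 then 1 else 0) + hits w fun i => S (i + 1)

lemma hits_append : ∀ (u v : List Bool) (S : ℕ → Bool),
    hits (u ++ v) S = hits u S + hits v fun i => S (u.length + i)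
  | [], v, S => by simp [hits]
  | b :: u, v, S => by
      simp only [List.cons_append, hits, hits_append u v, List.length_cons, add_assoc]
      congr 3
      funext i
      congr 1
      omega

lemma hits_congr : ∀ (w : List Bool) (S S' : ℕ → Bool), (∀ i < w.length, S i = S' i) →
    hits w S = hits w S'
  | [], _, _, _ => rfl
  | b :: w, S, S', h => by
      simp only [hits, h 0 (by simp)]
      rw [hits_congr w _ _ fun i hi => h (i + 1) (by simpa using hi)]

lemma hits_reverse : ∀ (w : List Bool) (S : ℕ → Bool),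
    hits w S = hits w.reverse fun i => S (w.length - 1 - i)
  | [], _ => rfl
  | b :: w, S => by
      rw [List.reverse_cons, hits_append, hits, hits_reverse w]
      simp only [hits, List.length_reverse, List.length_cons, add_zero]
      rw [show w.length + 1 - 1 - w.length = 0 by omega, add_comm]
      congr 1
      refine hits_congr _ _ _ fun i hi => ?_
      rw [List.length_reverse] at hi
      congr 1
      omega

lemma hits_replicate : ∀ (n : ℕ) (S : ℕ → Bool), hits (List.replicate n false) S = 0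
  | 0, _ => rfl
  | n + 1, S => by simp [List.replicate_succ, hits, hits_replicate n]

/-- Only runs of dead marks occur among the cells. -/
lemma lw_mono {t : ℝ} (ht : 0 ≤ t) (ht1 : t ≤ 1) : ∀ (a : ℕ) (F F' : List Bool → ℝ),
    (∀ n, F (List.replicate n false) ≤ F' (List.replicate n false)) →
      ev (Lw t ^ a) F ≤ ev (Lw t ^ a) F'
  | 0, F, F', h => by simpa [ev_one] using h 0
  | a + 1, F, F', h => by
      rw [pow_succ', ev_mul, ev_mul, ev_bitT, ev_bitT]
      refine add_le_add (mul_le_mul_of_nonneg_left (lw_mono ht ht1 a _ _ fun n => by simpa using h n)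
        (by linarith)) (mul_le_mul_of_nonneg_left (lw_mono ht ht1 a _ _ fun n => ?_) ht)
      simpa [List.replicate_succ] using h (n + 1)

lemma lw_congr {t : ℝ} (ht : 0 ≤ t) (ht1 : t ≤ 1) (a : ℕ) {F F' : List Bool → ℝ}
    (h : ∀ n, F (List.replicate n false) = F' (List.replicate n false)) :
    ev (Lw t ^ a) F = ev (Lw t ^ a) F' :=
  le_antisymm (lw_mono ht ht1 a _ _ fun n => (h n).le) (lw_mono ht ht1 a _ _ fun n => (h n).ge)

lemma ev_add_fun (F : Alg) (a b : List Bool → ℝ) :
    ev F (fun w => a w + b w) = ev F a + ev F b := by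
  simp only [ev, Finsupp.sum, ← sum_add_distrib]
  exact sum_congr rfl fun w _ => by ring

lemma ev_const_mul (F : Alg) (a : List Bool → ℝ) (c : ℝ) :
    ev F (fun w => c * a w) = c * ev F a := by
  simp only [ev, Finsupp.sum, Finset.mul_sum]
  exact sum_congr rfl fun w _ => by ring

/-- The moment of the hits. -/
noncomputable def mom (c : ℝ) (Y : Alg) (S : ℕ → Bool) : ℝ := ev Y fun w => c ^ hits w S

/-- Mass of a point or a set at the marks after `i` periods. -/
noncomputable def hitAt (t p : ℝ) (k₁ k₂ i : ℕ) (S : ℕ → Bool) : ℝ :=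
  ev (per t p k₁ k₂ ^ i * Lw t ^ k₁) fun w => ind S w.length

section Bounds

variable {t p : ℝ} (ht : 0 ≤ t) (ht1 : t ≤ 1) (hp : 0 ≤ p) (hp1 : p ≤ 1) {k₁ k₂ : ℕ}

include ht ht1 hp hp1 in
lemma mom_step {c K : ℝ} (hc : 1 ≤ c) {Y : Alg} (hY : Pos Y) {g m : ℕ}
    (hK : ∀ S, Sparse g m S → mom c Y S ≤ K) {S : ℕ → Bool} (hS : Sparse g m S) :
    mom c (per t p k₁ k₂ * Y) S ≤
      ev (per t p k₁ k₂) (fun w => mom c Y fun i => S (w.length + i)) +
        (c - 1) * K * ev (Lw t ^ k₁) (fun w => ind S w.length) := by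
  have hK0 : ∀ S, Sparse g m S → 0 ≤ mom c Y S := fun S _ =>
    ev_nonneg hY fun w => pow_nonneg (by linarith) _
  simp only [mom, per, mul_assoc, ev_mul]
  rw [← ev_const_mul, ← ev_const_mul, ← ev_add_fun]
  refine lw_mono ht ht1 k₁ _ _ fun n => ?_
  simp only [ev_bitT, List.length_replicate, List.nil_append, List.length_append,
    List.length_singleton]
  set R : ℕ → ℝ := fun o => ev (Lw t ^ k₂) fun v =>
    ev Y fun y => c ^ hits y fun i => S (o + (v.length + i)) with hR
  have e1 : ∀ u : List Bool, ev (Lw t ^ k₂) (fun v => ev Y fun y => c ^ hits (u ++ (v ++ y)) S) =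
      c ^ hits u S * R u.length := by
    intro u
    rw [hR, ← ev_const_mul]
    refine lw_congr ht ht1 k₂ fun j => ?_
    rw [← ev_const_mul]
    congr 1
    funext y
    rw [hits_append, hits_append, hits_replicate, zero_add, ← pow_add]
  have e2 := e1 (List.replicate n false ++ [true])
  simp only [List.append_assoc, List.singleton_append] at e2 ⊢
  rw [e1, e2, hits_append, hits_replicate]
  simp only [List.length_replicate, List.length_append, List.length_singleton, hits, Bool.true_and,
    add_zero, zero_add, pow_zero, one_mul]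
  have hb : ∀ o, R o ≤ K := fun o => by
    refine le_trans (lw_mono ht ht1 k₂ _ (fun _ => K) fun j => ?_) (le_of_eq ?_)
    · have := hK _ ((hS.shift o).shift (List.replicate j false).length)
      simpa [mom, add_assoc] using this
    · rw [ev_const, ((isProb_bitT ht ht1 false).pow k₂).mass_one, mul_one]
  have e3 : ∀ o, ev (Lw t ^ k₂) (fun v => ev Y fun y => c ^ hits y fun i => S (o + v.length + i)) =
      R o := fun o => by simp only [hR, add_assoc]
  simp only [← add_assoc, e3, List.length_nil, add_zero]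
  have hKn : 0 ≤ K := (hK0 _ Sparse.none).trans (hK _ Sparse.none)
  have hn := hb (n + 1)
  have : (c ^ (if S n = true then 1 else 0) - 1) * R (n + 1) ≤ (c - 1) * K * ind S n := by
    unfold ind
    split_ifs
    · rw [pow_one, mul_one]; exact mul_le_mul_of_nonneg_left hn (by linarith)
    · simp
  nlinarith [mul_le_mul_of_nonneg_left hn hp, mul_le_of_le_one_left
    (mul_nonneg (mul_nonneg (sub_nonneg.2 hc) hKn) (ind_nonneg S n)) hp1]

include ht ht1 hp hp1 in
/-- A segment in which the expected number of hits is small. -/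
theorem mom_segment {c : ℝ} (hc : 1 ≤ c) {g m s : ℕ} {ρ : ℕ → ℝ}
    (hρ : ∀ i < s, ∀ S, Sparse g m S → hitAt t p k₁ k₂ i S ≤ ρ i)
    (hρ0 : ∀ i < s, 0 ≤ ρ i) (hsum : 2 * (c - 1) * ∑ i ∈ range s, ρ i ≤ 1) :
    ∀ j ≤ s, ∀ S, Sparse g m S → mom c (per t p k₁ k₂ ^ j) S ≤ 2 := by
  set X := per t p k₁ k₂
  have hX : IsProb X := isProb_per ht ht1 hp hp1 k₁ k₂
  suffices h : ∀ j ≤ s, ∀ S, Sparse g m S → mom c (X ^ j) S ≤
      1 + 2 * (c - 1) * ∑ i ∈ range j, hitAt t p k₁ k₂ i S by
    intro j hj S hS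
    refine (h j hj S hS).trans ?_
    have h1 : ∑ i ∈ range j, hitAt t p k₁ k₂ i S ≤ ∑ i ∈ range s, ρ i :=
      (sum_le_sum fun i hi => hρ i (lt_of_lt_of_le (mem_range.1 hi) hj) S hS).trans
        (sum_le_sum_of_subset_of_nonneg (range_subset_range.2 hj)
          fun i hi _ => hρ0 i (mem_range.1 hi))
    have := mul_le_mul_of_nonneg_left h1 (show 0 ≤ 2 * (c - 1) by linarith)
    linarith
  intro j
  induction j with
  | zero =>
    intro _ S _
    simp [mom, ev_one, hits]
  | succ j ih =>
    intro hj S hS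
    have hK : ∀ S, Sparse g m S → mom c (X ^ j) S ≤ 2 := fun S hS => by
      refine (ih (by omega) S hS).trans ?_
      have h1 : ∑ i ∈ range j, hitAt t p k₁ k₂ i S ≤ ∑ i ∈ range s, ρ i :=
        (sum_le_sum fun i hi => hρ i (by have := mem_range.1 hi; omega) S hS).trans
          (sum_le_sum_of_subset_of_nonneg (range_subset_range.2 (by omega))
            fun i hi _ => hρ0 i (mem_range.1 hi))
      have := mul_le_mul_of_nonneg_left h1 (show 0 ≤ 2 * (c - 1) by linarith)
      linarith
    rw [pow_succ']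
    refine (mom_step ht ht1 hp hp1 hc (hX.pow j).pos hK hS).trans ?_
    refine le_trans (add_le_add (ev_mono hX.pos fun w => ih (by omega) _ (hS.shift w.length))
      le_rfl) (le_of_eq ?_)
    rw [ev_add_fun, ev_const, hX.mass_one, mul_one, ev_const_mul, sum_range_succ', add_assoc]
    have e : ev X (fun w => ∑ i ∈ range j, hitAt t p k₁ k₂ i fun a => S (w.length + a)) =
        ∑ i ∈ range j, hitAt t p k₁ k₂ (i + 1) S := by
      simp only [hitAt, pow_succ', mul_assoc]
      simp only [ev_mul _ (per t p k₁ k₂ ^ _ * Lw t ^ k₁), List.length_append]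
      simp only [ev, Finsupp.sum, Finset.mul_sum]
      rw [Finset.sum_comm]
      rfl
    rw [e, show hitAt t p k₁ k₂ 0 S = ev (Lw t ^ k₁) (fun w => ind S w.length) by
      simp [hitAt]]
    ring

lemma mom_mul {c K K' : ℝ} (hc : 1 ≤ c) {Y Z : Alg} (hY : Pos Y) (hZ : Pos Z) {g m : ℕ}
    (h : ∀ S, Sparse g m S → mom c Y S ≤ K) (h' : ∀ S, Sparse g m S → mom c Z S ≤ K')
    {S : ℕ → Bool} (hS : Sparse g m S) : mom c (Y * Z) S ≤ K * K' := by
  have hK' : 0 ≤ K' := le_trans (ev_nonneg hZ fun w => pow_nonneg (by linarith) _)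
    (h' _ Sparse.none)
  simp only [mom, ev_mul, hits_append, pow_add]
  refine le_trans (ev_mono hY (ψ := fun u => K' * c ^ hits u S) fun u => ?_) ?_
  · rw [ev_const_mul, mul_comm K']
    exact mul_le_mul_of_nonneg_left (h' _ (hS.shift u.length)) (pow_nonneg (by linarith) _)
  · rw [ev_const_mul, mul_comm K]
    exact mul_le_mul_of_nonneg_left (h S hS) hK'

include ht ht1 hp hp1 in
theorem mom_blocks {c : ℝ} (hc : 1 ≤ c) {g m s : ℕ}
    (h : ∀ j ≤ s, ∀ S, Sparse g m S → mom c (per t p k₁ k₂ ^ j) S ≤ 2) :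
    ∀ r j, j ≤ r * s → ∀ S, Sparse g m S → mom c (per t p k₁ k₂ ^ j) S ≤ 2 ^ r
  | 0, j, hj, S, _ => by
      obtain rfl : j = 0 := by simpa using hj
      simp [mom, ev_one, hits]
  | r + 1, j, hj, S, hS => by
      have hX : IsProb (per t p k₁ k₂) := isProb_per ht ht1 hp hp1 k₁ k₂
      rw [Nat.succ_mul] at hj
      obtain ⟨a, b, rfl, ha, hb⟩ : ∃ a b, j = a + b ∧ a ≤ s ∧ b ≤ r * s :=
        ⟨min j s, j - min j s, by omega, by omega, by omega⟩
      rw [pow_add, pow_succ']
      exact mom_mul hc (hX.pow _).pos (hX.pow _).pos (h a ha)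
        (mom_blocks hc h r b hb) hS

end Bounds

/-! ### Reading backwards -/

/-- `Z` is the law of the reversal of `Y`. -/
def Mirror (Y Z : Alg) : Prop := ∀ φ : List Bool → ℝ, ev Y (fun w => φ w.reverse) = ev Z φ

lemma mirror_bitT (t : ℝ) (b : Bool) : Mirror (bitT t b) (bitT t b) := fun φ => by
  simp [ev_bitT]

lemma Mirror.one : Mirror 1 1 := fun φ => by simp [ev_one]

lemma Mirror.mul {Y Y' Z Z' : Alg} (h : Mirror Y Y') (h' : Mirror Z Z') :
    Mirror (Y * Z) (Z' * Y') := fun φ => by
  rw [ev_mul_swap, ev_mul]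
  simp only [List.reverse_append]
  simp_rw [fun v : List Bool => h fun u => φ (v.reverse ++ u)]
  exact h' fun v => ev Y' fun u => φ (v ++ u)

lemma Mirror.pow {Y Z : Alg} (h : Mirror Y Z) : ∀ i, Mirror (Y ^ i) (Z ^ i)
  | 0 => by simpa using Mirror.one
  | i + 1 => by rw [pow_succ, pow_succ']; exact (h.pow i).mul h

lemma mirror_per (t p : ℝ) (k₁ k₂ : ℕ) : Mirror (per t p k₁ k₂) (per t p k₂ k₁) := by
  have := (((mirror_bitT t false).pow k₁).mul (mirror_bitT p true)).mul
    ((mirror_bitT t false).pow k₂)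
  rwa [← mul_assoc] at this

/-- The set read from the end `M`. -/
def flipSet (M : ℕ) (S : ℕ → Bool) : ℕ → Bool := fun i => decide (i < M) && S (M - 1 - i)

lemma Sparse.flip {g m : ℕ} {S : ℕ → Bool} (h : Sparse g m S) (M : ℕ) :
    Sparse g m (flipSet M S) := by
  intro a
  refine le_trans ?_ (h (M - a - g))
  refine card_le_card_of_injOn (fun i => M - 1 - (a + i) - (M - a - g)) ?_ ?_
  · intro i hi
    simp only [coe_filter, Set.mem_ofPred_eq, mem_range, flipSet, Bool.and_eq_true,
      decide_eq_true_eq] at hi ⊢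
    refine ⟨by omega, ?_⟩
    rw [show M - a - g + (M - 1 - (a + i) - (M - a - g)) = M - 1 - (a + i) by omega]
    exact hi.2.2
  · intro i hi j hj e
    simp only [coe_filter, Set.mem_ofPred_eq, mem_range, flipSet, Bool.and_eq_true,
      decide_eq_true_eq] at hi hj
    simp only at e
    omega

/-- Both halves: the moment on the event that `M` cells are live. -/
theorem mom_at {t p : ℝ} (ht : 0 ≤ t) (ht1 : t ≤ 1) (hp : 0 ≤ p) (hp1 : p ≤ 1) {k₁ k₂ : ℕ}
    {c K P : ℝ} (hc : 1 ≤ c) {g m j₁ j₂ : ℕ}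
    (h₁ : ∀ S, Sparse g m S → mom (c ^ 2) (per t p k₁ k₂ ^ j₁) S ≤ K)
    (h₂ : ∀ S, Sparse g m S → mom (c ^ 2) (per t p k₂ k₁ ^ j₂) S ≤ K)
    (hP₁ : ∀ M o, ev (per t p k₁ k₂ ^ j₁) (fun w => if o + w.length = M then 1 else 0) ≤ P)
    (hP₂ : ∀ M o, ev (per t p k₁ k₂ ^ j₂) (fun w => if o + w.length = M then 1 else 0) ≤ P)
    (M : ℕ) {S : ℕ → Bool} (hS : Sparse g m S) :
    ev (per t p k₁ k₂ ^ (j₁ + j₂))
      (fun w => if w.length = M then c ^ hits w S else 0) ≤ K * P := by
  set X := per t p k₁ k₂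
  have hX : IsProb X := isProb_per ht ht1 hp hp1 k₁ k₂
  have h1 := (hX.pow j₁).pos
  have h2 := (hX.pow j₂).pos
  have hc2 : ∀ n : ℕ, 0 ≤ (c ^ 2) ^ n := fun n => by positivity
  have hP0 : 0 ≤ P := le_trans (ev_nonneg h1 fun w => by split_ifs <;> norm_num) (hP₁ 0 0)
  set A : List Bool → List Bool → ℝ := fun u v =>
    if u.length + v.length = M then (c ^ 2) ^ hits u S / 2 else 0
  set B : List Bool → List Bool → ℝ := fun u v =>
    if u.length + v.length = M then (c ^ 2) ^ hits v (fun i => S (u.length + i)) / 2 else 0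
  rw [pow_add, ev_mul]
  refine (ev_mono h1 (ψ := fun u => ev (X ^ j₂) (A u) + ev (X ^ j₂) (B u)) fun u => ?_).trans ?_
  · rw [← ev_add_fun]
    refine ev_mono h2 fun v => ?_
    simp only [A, B, List.length_append, hits_append, pow_add]
    split_ifs
    · rw [← pow_mul, ← pow_mul, mul_comm 2, mul_comm 2, pow_mul, pow_mul]
      nlinarith [sq_nonneg (c ^ hits u S - c ^ hits v fun i => S (u.length + i))]
    · simp
  rw [ev_add_fun, show K * P = K * P / 2 + K * P / 2 by ring]
  refine add_le_add ?_ ?_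
  · refine (ev_mono h1 (ψ := fun u => P / 2 * (c ^ 2) ^ hits u S) fun u => ?_).trans ?_
    · rw [show A u = fun v => (c ^ 2) ^ hits u S / 2 *
        if u.length + v.length = M then 1 else 0 by funext v; simp [A], ev_const_mul]
      exact le_trans (mul_le_mul_of_nonneg_left (hP₂ M _) (div_nonneg (hc2 _) (by norm_num)))
        (le_of_eq (by ring))
    · rw [ev_const_mul]
      exact le_trans (mul_le_mul_of_nonneg_left (h₁ S hS) (by positivity)) (le_of_eq (by ring))
  · have e : ev (X ^ j₁) (fun u => ev (X ^ j₂) (B u)) =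
        ev (X ^ j₂) (fun v => ev (X ^ j₁) fun u => B u v) := by
      simp only [ev, Finsupp.sum, Finset.mul_sum]
      rw [Finset.sum_comm]
      exact sum_congr rfl fun v _ => sum_congr rfl fun u _ => by ring
    rw [e]
    refine (ev_mono h2 (ψ := fun v => P / 2 * (c ^ 2) ^ hits v.reverse (flipSet M S))
      fun v => ?_).trans ?_
    · by_cases hv : v.length ≤ M
      · have eB : (fun u => B u v) = fun u =>
            (c ^ 2) ^ hits v.reverse (flipSet M S) / 2 *
              if v.length + u.length = M then 1 else 0 := by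
          funext u
          simp only [B, add_comm v.length]
          split_ifs with hu
          · rw [mul_one, hits_reverse v]
            congr 2
            refine hits_congr _ _ _ fun i hi => ?_
            rw [List.length_reverse] at hi
            simp only [flipSet, show i < M by omega, decide_true, Bool.true_and]
            congr 1
            omega
          · simp
        rw [eB, ev_const_mul]
        exact le_trans (mul_le_mul_of_nonneg_left (hP₁ M _) (div_nonneg (hc2 _) (by norm_num)))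
          (le_of_eq (by ring))
      · refine le_trans (le_of_eq ?_) (mul_nonneg (by positivity) (hc2 _))
        have eB : (fun u => B u v) = fun _ => 0 := funext fun u => if_neg (by omega)
        rw [eB, ev_const, zero_mul]
    · rw [ev_const_mul,
        ((mirror_per t p k₁ k₂).pow j₂) fun w => (c ^ 2) ^ hits w (flipSet M S)]
      exact le_trans (mul_le_mul_of_nonneg_left (h₂ _ (hS.flip M)) (by positivity))
        (le_of_eq (by ring))

/-! ### Estimates -/

lemma sum_inv_sqrt : ∀ s : ℕ, ∑ i ∈ range s, 1 / Real.sqrt ((i : ℝ) + 1) ≤ 2 * Real.sqrt s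
  | 0 => by simp
  | s + 1 => by
      rw [sum_range_succ]
      refine (add_le_add (sum_inv_sqrt s) le_rfl).trans ?_
      have h0 : (0 : ℝ) < Real.sqrt ((s : ℝ) + 1) := Real.sqrt_pos.2 (by positivity)
      rw [← le_sub_iff_add_le', div_le_iff₀ h0]
      push_cast
      have h1 := Real.sq_sqrt (show (0 : ℝ) ≤ s from Nat.cast_nonneg s)
      have h2 := Real.sq_sqrt (show (0 : ℝ) ≤ (s : ℝ) + 1 by positivity)
      nlinarith [sq_nonneg (Real.sqrt s - Real.sqrt ((s : ℝ) + 1))]

section Estimates

variable {t p C : ℝ} (ht : 0 ≤ t) (ht1 : t ≤ 1) (hp : 0 ≤ p) (hp1 : p ≤ 1) (hC : 0 ≤ C)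
  (hsm : ∀ N : ℕ, 1 ≤ N → nrm (Lw t ^ N * (1 - MonoidAlgebra.single (FreeMonoid.of false) 1)) ≤
    C / Real.sqrt N)

include ht ht1 hp hp1 hC hsm in
lemma hitAt_le {k₁ k₂ k g m : ℕ} (hk : 1 ≤ k) (hk1 : k ≤ k₁) (hk2 : k ≤ k₂) (hg : 0 < g) (i : ℕ)
    {S : ℕ → Bool} (hS : Sparse g m S) :
    hitAt t p k₁ k₂ i S ≤ m / g + m * (C / Real.sqrt k) * (1 / Real.sqrt ((i : ℝ) + 1)) := by
  have h := ((dom_per (t := t) hp hp1 k₁ k₂).npow i).mul (dom_pow t k₁) (ind S)
    (m / g + m * (C / Real.sqrt k) * (1 / Real.sqrt ((i : ℝ) + 1))) (fun o => ?_) 0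
  · simpa [hitAt] using h
  · have hN : k * (i + 1) ≤ i * (k₁ + k₂) + k₁ := by
      rw [Nat.mul_succ, mul_comm]
      exact add_le_add (Nat.mul_le_mul_left i (by omega)) hk1
    have hpos : 1 ≤ k * (i + 1) := Nat.mul_pos hk (Nat.succ_pos i)
    refine (lv_sparse hsm ht ht1 hg hS (hpos.trans hN) o).trans (add_le_add le_rfl ?_)
    rw [mul_assoc]
    refine mul_le_mul_of_nonneg_left ?_ (Nat.cast_nonneg m)
    rw [mul_one_div, div_div, ← Real.sqrt_mul (Nat.cast_nonneg k)]
    refine div_le_div_of_nonneg_left hC (Real.sqrt_pos.2 ?_) (Real.sqrt_le_sqrt ?_)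
    · exact_mod_cast hpos
    · exact_mod_cast hN

include ht ht1 hp hp1 hsm in
lemma point_le {k₁ k₂ j : ℕ} (hj : 1 ≤ j * (k₁ + k₂)) (M o : ℕ) :
    ev (per t p k₁ k₂ ^ j) (fun w => if o + w.length = M then 1 else 0) ≤
      (1 + C) / Real.sqrt (j * (k₁ + k₂) : ℕ) := by
  set N := j * (k₁ + k₂) with hN
  have h := (dom_per (t := t) hp hp1 k₁ k₂).npow j (ind fun n => decide (n = M))
    ((1 + C) / Real.sqrt N) (fun o' => ?_) o
  · simpa [ind] using h
  · have hS : Sparse N 1 fun n => decide (n = M) := fun a => card_le_one.2 fun x hx y hy => by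
      simp only [mem_filter, decide_eq_true_eq] at hx hy
      omega
    refine (lv_sparse hsm ht ht1 hj hS hj o').trans ?_
    rw [Nat.cast_one, one_mul, add_div]
    refine add_le_add (div_le_div_of_nonneg_left zero_le_one
      (Real.sqrt_pos.2 (by exact_mod_cast hj)) ?_) le_rfl
    have h1 : (1 : ℝ) ≤ N := by exact_mod_cast hj
    rw [Real.sqrt_le_left (by linarith)]
    nlinarith

include hsm in
lemma shift_law {Y : Alg} {N : ℕ} (hY : Dom t Y N) (hN : 1 ≤ N) {X : Alg} (hX : IsProb X) {μ : ℝ}
    (hμ : ev X (fun w => (w.length : ℝ)) ≤ μ) (hC : 0 ≤ C) {g : ℕ → ℝ} (hg : ∀ n, |g n| ≤ 1) :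
    ev Y (fun w => g w.length) - ev (Y * X) (fun w => g w.length) ≤ μ * (C / Real.sqrt N) := by
  have lin : ∀ (F : Alg) (a b : List Bool → ℝ), ev F (fun w => a w - b w) = ev F a - ev F b := by
    intro F a b
    simp only [ev, Finsupp.sum, ← sum_sub_distrib]
    exact sum_congr rfl fun w _ => by ring
  have key := hY (fun o => g o - ev X fun x => g (o + x.length)) (μ * (C / Real.sqrt N))
    (fun o => ?_) 0
  · simpa [lin, ev_mul] using key
  · have e : lv t N (fun o => g o - ev X fun x => g (o + x.length)) o =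
        ev X (fun x => lv t N g o - lv t N g (o + x.length)) := by
      rw [lin, ev_const, hX.mass_one, mul_one]
      simp only [lv, lin]
      congr 1
      simp only [ev, Finsupp.sum, Finset.mul_sum]
      rw [Finset.sum_comm]
      exact sum_congr rfl fun x _ => sum_congr rfl fun w _ => by rw [add_right_comm]; ring
    rw [e]
    refine (ev_mono hX.pos (ψ := fun x => C / Real.sqrt N * (x.length : ℝ)) fun x => ?_).trans ?_
    · refine (le_abs_self _).trans ((lv_shift hsm hg hN o x.length).trans (le_of_eq ?_))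
      ring
    · rw [ev_const_mul, mul_comm μ]
      exact mul_le_mul_of_nonneg_left hμ (by positivity)

end Estimates

/-! ### Mean and variance of the number of live cells -/

/-- Mean and variance of the length. -/
structure Mean (Y : Alg) (μ v : ℝ) : Prop where
  prob : IsProb Y
  fst : ∀ a : ℝ, ev Y (fun w => a + w.length) = a + μ
  snd : ∀ a : ℝ, ev Y (fun w => (a + w.length) ^ 2) ≤ (a + μ) ^ 2 + v

lemma mean_bitT {t : ℝ} (ht : 0 ≤ t) (ht1 : t ≤ 1) (b : Bool) : Mean (bitT t b) t 1 := by
  refine ⟨isProb_bitT ht ht1 b, fun a => ?_, fun a => ?_⟩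
  · rw [ev_bitT]; simp; ring
  · rw [ev_bitT]; simp; nlinarith

lemma Mean.one : Mean 1 0 0 := ⟨IsProb.one, fun a => by simp [ev_one], fun a => by simp [ev_one]⟩

lemma Mean.mul {Y Z : Alg} {μ ν v u : ℝ} (h : Mean Y μ v) (h' : Mean Z ν u) :
    Mean (Y * Z) (μ + ν) (v + u) := by
  refine ⟨h.prob.mul h'.prob, fun a => ?_, fun a => ?_⟩
  · rw [ev_mul]
    simp only [List.length_append, Nat.cast_add, ← add_assoc, h'.fst]
    simp only [add_right_comm a, h.fst (a + ν)]
  · rw [ev_mul]
    simp only [List.length_append, Nat.cast_add, ← add_assoc]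
    refine (ev_mono h.prob.pos fun w => h'.snd (a + w.length)).trans ?_
    rw [ev_add_fun, ev_const, h.prob.mass_one, mul_one]
    simp only [add_right_comm a]
    refine (add_le_add (h.snd (a + ν)) le_rfl).trans (le_of_eq ?_)
    ring

lemma Mean.pow {Y : Alg} {μ v : ℝ} (h : Mean Y μ v) : ∀ n : ℕ, Mean (Y ^ n) (n * μ) (n * v)
  | 0 => by simpa using Mean.one
  | n + 1 => by
      rw [pow_succ, Nat.cast_succ, add_one_mul, add_one_mul]
      exact (h.pow n).mul h

lemma mean_per {t p : ℝ} (ht : 0 ≤ t) (ht1 : t ≤ 1) (hp : 0 ≤ p) (hp1 : p ≤ 1) (k₁ k₂ : ℕ) :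
    Mean (per t p k₁ k₂) (k₁ * t + p + k₂ * t) (k₁ + 1 + k₂) := by
  simpa [per] using (((mean_bitT ht ht1 false).pow k₁).mul (mean_bitT hp hp1 true)).mul
    ((mean_bitT ht ht1 false).pow k₂)

/-! ### Masks with separated marks -/

/-- Every word of the support satisfies `P`. -/
def OnSupp (Y : Alg) (P : List Bool → Prop) : Prop :=
  ∀ w, Y.coeff w ≠ 0 → P (FreeMonoid.toList w)

lemma OnSupp.mul {Y Z : Alg} {P Q R : List Bool → Prop} (h : OnSupp Y P) (h' : OnSupp Z Q)
    (hPQ : ∀ u v, P u → Q v → R (u ++ v)) : OnSupp (Y * Z) R := by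
  classical
  intro w hw
  rw [MonoidAlgebra.coeff_mul, Finsupp.sum] at hw
  obtain ⟨a, ha, hw⟩ := exists_ne_zero_of_sum_ne_zero hw
  obtain ⟨b, hb, hw⟩ := exists_ne_zero_of_sum_ne_zero hw
  simp only at hw
  split_ifs at hw with e
  · rw [← e, FreeMonoid.toList_mul]
    exact hPQ _ _ (h a (Finsupp.mem_support_iff.1 ha)) (h' b (Finsupp.mem_support_iff.1 hb))
  · exact absurd rfl hw

lemma onSupp_bitT (t : ℝ) (b : Bool) : OnSupp (bitT t b) fun w => w = [] ∨ w = [b] := by
  classical
  intro w hw
  simp only [bitT, MonoidAlgebra.coeff_add, Finsupp.add_apply, MonoidAlgebra.coeff_single,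
    Finsupp.single_apply] at hw
  by_cases h1 : (1 : FreeMonoid Bool) = w
  · left; rw [← h1]; rfl
  · by_cases h2 : FreeMonoid.of b = w
    · right; rw [← h2]; rfl
    · simp [h1, h2] at hw

lemma onSupp_lw (t : ℝ) : ∀ n : ℕ, OnSupp (Lw t ^ n) fun w => true ∉ w
  | 0 => by
      classical
      intro w hw
      simp only [pow_zero, MonoidAlgebra.one_def, MonoidAlgebra.coeff_single,
        Finsupp.single_apply] at hw
      split_ifs at hw with h
      · rw [← h]; simp
      · exact absurd rfl hw
  | n + 1 => by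
      rw [pow_succ]
      refine (onSupp_lw t n).mul (onSupp_bitT t false) fun u v hu hv => ?_
      rcases hv with rfl | rfl <;> simp [hu]

/-- Marks at distance at least `g` from each other and from the end. -/
def Gap (g : ℕ) (w : List Bool) : Prop :=
  ∀ i, bit w i = true → i + g ≤ w.length ∧ ∀ j, i < j → bit w j = true → i + g ≤ j

lemma Gap.nil (g : ℕ) : Gap g [] := fun i h => by simp [bit] at h

lemma Gap.append {g : ℕ} {u v : List Bool} (hu : Gap g u) (hv : Gap g v) : Gap g (u ++ v) := by
  have e1 : ∀ i, i < u.length → bit (u ++ v) i = bit u i := fun i hi => by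
    rw [bit, bit, List.getD_append _ _ _ _ hi]
  have e2 : ∀ i, u.length ≤ i → bit (u ++ v) i = bit v (i - u.length) := fun i hi => by
    rw [bit, bit, List.getD_append_right _ _ _ _ hi]
  intro i hi
  rw [List.length_append]
  rcases lt_or_ge i u.length with h | h
  · rw [e1 i h] at hi
    obtain ⟨a, b⟩ := hu i hi
    refine ⟨by omega, fun j hij hj => ?_⟩
    rcases lt_or_ge j u.length with h' | h'
    · exact b j hij (by rwa [e1 j h'] at hj)
    · omega
  · rw [e2 i h] at hi
    obtain ⟨a, b⟩ := hv _ hi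
    refine ⟨by omega, fun j hij hj => ?_⟩
    rw [e2 j (by omega)] at hj
    have := b (j - u.length) (by omega) hj
    omega

lemma Gap.sparse {g : ℕ} {w : List Bool} (h : Gap g w) : Sparse g 1 (bit w) := fun a => by
  refine card_le_one.2 fun x hx y hy => ?_
  simp only [mem_filter, mem_range] at hx hy
  rcases lt_trichotomy x y with l | l | l
  · have := (h _ hx.2).2 (a + y) (by omega) hy.2; omega
  · exact l
  · have := (h _ hy.2).2 (a + x) (by omega) hx.2; omega

/-- A period whose mark is followed by at least `g` live cells. -/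
noncomputable def tper (t p : ℝ) (k₁ k₂ g : ℕ) : Alg :=
  Lw t ^ k₁ * bitT p true * restrict (Lw t ^ k₂) fun w => g ≤ (FreeMonoid.toList w).length

lemma gap_tper (t p : ℝ) (k₁ k₂ g : ℕ) : OnSupp (tper t p k₁ k₂ g) (Gap g) := by
  classical
  have hR : OnSupp (restrict (Lw t ^ k₂) fun w => g ≤ (FreeMonoid.toList w).length)
      fun w => true ∉ w ∧ g ≤ w.length := by
    intro w hw
    rw [coeff_restrict] at hw
    split_ifs at hw with h
    · exact ⟨onSupp_lw t k₂ w hw, h⟩
    · exact absurd rfl hw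
  refine (((onSupp_lw t k₁).mul (onSupp_bitT p true) (R := fun w => ∀ i, bit w i = true →
    i + 1 = w.length) fun u v hu hv => ?_).mul hR fun u v hu hv => ?_)
  · intro i hi
    have hlt : i < (u ++ v).length := by
      by_contra hc
      simp [bit_of_le (not_lt.1 hc)] at hi
    rcases lt_or_ge i u.length with h | h
    · rw [bit, List.getD_append _ _ _ _ h, List.getD_eq_getElem _ _ h] at hi
      exact absurd (hi ▸ List.getElem_mem h) hu
    · rcases hv with rfl | rfl <;> simp at hlt ⊢ <;> omega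
  · intro i hi
    have hiu : i < u.length := by
      by_contra hc
      rw [bit, List.getD_append_right _ _ _ _ (not_lt.1 hc)] at hi
      rcases lt_or_ge (i - u.length) v.length with h | h
      · rw [List.getD_eq_getElem _ _ h] at hi
        exact hv.1 (hi ▸ List.getElem_mem h)
      · rw [List.getD_eq_default _ _ h] at hi
        exact Bool.noConfusion hi
    have hb : bit u i = true := by rwa [bit, List.getD_append _ _ _ _ hiu] at hi
    have hiu' := hu i hb
    refine ⟨by rw [List.length_append]; have := hv.2; omega, fun j hij hj => ?_⟩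
    rw [bit, List.getD_append_right _ _ _ _ (by omega)] at hj
    rcases lt_or_ge (j - u.length) v.length with h | h
    · rw [List.getD_eq_getElem _ _ h] at hj
      exact absurd (hj ▸ List.getElem_mem h) hv.1
    · rw [List.getD_eq_default _ _ h] at hj
      exact Bool.noConfusion hj

lemma gap_pow {Y : Alg} {g : ℕ} (h : OnSupp Y (Gap g)) : ∀ n : ℕ, OnSupp (Y ^ n) (Gap g)
  | 0 => by
      classical
      intro w hw
      simp only [pow_zero, MonoidAlgebra.one_def, MonoidAlgebra.coeff_single,
        Finsupp.single_apply] at hw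
      split_ifs at hw with e
      · rw [← e]; exact Gap.nil g
      · exact absurd rfl hw
  | n + 1 => by rw [pow_succ]; exact (gap_pow h n).mul h fun u v => Gap.append

lemma ev_lw_half (t : ℝ) : ∀ n : ℕ,
    ev (Lw t ^ n) (fun w => (1 / 2 : ℝ) ^ w.length) = (1 - t / 2) ^ n
  | 0 => by simp [ev_one]
  | n + 1 => by
      rw [pow_succ', ev_mul, ev_bitT]
      simp only [List.nil_append, List.cons_append, List.length_cons, pow_succ' (1 / 2 : ℝ),
        ev_const_mul, ev_lw_half t n, pow_succ']
      ring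

/-- The lost mass of a truncated period. -/
lemma tper_le {t p : ℝ} (ht : 0 ≤ t) (ht1 : t ≤ 1) (hp : 0 ≤ p) (hp1 : p ≤ 1) (k₁ k₂ g : ℕ) :
    Pos (tper t p k₁ k₂ g) ∧ Pos (per t p k₁ k₂ - tper t p k₁ k₂ g) ∧
      1 - 2 ^ g * (1 - t / 2) ^ k₂ ≤ mass (tper t p k₁ k₂ g) := by
  classical
  have hL := (isProb_bitT ht ht1 false).pow k₂
  have hA := ((isProb_bitT ht ht1 false).pow k₁).mul (isProb_bitT hp hp1 true)
  set G : FreeMonoid Bool → Prop := fun w => g ≤ (FreeMonoid.toList w).length
  have hsplit := restrict_add_compl (Lw t ^ k₂) G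
  refine ⟨hA.pos.mul (hL.pos.restrict _), ?_, ?_⟩
  · rw [per, tper, ← mul_sub]
    nth_rewrite 1 [← hsplit]
    rw [add_sub_cancel_left]
    exact hA.pos.mul (hL.pos.restrict _)
  · have hm := congrArg mass hsplit
    rw [map_add, hL.mass_one] at hm
    rw [tper, map_mul, hA.mass_one, one_mul]
    have : mass (restrict (Lw t ^ k₂) fun w => ¬ G w) ≤ 2 ^ g * (1 - t / 2) ^ k₂ := by
      rw [← ev_lw_half, ← ev_const_mul, ← one_mul (mass _), ← ev_const]
      simp only [ev]
      rw [Finsupp.sum_of_support_subset (s := (Lw t ^ k₂).coeff.support) _ (fun w hw => by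
        rw [Finsupp.mem_support_iff, coeff_restrict] at hw
        split_ifs at hw <;> first | exact Finsupp.mem_support_iff.2 hw | exact absurd rfl hw) _
        (by simp), Finsupp.sum]
      refine sum_le_sum fun w _ => ?_
      rw [coeff_restrict, mul_one]
      have h0 := hL.pos w
      split_ifs with h
      · exact mul_nonneg h0 (by positivity)
      · refine le_mul_of_one_le_right h0 ?_
        simp only [G, not_le] at h
        rw [one_div, inv_pow, ← div_eq_mul_inv, one_le_div (by positivity)]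
        exact pow_le_pow_right₀ one_le_two h.le
    linarith

lemma pos_pow_sub {Y Z : Alg} (hY : Pos Y) (hZ : Pos Z) (h : Pos (Y - Z)) :
    ∀ n : ℕ, Pos (Y ^ n - Z ^ n) ∧ Pos (Z ^ n)
  | 0 => by simpa using ⟨Pos.zero, Pos.one⟩
  | n + 1 => by
      obtain ⟨a, b⟩ := pos_pow_sub hY hZ h n
      rw [pow_succ, pow_succ]
      refine ⟨?_, b.mul hZ⟩
      rw [show Y ^ n * Y - Z ^ n * Z = (Y ^ n - Z ^ n) * Y + Z ^ n * (Y - Z) by noncomm_ring]
      exact (a.mul hY).add (b.mul h)

end Walk

end Vale.Agent.P321
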