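import Vale.Agent.P321.Super.Chain

/-!
P321, all deletion probabilities: the landed chain started at an arbitrary length exponent, and the
lower bound it gives.
-/

namespace Vale.Agent.P321

/-- The length exponent at stage `k`, in units of `20`, started at `b₀`. -/
def bq (b₀ : ℕ) : ℕ → ℕ
  | 0 => b₀
  | k + 1 => 4 * bq b₀ k + hh (bq b₀ k) k + 3

lemma bq_lower {b₀ : ℕ} (h : 200 * 401 ^ 3 ≤ b₀) : ∀ k, 200 * (k + 401) ^ 3 ≤ bq b₀ k
  | 0 => by rw [bq, zero_add]; exact h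
  | k + 1 => by
      have ih := bq_lower h k
      clear h
      have h1 : 2 * (k + 1 + 401) ≤ 3 * (k + 401) := by omega
      have h2 := Nat.pow_le_pow_left h1 3
      rw [mul_pow, mul_pow] at h2
      rw [bq]
      omega

lemma bq_mono (b₀ : ℕ) : Monotone (bq b₀) := monotone_nat_of_le_succ fun k => by rw [bq]; omega

lemma succ_le_bq {b₀ : ℕ} (h : 200 * 401 ^ 3 ≤ b₀) (k : ℕ) : k + 401 ≤ bq b₀ k :=
  (Nat.le_self_pow (by norm_num) _).trans
    ((Nat.le_mul_of_pos_left _ (by norm_num)).trans (bq_lower h k))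

/-- The numerical side of one stage. -/
theorem paramsQ (k b : ℕ) (hlow : 200 * (k + 401) ^ 3 ≤ b) :
    20000 * mm k ≤ b * (k + 400) ∧ 40 * mm (k + 1) ≤ 48 * mm k ∧
      5 * (b * (k + 400)) ≤ mm k * hh b k ∧ 70 * mm k ≤ hh b k ∧
      100 * hh b k ≤ b * (k + 400) ∧
      (hh b k + 3) * (k + 401) + 6 * mm k + 31 ≤ 6 * b ∧ 4 * b + hh b k + 3 ≤ 5 * b := by
  set m := mm k with hm
  have hm1 : 10 * (k + 400) ^ 2 ≤ m := Nat.le_succ _
  have hm0 : 1000 ≤ m := by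
    have := Nat.pow_le_pow_left (show 10 ≤ k + 400 by omega) 2
    omega
  have hm2 : m ≤ 11 * (k + 401) ^ 2 := by
    have h := Nat.pow_le_pow_left (show k + 400 ≤ k + 401 by omega) 2
    have := Nat.one_le_pow 2 (k + 401) (by omega)
    rw [hm, mm]; omega
  have hE : 20000 * m ≤ b * (k + 400) := by
    have h1 : 200 * (k + 401) ^ 3 * 400 ≤ b * (k + 400) := Nat.mul_le_mul hlow (by omega)
    have h2 : 3 * (k + 401) ^ 2 ≤ (k + 401) ^ 3 := by
      rw [pow_succ _ 2, mul_comm 3]; exact Nat.mul_le_mul_left _ (by omega)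
    omega
  set q := b * (k + 400) / m with hq
  have hq1 : q * m ≤ b * (k + 400) := Nat.div_mul_le_self _ _
  have hq2 : b * (k + 400) ≤ m * (q + 1) := (Nat.lt_mul_div_succ _ (by omega)).le
  have hH : hh b k = 5 * (q + 1) + 70 * m := rfl
  have hq3 : q * 1000 ≤ b * (k + 400) := (Nat.mul_le_mul_left q hm0).trans hq1
  have hkey : (hh b k + 3) * (k + 401) + 6 * m + 31 ≤ 6 * b := by
    have h1 : 5 * q * (k + 401) ≤ b := by
      have h3 : q * (10 * (k + 400) ^ 2) ≤ b * (k + 400) := (Nat.mul_le_mul_left q hm1).trans hq1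
      have h4 : q * (10 * (k + 400)) * (k + 400) ≤ b * (k + 400) := by linarith
      have h5 := Nat.le_of_mul_le_mul_right h4 (by omega)
      have h6 : q * (k + 401) ≤ q * (2 * (k + 400)) := Nat.mul_le_mul_left _ (by omega)
      rw [mul_assoc]
      linarith
    have h2 : (70 * m + 8) * (k + 401) + 6 * m + 31 ≤ 5 * b := by
      have a1 := Nat.mul_le_mul_right (k + 401) (show 70 * m + 8 ≤ 778 * (k + 401) ^ 2 by
        have := Nat.one_le_pow 2 (k + 401) (by omega)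
        omega)
      have a2 : (k + 401) ^ 2 * (k + 401) = (k + 401) ^ 3 := by ring
      have a3 : (k + 401) ^ 2 ≤ (k + 401) ^ 3 := Nat.pow_le_pow_right (by omega) (by omega)
      have a4 := Nat.one_le_pow 2 (k + 401) (by omega)
      rw [mul_assoc, a2] at a1
      linarith
    rw [hH]
    calc (5 * (q + 1) + 70 * m + 3) * (k + 401) + 6 * m + 31
        = 5 * q * (k + 401) + ((70 * m + 8) * (k + 401) + 6 * m + 31) := by ring
      _ ≤ b + 5 * b := Nat.add_le_add h1 h2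
      _ = 6 * b := by ring
  refine ⟨hE, ?_, ?_, by rw [hH]; omega, by rw [hH]; omega, hkey, ?_⟩
  · rw [hm, mm, mm]
    ring_nf
    omega
  · rw [hH]
    have h1 := Nat.mul_le_mul_left 5 hq2
    calc 5 * (b * (k + 400)) ≤ 5 * (m * (q + 1)) := h1
      _ = m * (5 * (q + 1)) := by ring
      _ ≤ _ := Nat.mul_le_mul_left _ (Nat.le_add_right _ _)
  · have := Nat.mul_le_mul_left (hh b k + 3) (show 401 ≤ k + 401 by omega)
    omega

/-- Every stage is reached. -/
theorem inv_chainQ {p : ℝ} (h0 : 0 ≤ p) (h1 : p ≤ 1) {b₀ : ℕ} (hb₀ : 200 * 401 ^ 3 ≤ b₀)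
    {x₀ y₀ : List Bool} (hi₀ : Inv p x₀ y₀ (b₀ * 400) (20 * b₀) (mm 0)) :
    ∀ k, ∃ x y, Inv p x y (bq b₀ k * (k + 400)) (20 * bq b₀ k) (mm k)
  | 0 => ⟨x₀, y₀, hi₀⟩
  | k + 1 => by
      obtain ⟨x, y, hi⟩ := inv_chainQ h0 h1 hb₀ hi₀ k
      obtain ⟨hE, hm', hH1, hH2, hH3, hkey, -⟩ := paramsQ k (bq b₀ k) (bq_lower hb₀ k)
      have hm0 : 1000 ≤ mm k := by
        have := Nat.pow_le_pow_left (show 10 ≤ k + 400 by omega) 2
        rw [mm]; omega
      have hbig : 6 * (bq b₀ k * (k + 400)) ≤ 2 ^ (4 * (10 * bq b₀ k)) := by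
        have hb := succ_le_bq hb₀ k
        have h2 : bq b₀ k * (k + 400) ≤ 2 ^ bq b₀ k * 2 ^ bq b₀ k :=
          Nat.mul_le_mul Nat.lt_two_pow_self.le ((show k + 400 ≤ bq b₀ k by omega).trans
            Nat.lt_two_pow_self.le)
        calc 6 * (bq b₀ k * (k + 400)) ≤ 2 ^ 3 * (2 ^ bq b₀ k * 2 ^ bq b₀ k) :=
              Nat.mul_le_mul (by norm_num) h2
          _ ≤ _ := by rw [← pow_add, ← pow_add]; exact Nat.pow_le_pow_right (by norm_num) (by omega)
      obtain ⟨x', y', hi'⟩ := superStage h0 h1 (γ := 10 * bq b₀ k)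
        (by rw [show 2 * (10 * bq b₀ k) = 20 * bq b₀ k by ring]; exact hi) (odd_mm k) hm0 hE
        (by rw [← mul_assoc, Nat.mul_comm (bq b₀ k)]; exact Nat.mul_le_mul_right _ (by omega))
        hbig hm' hH1 hH2 hH3
      refine ⟨x', y', hi'.mono h0 h1 ?_ (by rw [bq]; omega) le_rfl⟩
      have e : bq b₀ (k + 1) * (k + 1 + 400) =
          4 * (bq b₀ k * (k + 400)) + 4 * bq b₀ k + (hh (bq b₀ k) k + 3) * (k + 401) := by rw [bq]; ring
      rw [e]
      exact step_exp hkey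

/-- A pair at the start of the chain gives `n^R` traces from an explicit length on. -/
theorem lower_of_inv_at {q : ℝ} (hq0 : 0 ≤ q) (hq1 : q < 1) {b₀ : ℕ} (hb₀ : 200 * 401 ^ 3 ≤ b₀)
    {x₀ y₀ : List Bool} (hi₀ : Inv (1 - q) x₀ y₀ (b₀ * 400) (20 * b₀) (mm 0)) (R n : ℕ)
    (hn : 2 ^ (20 * bq b₀ (100 * R)) ≤ n) (m : ℕ) (hm : Reconstructs q n m) :
    (n : ℝ) ^ R ≤ m := by
  have hex : ∃ j, n < 2 ^ (20 * bq b₀ j) := ⟨n, Nat.lt_of_lt_of_le n.lt_two_pow_self
    (Nat.pow_le_pow_right two_pos (by have := succ_le_bq hb₀ n; omega))⟩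
  have hj : 100 * R < Nat.find hex := by
    by_contra hc
    have h1 := Nat.find_spec hex
    have h2 := Nat.pow_le_pow_right (show 0 < 2 by norm_num)
      (Nat.mul_le_mul_left 20 (bq_mono b₀ (not_lt.1 hc)))
    omega
  obtain ⟨k, hk⟩ : ∃ k, Nat.find hex = k + 1 := ⟨Nat.find hex - 1, by omega⟩
  have hlow : 2 ^ (20 * bq b₀ k) ≤ n := le_of_not_gt (Nat.find_min hex (by omega))
  have hup : n < 2 ^ (20 * bq b₀ (k + 1)) := hk ▸ Nat.find_spec hex
  obtain ⟨x, y, hi⟩ := inv_chainQ (by linarith) (by linarith) hb₀ hi₀ k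
  set z : List Bool := List.replicate (n - x.length) false with hz
  have hlx := hi.short
  have hlen := hi.len
  have hln : (x ++ z).length = n := by simp [z]; omega
  have hlny : (y ++ z).length = n := by simp [z]; omega
  obtain ⟨u, hu⟩ : ∃ u : Fin n → Bool, List.ofFn u = x ++ z :=
    ⟨fun i => (x ++ z).get (i.cast hln.symm), List.ext_getElem (by simp [hln]) (by simp)⟩
  obtain ⟨v, hv⟩ : ∃ v : Fin n → Bool, List.ofFn v = y ++ z :=
    ⟨fun i => (y ++ z).get (i.cast hlny.symm), List.ext_getElem (by simp [hlny]) (by simp)⟩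
  have huv : u ≠ v := fun e => hi.ne (List.append_cancel_right (by rw [← hu, ← hv, e]))
  set E := bq b₀ k * (k + 400)
  have hnrm : nrm (tr (1 - q) x - tr (1 - q) y) ≤ 2 * ((2 : ℝ) ^ E)⁻¹ := by
    refine hi.dist.nrm_le.trans ?_
    rw [map_add, (isProb_tr (by linarith) (by linarith) x).mass_one,
      (isProb_tr (by linarith) (by linarith) y).mass_one, mul_comm 2]
    exact mul_le_mul_of_nonneg_left (Real.sqrt_le_iff.2 ⟨by norm_num, by norm_num⟩) (by positivity)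
  have h13 := le_mul_of_reconstructs hq0 hq1.le hm _ _ huv (ε := 2 * ((2 : ℝ) ^ E)⁻¹) fun φ h0 h1 => by
    rw [hu, hv, Ex_append, Ex_append]
    refine (Ex_close x y _ (fun w => ?_) fun w => ?_).trans hnrm
    · exact (Ex_mem (by linarith) (by linarith) z (fun u => h0 _) fun u => h1 _).1
    · exact (Ex_mem (by linarith) (by linarith) z (fun u => h0 _) fun u => h1 _).2
  have hbb : bq b₀ (k + 1) ≤ 5 * bq b₀ k :=
    (paramsQ k (bq b₀ k) (bq_lower hb₀ k)).2.2.2.2.2.2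
  have hexp : 20 * bq b₀ (k + 1) * R + 3 ≤ E := by
    have h1 := succ_le_bq hb₀ k
    calc 20 * bq b₀ (k + 1) * R + 3 ≤ 20 * (5 * bq b₀ k) * R + bq b₀ k * 400 :=
          Nat.add_le_add (Nat.mul_le_mul_right _ (Nat.mul_le_mul_left _ hbb)) (by omega)
      _ = bq b₀ k * (100 * R + 400) := by ring
      _ ≤ E := Nat.mul_le_mul_left _ (by omega)
  have hpow : (n : ℝ) ^ R * 2 ^ 3 ≤ 2 ^ E := by
    refine le_trans ?_ (pow_le_pow_right₀ one_le_two hexp)
    rw [pow_add, pow_mul]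
    refine mul_le_mul_of_nonneg_right (pow_le_pow_left₀ (Nat.cast_nonneg n) ?_ R) (pow_nonneg zero_le_two 3)
    exact_mod_cast hup.le
  have hE0 : (0 : ℝ) < 2 ^ E := by positivity
  have h6 : (2 : ℝ) ^ E ≤ 6 * m := by
    rw [← mul_assoc, ← div_eq_mul_inv, div_le_div_iff₀ (by norm_num) hE0] at h13
    linarith
  have : (0 : ℝ) ≤ (n : ℝ) ^ R := pow_nonneg (Nat.cast_nonneg n) R
  norm_num at hpow
  linarith

/-- A pair at the start of the chain gives superpolynomially many traces. -/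
theorem lower_of_inv {q : ℝ} (hq0 : 0 ≤ q) (hq1 : q < 1) {b₀ : ℕ} (hb₀ : 200 * 401 ^ 3 ≤ b₀)
    {x₀ y₀ : List Bool} (hi₀ : Inv (1 - q) x₀ y₀ (b₀ * 400) (20 * b₀) (mm 0)) (R : ℕ) :
    ∃ N : ℕ, ∀ n ≥ N, ∀ m : ℕ, Reconstructs q n m → (n : ℝ) ^ R ≤ m :=
  ⟨2 ^ (20 * bq b₀ (100 * R)), fun n hn m hm => lower_of_inv_at hq0 hq1 hb₀ hi₀ R n hn m hm⟩

end Vale.Agent.P321
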