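import Vale.Agent.P321.AllQ.Defs
import Vale.Agent.P321.Super.Pad
import Vale.Agent.P321.Super.Window

/-!
P321, every deletion probability: the statements of the modules.

`ChaosMixStmt` (A) gives `DriftStmt` (B); `DriftStmt` gives `StageStmt` (C); `BaseStmt` (D) and
`StageStmt` give the superpolynomial bound at every deletion probability (E).
-/

open Finset

namespace Vale.Agent.P321

/-- (A) Moments of a mixture of masks: each shared mark costs a factor `1 + 8 k η²`. -/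
def ChaosMixStmt : Prop :=
  ∀ (U : Alg) (d : List Bool → ℝ) (η : ℝ) (k : ℕ), IsProb U → ev U d = 0 → 0 ≤ η →
    (∀ a, |d a| ≤ η) → 0 < k →
    ∀ (N : ℕ) (ι : Type) (s : Finset ι) (c : ι → ℝ) (T : ι → List Bool) (t : ℝ),
      (∀ i ∈ s, (T i).length = N) →
      tupE U N (fun u => (∑ i ∈ s, c i * dens d (T i) u - t) ^ (2 * k)) ≤
        ((∑ i ∈ s, c i - t) ^ 2 + ∑ i ∈ s, ∑ j ∈ s,
          c i * c j * ((1 + 8 * k * η ^ 2) ^ common (T i) (T j) - 1)) ^ k

/-- (B) The drift: `L` padded windows against the pure power, with no union bound over the marks.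
The first part is the `L²` distance, the second the domination off a set of mass `(16 z)^k`. -/
def DriftStmt : Prop :=
  ∀ (U V : Alg) (η : ℝ) (B P hj k L : ℕ) (l : List Bool), IsProb U → IsProb V → 0 ≤ η →
    Le1 (V - U) (η • U) → nrm (U ^ (B + 1) - U ^ B) ≤ 1 → 0 < k → 0 < hj → l.length ≤ P →
    2 ^ 12 * hj * (B + 1) ≤ P → L * hj ^ 2 ≤ P ^ 2 → driftZ k l.length L hj η ≤ 1 / 8 →
    (∃ G R : Alg, wd U V (padMask P l) ^ L - U ^ (L * (2 * P + l.length)) = G + R ∧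
      Dev G (U ^ (L * (2 * P + l.length))) (4 * Real.sqrt (driftZ k l.length L hj η)) ∧
      nrm R ≤ driftTail L P hj) ∧
    ∃ R : Alg, Pos R ∧ mass R ≤ (16 * driftZ k l.length L hj η) ^ k + driftTail L P hj ∧
      Pos ((2 : ℝ) • wd U V (padMask P l) ^ L + R - U ^ (L * (2 * P + l.length)))

/-- (C) One stage: `E' = 4E + min(β/2, F - β/2) - O(H + m)`, `F' = 4F - O(m)`,
`β' = 4β + O(H)`. -/
def StageStmt : Prop :=
  ∀ (p : ℝ) (x y : List Bool) (E F β R m H E' : ℕ), 0 ≤ p → p ≤ 1 → Inv2 p x y E F β R →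
    1000 ≤ m → 70 * m ≤ H → 100 * H ≤ β → 8 * E ≤ m * H → F ≤ E → E ≤ 2 ^ β →
    256 * (β + 20 * H + 20 * m) + E + β ≤ 512 * F →
    2 ^ 20 * (E + β + H + R) ≤ 2 ^ H → 2 * E + 2 * F ≤ R →
    2 * (E' + (5 * H + 30 * m + 200)) ≤ 8 * E + β →
    2 * (E' + (5 * H + 30 * m + 200)) + β ≤ 8 * E + 2 * F →
    12 * E' + 2 * F + 16 * β + 100 * H ≤ R →
    ∃ x' y', Inv2 p x' y' E' (4 * F - 6 * m - 40) (4 * β + 21 * H + 100)
      (R - (4 * β + 21 * H + F + 100))

/-- (D) Pairs with `F ≥ 7β/10`, any length scale and any exceptional exponent, at every `p`. -/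
def BaseStmt : Prop :=
  ∀ p : ℝ, 0 < p → p < 1 → ∀ C : ℕ,
    ∃ (x y : List Bool) (F β R : ℕ),
      Inv2 p x y F F β R ∧ C ≤ β ∧ 7 * β ≤ 10 * F ∧ F ≤ β ∧ C * β ≤ R

/-- (E) The climb and the final iteration. -/
def ClimbStmt : Prop :=
  ∀ p : ℝ, 0 < p → p < 1 → ∀ C : ℕ,
    ∃ (x y : List Bool) (E F β R : ℕ),
      Inv2 p x y E F β R ∧ C ≤ β ∧ 21 * β ≤ E ∧ β ≤ 2 * F ∧ 12 * E ≤ R

end Vale.Agent.P321
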