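import Vale.Agent.P321.Super.Bessel
import Vale.Agent.P321.AllQ.Interfaces

/-!
P321, all deletion probabilities: moments of order `2k` of products over many cells.

* `chaos_moment`: the Bonami inequality for a mean-zero bounded function of i.i.d. variables.
* `chaos_masks`: its pushed-forward form in the `ℓ¹` algebra.
* `chaosMix`: the moments of a mixture of masks, in terms of the shared marks.
-/

open Finset

namespace Vale.Agent.P321

/-! ### The two-point inequality -/

lemma choose_two_mul_le (k : ℕ) : ∀ i, (2 * k).choose (2 * i) ≤ k.choose i * (2 * k) ^ i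
  | 0 => by simp
  | i + 1 => by
    have h1 := Nat.choose_succ_right_eq (2 * k) (2 * i)
    have h2 := Nat.choose_succ_right_eq (2 * k) (2 * i + 1)
    have h3 := Nat.choose_succ_right_eq k i
    have ih := choose_two_mul_le k i
    refine Nat.le_of_mul_le_mul_right (c := (2 * i + 1) * (2 * i + 2)) ?_ (by positivity)
    calc (2 * k).choose (2 * (i + 1)) * ((2 * i + 1) * (2 * i + 2))
        = (2 * k).choose (2 * i + 1 + 1) * (2 * i + 1 + 1) * (2 * i + 1) := by
          rw [show 2 * (i + 1) = 2 * i + 1 + 1 by ring]; ring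
      _ = (2 * k).choose (2 * i) * ((2 * k - 2 * i) * (2 * k - (2 * i + 1))) := by
          rw [h2, mul_right_comm, h1]; ring
      _ ≤ k.choose i * (2 * k) ^ i * (2 * (k - i) * (2 * k)) :=
          Nat.mul_le_mul ih (Nat.mul_le_mul (by omega) (by omega))
      _ = k.choose (i + 1) * (2 * k) ^ (i + 1) * (2 * i + 2) := by
          rw [show k.choose i * (2 * k) ^ i * (2 * (k - i) * (2 * k)) =
            (k.choose i * (k - i)) * (2 * (2 * k) ^ (i + 1)) by ring, ← h3]
          ring
      _ ≤ _ := Nat.mul_le_mul_left _ (Nat.le_mul_of_pos_left _ (by omega))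

/-- The even part of a binomial power. -/
lemma even_pow_le (k : ℕ) (a u : ℝ) :
    (a + u) ^ (2 * k) + (a - u) ^ (2 * k) ≤ 2 * (a ^ 2 + 2 * k * u ^ 2) ^ k := by
  have h : (a + u) ^ (2 * k) + (a - u) ^ (2 * k) =
      ∑ j ∈ range (2 * k + 1), (1 + (-1) ^ j) * (u ^ j * a ^ (2 * k - j) * (2 * k).choose j) := by
    rw [add_comm a u, show a - u = -u + a by ring, add_pow, add_pow, ← sum_add_distrib]
    exact sum_congr rfl fun j _ => by rw [neg_pow u j]; ring
  rw [h, ← sum_filter_add_sum_filter_not _ (fun j => Even j),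
    sum_eq_zero (s := (range (2 * k + 1)).filter fun j => ¬ Even j) fun j hj => by
      rw [(Nat.not_even_iff_odd.1 (mem_filter.1 hj).2).neg_one_pow]; ring,
    add_zero, add_comm (a ^ 2), add_pow, mul_sum]
  refine le_trans (le_of_eq ?_) (sum_le_sum (f := fun i => 2 * (u ^ (2 * i) * a ^ (2 * k - 2 * i) *
    (2 * k).choose (2 * i))) fun i _ => ?_)
  · refine sum_nbij' (fun j => j / 2) (fun i => 2 * i) ?_ ?_ ?_ ?_ ?_
    · intro j hj
      simp only [mem_filter, mem_range] at hj ⊢
      omega
    · intro i hi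
      simp only [mem_filter, mem_range] at hi ⊢
      exact ⟨by omega, even_two_mul i⟩
    · intro j hj
      exact Nat.two_mul_div_two_of_even (mem_filter.1 hj).2
    · intro i _
      simp
    · intro j hj
      have he := (mem_filter.1 hj).2
      rw [he.neg_one_pow, Nat.two_mul_div_two_of_even he]
      ring
  · have hc : ((2 * k).choose (2 * i) : ℝ) ≤ k.choose i * (2 * k : ℝ) ^ i := by
      exact_mod_cast choose_two_mul_le k i
    rw [← Nat.mul_sub, pow_mul, pow_mul, mul_pow (2 * (k : ℝ))]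
    have h0 : 0 ≤ (u ^ 2) ^ i * (a ^ 2) ^ (k - i) := by positivity
    calc 2 * ((u ^ 2) ^ i * (a ^ 2) ^ (k - i) * ((2 * k).choose (2 * i) : ℝ))
        ≤ 2 * ((u ^ 2) ^ i * (a ^ 2) ^ (k - i) * (k.choose i * (2 * k : ℝ) ^ i)) := by
          linarith [mul_le_mul_of_nonneg_left hc h0]
      _ = _ := by ring

section

variable {ι : Type*} [Fintype ι] {p d : ι → ℝ} {η : ℝ}

/-- One variable, by symmetrisation. -/
lemma one_cell_moment (hp : ∀ i, 0 ≤ p i) (hp1 : ∑ i, p i = 1) (hd : ∑ i, p i * d i = 0)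
    (hη : ∀ i, |d i| ≤ η) (k : ℕ) (a b : ℝ) :
    ∑ i, p i * (a + d i * b) ^ (2 * k) ≤ (a ^ 2 + 8 * k * η ^ 2 * b ^ 2) ^ k := by
  set T : ℝ := (a ^ 2 + 8 * k * η ^ 2 * b ^ 2) ^ k
  set S : ℝ := ∑ i, ∑ j, p i * p j * (a + (d i - d j) * b) ^ (2 * k) with hS
  have h1 : ∑ i, p i * (a + d i * b) ^ (2 * k) ≤ S := by
    refine sum_le_sum fun i _ => ?_
    have h := Real.pow_arith_mean_le_arith_mean_pow_of_even univ p
      (fun j => a + (d i - d j) * b) (fun j _ => hp j) hp1 (even_two_mul k)
    have e : ∑ j, p j * (a + (d i - d j) * b) = a + d i * b := by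
      simp only [mul_add, sum_add_distrib, ← sum_mul, hp1, one_mul, sub_mul, mul_sub,
        sum_sub_distrib, ← mul_assoc, hd, zero_mul, sub_zero]
    rw [e] at h
    calc p i * (a + d i * b) ^ (2 * k) ≤ p i * ∑ j, p j * (a + (d i - d j) * b) ^ (2 * k) :=
          mul_le_mul_of_nonneg_left h (hp i)
      _ = _ := by rw [mul_sum]; exact sum_congr rfl fun j _ => by ring
  have h2 : S = ∑ i, ∑ j, p i * p j * (a - (d i - d j) * b) ^ (2 * k) := by
    rw [hS, sum_comm]
    exact sum_congr rfl fun i _ => sum_congr rfl fun j _ => by ring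
  have h3 : S + S ≤ ∑ i, ∑ j, p i * p j * (2 * T) := by
    nth_rewrite 2 [h2]
    rw [hS, ← sum_add_distrib]
    refine sum_le_sum fun i _ => ?_
    rw [← sum_add_distrib]
    refine sum_le_sum fun j _ => ?_
    rw [← mul_add]
    refine mul_le_mul_of_nonneg_left ((even_pow_le k a ((d i - d j) * b)).trans ?_)
      (mul_nonneg (hp i) (hp j))
    refine mul_le_mul_of_nonneg_left (pow_le_pow_left₀ (by positivity) ?_ k) (by norm_num)
    have hij : (d i - d j) ^ 2 ≤ 4 * η ^ 2 := by
      nlinarith [abs_le.1 (hη i), abs_le.1 (hη j)]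
    have := mul_le_mul_of_nonneg_left hij (show (0 : ℝ) ≤ 2 * k * b ^ 2 by positivity)
    linear_combination this
  have h4 : ∑ i, ∑ j, p i * p j * (2 * T) = 2 * T := by
    simp only [← sum_mul, ← mul_sum, hp1, mul_one, one_mul]
  linarith

/-- Minkowski for a power. -/
lemma pow_minkowski {κ : Type*} (s : Finset κ) (q U V : κ → ℝ) (hq : ∀ x ∈ s, 0 ≤ q x)
    (hU : ∀ x ∈ s, 0 ≤ U x) (hV : ∀ x ∈ s, 0 ≤ V x) {A B : ℝ} (hA : 0 ≤ A) (hB : 0 ≤ B) {k : ℕ}
    (hk : 0 < k) (h1 : ∑ x ∈ s, q x * U x ^ k ≤ A ^ k) (h2 : ∑ x ∈ s, q x * V x ^ k ≤ B ^ k) :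
    ∑ x ∈ s, q x * (U x + V x) ^ k ≤ (A + B) ^ k := by
  have deg : ∀ (U V : κ → ℝ) (B : ℝ), (∀ x ∈ s, 0 ≤ U x) →
      ∑ x ∈ s, q x * U x ^ k ≤ 0 → ∑ x ∈ s, q x * V x ^ k ≤ B →
      ∑ x ∈ s, q x * (U x + V x) ^ k ≤ B := by
    intro U V B hU h1 h2
    have hz : ∀ x ∈ s, q x * U x ^ k = 0 :=
      (sum_eq_zero_iff_of_nonneg fun x hx => mul_nonneg (hq x hx) (pow_nonneg (hU x hx) k)).1
        (le_antisymm h1 (sum_nonneg fun x hx => mul_nonneg (hq x hx) (pow_nonneg (hU x hx) k)))
    refine le_trans (le_of_eq (sum_congr rfl fun x hx => ?_)) h2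
    rcases mul_eq_zero.1 (hz x hx) with h | h
    · simp [h]
    · simp [pow_eq_zero_iff hk.ne' |>.1 h]
  rcases hA.eq_or_lt with hA0 | hA0
  · rw [← hA0, zero_pow hk.ne'] at h1
    rw [← hA0, zero_add]
    exact deg U V _ hU h1 h2
  rcases hB.eq_or_lt with hB0 | hB0
  · rw [← hB0, zero_pow hk.ne'] at h2
    rw [← hB0, add_zero]
    simpa [add_comm] using deg V U _ hV h2 h1
  have hpt : ∀ x ∈ s, q x * (U x + V x) ^ k ≤ q x * U x ^ k * ((A + B) ^ k * (A / (A + B)) / A ^ k)
      + q x * V x ^ k * ((A + B) ^ k * (B / (A + B)) / B ^ k) := by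
    intro x hx
    have h := (convexOn_pow (𝕜 := ℝ) k).2 (Set.mem_Ici.2 (div_nonneg (hU x hx) hA))
      (Set.mem_Ici.2 (div_nonneg (hV x hx) hB)) (show (0 : ℝ) ≤ A / (A + B) by positivity)
      (show (0 : ℝ) ≤ B / (A + B) by positivity) (by field_simp)
    simp only [smul_eq_mul] at h
    have e : A / (A + B) * (U x / A) + B / (A + B) * (V x / B) = (U x + V x) / (A + B) := by
      field_simp
    rw [e, div_pow, div_le_iff₀ (by positivity), div_pow, div_pow] at h
    calc q x * (U x + V x) ^ k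
        ≤ q x * ((A / (A + B) * (U x ^ k / A ^ k) + B / (A + B) * (V x ^ k / B ^ k)) *
            (A + B) ^ k) := mul_le_mul_of_nonneg_left h (hq x hx)
      _ = _ := by ring
  refine (sum_le_sum hpt).trans ?_
  rw [sum_add_distrib, ← sum_mul, ← sum_mul]
  refine (add_le_add (mul_le_mul_of_nonneg_right h1 (by positivity))
    (mul_le_mul_of_nonneg_right h2 (by positivity))).trans (le_of_eq ?_)
  field_simp

/-- The chaos with coefficients `c`. -/
def chaos (d : ι → ℝ) {N : ℕ} (c : (Fin N → Bool) → ℝ) (x : Fin N → ι) : ℝ :=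
  ∑ l, c l * ∏ i, if l i then d (x i) else 1

omit [Fintype ι] in
lemma chaos_cons (d : ι → ℝ) {N : ℕ} (c : (Fin (N + 1) → Bool) → ℝ) (a : ι) (x : Fin N → ι) :
    chaos d c (Fin.cons a x) =
      chaos d (fun l => c (Fin.cons false l)) x + d a * chaos d (fun l => c (Fin.cons true l)) x := by
  rw [chaos, ← (Fin.consEquiv fun _ => Bool).sum_comp, Fintype.sum_prod_type, Fintype.sum_bool,
    chaos, chaos, mul_sum, add_comm]
  simp [Fin.consEquiv, Fin.prod_univ_succ]
  exact sum_congr rfl fun l _ => by ring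

/-- Bonami: moments of order `2k` of the chaos. -/
theorem chaos_moment (hp : ∀ i, 0 ≤ p i) (hp1 : ∑ i, p i = 1) (hd : ∑ i, p i * d i = 0)
    (hη : ∀ i, |d i| ≤ η) {k : ℕ} (hk : 0 < k) :
    ∀ (N : ℕ) (c : (Fin N → Bool) → ℝ),
      ∑ x : Fin N → ι, (∏ i, p (x i)) * chaos d c x ^ (2 * k) ≤
        (∑ l, c l ^ 2 * (8 * k * η ^ 2) ^ (List.ofFn l).count true) ^ k := by
  intro N
  induction N with
  | zero => intro c; simp [chaos, pow_mul]
  | succ N ih =>
    intro c
    set θ : ℝ := 8 * k * η ^ 2 with hθ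
    have hθ0 : 0 ≤ θ := by positivity
    set cf := fun l : Fin N → Bool => c (Fin.cons false l)
    set ct := fun l : Fin N → Bool => c (Fin.cons true l)
    have hW : ∀ x : Fin N → ι, 0 ≤ ∏ i, p (x i) := fun x => prod_nonneg fun i _ => hp _
    rw [← (Fin.consEquiv fun _ => ι).sum_comp, Fintype.sum_prod_type_right]
    refine le_trans (sum_le_sum (g := fun x => (∏ i, p (x i)) *
      (chaos d cf x ^ 2 + θ * chaos d ct x ^ 2) ^ k) fun x _ => ?_) ?_
    · simp only [Fin.consEquiv, Equiv.coe_fn_mk, Fin.prod_univ_succ, Fin.cons_zero, Fin.cons_succ,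
        chaos_cons]
      refine le_trans (le_of_eq ?_) (mul_le_mul_of_nonneg_left
        (one_cell_moment hp hp1 hd hη k (chaos d cf x) (chaos d ct x)) (hW x))
      rw [mul_sum]
      exact sum_congr rfl fun a _ => by ring
    · refine (pow_minkowski univ (fun x : Fin N → ι => ∏ i, p (x i)) (fun x => chaos d cf x ^ 2)
        (fun x => θ * chaos d ct x ^ 2) (fun x _ => hW x) (fun x _ => sq_nonneg _)
        (fun x _ => by positivity)
        (A := ∑ l, cf l ^ 2 * θ ^ (List.ofFn l).count true)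
        (B := θ * ∑ l, ct l ^ 2 * θ ^ (List.ofFn l).count true)
        (sum_nonneg fun l _ => by positivity)
        (mul_nonneg hθ0 (sum_nonneg fun l _ => by positivity)) hk ?_ ?_).trans (le_of_eq ?_)
      · simpa only [← pow_mul] using ih cf
      · calc ∑ x : Fin N → ι, (∏ i, p (x i)) * (θ * chaos d ct x ^ 2) ^ k
            = θ ^ k * ∑ x : Fin N → ι, (∏ i, p (x i)) * chaos d ct x ^ (2 * k) := by
              rw [mul_sum]
              exact sum_congr rfl fun x _ => by rw [mul_pow, pow_mul]; ring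
          _ ≤ θ ^ k * (∑ l, ct l ^ 2 * θ ^ (List.ofFn l).count true) ^ k :=
              mul_le_mul_of_nonneg_left (ih ct) (by positivity)
          _ = _ := (mul_pow _ _ _).symm
      · congr 1
        rw [← (Fin.consEquiv fun _ => Bool).sum_comp, Fintype.sum_prod_type, Fintype.sum_bool,
          mul_sum, add_comm]
        simp [List.ofFn_succ, pow_succ, Fin.consEquiv, cf, ct]
        exact sum_congr rfl fun x _ => by ring

end

/-! ### In the algebra -/

lemma le1_single (w : FreeMonoid Bool) {a b : ℝ} (h : |a| ≤ b) :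
    Le1 (MonoidAlgebra.single w a : Alg) (MonoidAlgebra.single w b) := fun v => by
  classical
  simp only [MonoidAlgebra.coeff_single, Finsupp.single_apply]
  split_ifs
  · exact h
  · simp

/-- The masks as images of the chaos on tuples of cells. -/
lemma masks_eq_sum {ι : Type*} [Fintype ι] (m : ι → FreeMonoid Bool) (p d : ι → ℝ) :
    ∀ (N : ℕ) (c : (Fin N → Bool) → ℝ),
      ∑ l, c l • wd (∑ i, MonoidAlgebra.single (m i) (p i) : Alg)
          (∑ i, MonoidAlgebra.single (m i) (p i * d i) : Alg) (List.ofFn l) =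
        ∑ x : Fin N → ι, MonoidAlgebra.single ((List.ofFn fun i => m (x i)).prod)
          ((∏ i, p (x i)) * chaos d c x) := by
  intro N
  induction N with
  | zero =>
    intro c
    simp [chaos, MonoidAlgebra.one_def]
  | succ N ih =>
    intro c
    have hf := ih fun l => c (Fin.cons false l)
    have ht := ih fun l => c (Fin.cons true l)
    rw [← (Fin.consEquiv fun _ => Bool).sum_comp, Fintype.sum_prod_type, Fintype.sum_bool,
      ← (Fin.consEquiv fun _ => ι).sum_comp, Fintype.sum_prod_type, add_comm]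
    simp only [Fin.consEquiv, Equiv.coe_fn_mk, List.ofFn_succ, Fin.cons_zero, Fin.cons_succ,
      wd_cons, if_true, Bool.false_eq_true, if_false, ← mul_smul_comm, ← Finset.mul_sum]
    rw [hf, ht]
    simp only [Finset.sum_mul, Finset.mul_sum, MonoidAlgebra.single_mul_single, List.prod_cons,
      Fin.prod_univ_succ, Fin.cons_zero, Fin.cons_succ, chaos_cons, ← Finset.sum_add_distrib,
      ← MonoidAlgebra.single_add]
    rw [Finset.sum_comm]
    exact sum_congr rfl fun a _ => sum_congr rfl fun x _ => by congr 1; ring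

/-- Moments of order `2k`, pushed to the algebra. -/
theorem chaos_masks {P D : Alg} {η : ℝ} (hP : IsProb P) (hD : mass D = 0)
    (h : Le1 D (η • P)) (N : ℕ) (c : (Fin N → Bool) → ℝ) {k : ℕ} (hk : 0 < k) {δ : ℝ}
    (hδ : 0 < δ) :
    ∃ R : Alg, Pos R ∧
      mass R ≤ (∑ l, c l ^ 2 * (8 * k * η ^ 2) ^ (List.ofFn l).count true) ^ k /
        δ ^ (2 * k - 1) ∧
      Le1 (∑ l, c l • wd P D (List.ofFn l)) (δ • P ^ N + R) := by
  classical
  set s := P.coeff.support
  have hDle : ∀ w, |D.coeff w| ≤ η * P.coeff w := fun w => by simpa using h w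
  have hsub : D.coeff.support ⊆ s := fun w hw => by
    rw [Finsupp.mem_support_iff] at hw ⊢
    intro h0
    have := hDle w
    rw [h0, mul_zero, abs_nonpos_iff] at this
    exact hw this
  set p : s → ℝ := fun i => P.coeff i with hp
  set d : s → ℝ := fun i => D.coeff i / P.coeff i with hd
  have hp0 : ∀ i : s, p i ≠ 0 := fun i => Finsupp.mem_support_iff.1 i.2
  have hpd : ∀ i : s, p i * d i = D.coeff i := fun i => mul_div_cancel₀ _ (hp0 i)
  have hη' : ∀ i : s, |d i| ≤ η := fun i => by
    have h0 : 0 < p i := lt_of_le_of_ne (hP.pos _) (hp0 i).symm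
    rw [hd, abs_div, abs_of_pos h0, div_le_iff₀ h0]
    exact hDle _
  have hp1 : ∑ i, p i = 1 := by
    rw [← hP.mass_one, mass_eq_sum (f := P) (s := s) subset_rfl, ← s.sum_coe_sort]
  have hd0 : ∑ i, p i * d i = 0 := by
    simp only [hpd]
    rw [← hD, mass_eq_sum hsub, ← s.sum_coe_sort]
  have eP : P = ∑ i : s, MonoidAlgebra.single (i : FreeMonoid Bool) (p i) := by
    rw [s.sum_coe_sort fun i => MonoidAlgebra.single i (P.coeff i)]
    exact (MonoidAlgebra.sum_coeff_single P).symm
  have eD : D = ∑ i : s, MonoidAlgebra.single (i : FreeMonoid Bool) (p i * d i) := by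
    simp only [hpd]
    rw [s.sum_coe_sort fun i => MonoidAlgebra.single i (D.coeff i),
      ← Finsupp.sum_of_support_subset _ hsub _ fun w _ => MonoidAlgebra.single_zero w]
    exact (MonoidAlgebra.sum_coeff_single D).symm
  set mu : (Fin N → s) → FreeMonoid Bool :=
    fun x => (List.ofFn fun i => (x i : FreeMonoid Bool)).prod
  set W : (Fin N → s) → ℝ := fun x => ∏ i, p (x i)
  have hW : ∀ x, 0 ≤ W x := fun x => prod_nonneg fun i _ => hP.pos _
  refine ⟨∑ x, MonoidAlgebra.single (mu x) (W x * (chaos d c x ^ (2 * k) / δ ^ (2 * k - 1))),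
    Pos.sum _ fun x _ => (Le1.of_pos ?_).pos, ?_, ?_⟩
  · intro w
    simp only [MonoidAlgebra.coeff_single, Finsupp.single_apply]
    split_ifs
    · exact mul_nonneg (hW x) (div_nonneg (by rw [pow_mul]; positivity) (by positivity))
    · exact le_rfl
  · rw [map_sum]
    simp only [mass_eq, MonoidAlgebra.coeff_single, Finsupp.sum_single_index, ← mul_div_assoc,
      ← sum_div]
    gcongr
    exact chaos_moment (fun i => hP.pos _) hp1 hd0 hη' hk N c
  · have ef : ∑ l, c l • wd P D (List.ofFn l) =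
        ∑ x, MonoidAlgebra.single (mu x) (W x * chaos d c x) := by
      conv_lhs => rw [eP, eD]
      exact masks_eq_sum _ p d N c
    have eN : P ^ N = ∑ x, MonoidAlgebra.single (mu x) (W x) := by
      have := masks_eq_sum (fun i : s => (i : FreeMonoid Bool)) p d N
        fun l => if l = fun _ => false then 1 else 0
      rw [← eP, ← eD] at this
      simpa [chaos, ite_smul, mu, W, List.ofFn_const] using this
    rw [ef, eN, smul_sum, ← sum_add_distrib]
    refine Le1.sum _ fun x _ => ?_
    rw [MonoidAlgebra.smul_single', ← MonoidAlgebra.single_add]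
    refine le1_single _ ?_
    rw [abs_mul, abs_of_nonneg (hW x), mul_comm δ, ← mul_add]
    refine mul_le_mul_of_nonneg_left ?_ (hW x)
    set g := chaos d c x
    have hg : 0 ≤ g ^ (2 * k) / δ ^ (2 * k - 1) := by rw [pow_mul]; positivity
    rcases le_or_gt |g| δ with hgd | hgd
    · linarith
    · refine le_trans ?_ (le_add_of_nonneg_left hδ.le)
      rw [le_div_iff₀ (by positivity), ← (even_two_mul k).pow_abs,
        show 2 * k = 2 * k - 1 + 1 by omega, pow_succ', Nat.add_sub_cancel]
      exact mul_le_mul_of_nonneg_left (pow_le_pow_left₀ hδ.le hgd.le _) (abs_nonneg _)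


/-! ### Mixtures of masks -/

/-- Expectation over independent cells as a sum over tuples of atoms. -/
lemma tupE_eq_sum (U : Alg) : ∀ (N : ℕ) (F : List (List Bool) → ℝ), tupE U N F =
    ∑ x : Fin N → U.coeff.support, (∏ i, U.coeff (x i)) *
      F (List.ofFn fun i => FreeMonoid.toList (x i : FreeMonoid Bool)) := by
  intro N
  induction N with
  | zero => intro F; simp [tupE]
  | succ N ih =>
    intro F
    simp only [tupE, ev, Finsupp.sum, ih]
    rw [← (Fin.consEquiv fun _ => U.coeff.support).sum_comp, Fintype.sum_prod_type,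
      ← U.coeff.support.sum_coe_sort]
    refine sum_congr rfl fun a _ => ?_
    rw [mul_sum]
    refine sum_congr rfl fun x _ => ?_
    simp only [Fin.consEquiv, Equiv.coe_fn_mk, Fin.prod_univ_succ, List.ofFn_succ, Fin.cons_zero,
      Fin.cons_succ]
    ring

lemma dens_cons (d : List Bool → ℝ) (b : Bool) (T : List Bool) (a : List Bool)
    (u : List (List Bool)) :
    dens d (b :: T) (a :: u) = (if b then 1 + d a else 1) * dens d T u := by
  simp [dens]

lemma common_cons (a b : Bool) (T T' : List Bool) :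
    common (a :: T) (b :: T') = (if a && b then 1 else 0) + common T T' := by
  cases a <;> cases b <;> simp [common, add_comm]

/-- The bound for a mixture. -/
noncomputable def mixVar {ι : Type} (θ : ℝ) (s : Finset ι) (c : ι → ℝ) (T : ι → List Bool)
    (t : ℝ) : ℝ :=
  (∑ i ∈ s, c i - t) ^ 2 + ∑ i ∈ s, ∑ j ∈ s, c i * c j * ((1 + θ) ^ common (T i) (T j) - 1)

lemma mixVar_cons {ι : Type} (θ : ℝ) (s : Finset ι) (c : ι → ℝ) (b : ι → Bool)
    (T : ι → List Bool) (t : ℝ) :
    mixVar θ s c (fun i => b i :: T i) t =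
      mixVar θ s c T t + θ * mixVar θ (s.filter fun i => b i) c T 0 := by
  have hB : mixVar θ (s.filter fun i => b i) c T 0 =
      ∑ i ∈ s, ∑ j ∈ s, if b i && b j then c i * c j * (1 + θ) ^ common (T i) (T j) else 0 := by
    rw [mixVar, sub_zero, sq, sum_mul_sum, ← sum_add_distrib, sum_filter]
    refine sum_congr rfl fun i _ => ?_
    by_cases hi : b i = true
    · simp only [hi, if_true, Bool.true_and]
      rw [← sum_add_distrib, sum_filter]
      exact sum_congr rfl fun j _ => by split_ifs <;> ring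
    · simp [hi]
  rw [hB, mixVar, mixVar, add_assoc, mul_sum, ← sum_add_distrib]
  congr 1
  refine sum_congr rfl fun i _ => ?_
  rw [mul_sum, ← sum_add_distrib]
  refine sum_congr rfl fun j _ => ?_
  rw [common_cons]
  split_ifs <;> simp [pow_add]
  ring

lemma mixVar_moment {U : Alg} {d : List Bool → ℝ} {η : ℝ} {k : ℕ} (hU : IsProb U)
    (hd : ev U d = 0) (hη : ∀ a, |d a| ≤ η) (hk : 0 < k) :
    ∀ (N : ℕ) (ι : Type) (s : Finset ι) (c : ι → ℝ) (T : ι → List Bool) (t : ℝ),
      (∀ i ∈ s, (T i).length = N) →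
      0 ≤ mixVar (8 * k * η ^ 2) s c T t ∧
        ∑ x : Fin N → U.coeff.support, (∏ i, U.coeff (x i)) *
          (∑ i ∈ s, c i * dens d (T i) (List.ofFn fun i => FreeMonoid.toList (x i : FreeMonoid Bool))
            - t) ^ (2 * k) ≤ mixVar (8 * k * η ^ 2) s c T t ^ k := by
  intro N
  induction N with
  | zero =>
    intro ι s c T t hT
    have hnil : ∀ i ∈ s, T i = [] := fun i hi => List.length_eq_zero_iff.1 (hT i hi)
    have hv : mixVar (8 * k * η ^ 2) s c T t = (∑ i ∈ s, c i - t) ^ 2 := by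
      rw [mixVar, add_eq_left]
      exact sum_eq_zero fun i hi => sum_eq_zero fun j hj => by
        simp [hnil i hi, hnil j hj, common]
    refine ⟨hv ▸ sq_nonneg _, le_of_eq ?_⟩
    have h1 : ∑ i ∈ s, c i * dens d (T i) [] = ∑ i ∈ s, c i :=
      sum_congr rfl fun i hi => by simp [hnil i hi, dens]
    rw [hv, ← pow_mul]
    simp [h1]
  | succ N ih =>
    intro ι s c T t hT
    set θ : ℝ := 8 * k * η ^ 2 with hθ
    have hθ0 : 0 ≤ θ := by positivity
    set b : ι → Bool := fun i => (T i).headI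
    set T' : ι → List Bool := fun i => (T i).tail
    have hbT : ∀ i ∈ s, T i = b i :: T' i := fun i hi => by
      have := hT i hi
      rcases h : T i with _ | ⟨a, l⟩
      · simp [h] at this
      · simp [b, T', h]
    have hl : ∀ i ∈ s, (T' i).length = N := fun i hi => by simp [T', hT i hi]
    set sb := s.filter fun i => b i = true
    obtain ⟨hA0, hA⟩ := ih ι s c T' t hl
    obtain ⟨hB0, hB⟩ := ih ι sb c T' 0 fun i hi => hl i (filter_subset _ _ hi)
    have hmix : mixVar θ s c T t = mixVar θ s c T' t + θ * mixVar θ sb c T' 0 := by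
      rw [← mixVar_cons, mixVar, mixVar]
      congr 1
      exact sum_congr rfl fun i hi => sum_congr rfl fun j hj => by rw [← hbT i hi, ← hbT j hj]
    rw [hmix]
    refine ⟨add_nonneg hA0 (mul_nonneg hθ0 hB0), ?_⟩
    set q : U.coeff.support → ℝ := fun i => U.coeff i
    set e : (Fin N → U.coeff.support) → List (List Bool) :=
      fun x => List.ofFn fun i => FreeMonoid.toList (x i : FreeMonoid Bool)
    set fA := fun x : Fin N → U.coeff.support => ∑ i ∈ s, c i * dens d (T' i) (e x) - t
    set fB := fun x : Fin N → U.coeff.support => ∑ i ∈ sb, c i * dens d (T' i) (e x) - 0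
    have hW : ∀ x : Fin N → U.coeff.support, 0 ≤ ∏ i, q (x i) :=
      fun x => prod_nonneg fun i _ => hU.pos _
    have hq1 : ∑ i, q i = 1 := by
      rw [← hU.mass_one, mass_eq_sum (f := U) (s := U.coeff.support) subset_rfl,
        ← U.coeff.support.sum_coe_sort]
    have hqd : ∑ i, q i * d (FreeMonoid.toList (i : FreeMonoid Bool)) = 0 := by
      rw [← hd, ev, Finsupp.sum, ← U.coeff.support.sum_coe_sort]
    rw [← (Fin.consEquiv fun _ => U.coeff.support).sum_comp, Fintype.sum_prod_type_right]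
    refine le_trans (sum_le_sum (g := fun x => (∏ i, q (x i)) *
      (fA x ^ 2 + θ * fB x ^ 2) ^ k) fun x _ => ?_) ?_
    · refine le_trans (le_of_eq ?_) (mul_le_mul_of_nonneg_left
        (one_cell_moment (fun i => hU.pos _) hq1 hqd (fun i => hη _) k (fA x) (fB x)) (hW x))
      rw [mul_sum]
      refine sum_congr rfl fun a _ => ?_
      have hsum : ∑ i ∈ s, c i * dens d (T i) (FreeMonoid.toList (a : FreeMonoid Bool) :: e x) - t =
          fA x + d (FreeMonoid.toList (a : FreeMonoid Bool)) * fB x := by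
        have hexp : ∑ i ∈ s, c i * dens d (T i) (FreeMonoid.toList (a : FreeMonoid Bool) :: e x) =
            ∑ i ∈ s, c i * dens d (T' i) (e x) + d (FreeMonoid.toList (a : FreeMonoid Bool)) *
              ∑ i ∈ sb, c i * dens d (T' i) (e x) := by
          rw [mul_sum, sum_filter, ← sum_add_distrib]
          refine sum_congr rfl fun i hi => ?_
          rw [hbT i hi, dens_cons]
          split_ifs <;> ring
        simp only [fA, fB, hexp, sub_zero]
        ring
      simp only [Fin.consEquiv, Equiv.coe_fn_mk, Fin.prod_univ_succ, List.ofFn_succ, Fin.cons_zero,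
        Fin.cons_succ]
      rw [hsum]
      ring
    · refine (pow_minkowski univ (fun x : Fin N → U.coeff.support => ∏ i, q (x i))
        (fun x => fA x ^ 2) (fun x => θ * fB x ^ 2) (fun x _ => hW x) (fun x _ => sq_nonneg _)
        (fun x _ => by positivity) hA0 (mul_nonneg hθ0 hB0) hk ?_ ?_)
      · simpa only [← pow_mul] using hA
      · calc ∑ x : Fin N → U.coeff.support, (∏ i, q (x i)) * (θ * fB x ^ 2) ^ k
            = θ ^ k * ∑ x : Fin N → U.coeff.support, (∏ i, q (x i)) * fB x ^ (2 * k) := by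
              rw [mul_sum]
              exact sum_congr rfl fun x _ => by rw [mul_pow, pow_mul]; ring
          _ ≤ θ ^ k * mixVar θ sb c T' 0 ^ k := mul_le_mul_of_nonneg_left hB (by positivity)
          _ = _ := (mul_pow _ _ _).symm

/-- Module A. -/
theorem chaosMix : ChaosMixStmt := by
  intro U d η k hU hd _ hη hk N ι s c T t hT
  rw [tupE_eq_sum]
  exact (mixVar_moment hU hd hη hk N ι s c T t hT).2

end Vale.Agent.P321
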