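import Mathlib

/-!
P321, all deletion probabilities: Khasminskii's lemma for the number of visits of a walk.

A walk moves from `s` at time `n` to `f n s ω`, where `ω` has weights `q n`.
* `expo` is the expectation of `∏ (1 + θ a)` over the first `r` positions, `cnt` that of `∑ a`.
* `khasminskii`: if the expected number of visits is at most `M` from every start and `θ M < 1`,
  then the exponential moment is at most `1 / (1 - θ M)`.
* `khasminskii_paths`: the same with explicit sums over paths.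
-/

open Finset

namespace Vale.Agent.P321

variable {S Ω : Type*} [Fintype Ω] (q : ℕ → Ω → ℝ) (f : ℕ → S → Ω → S) (a : ℕ → S → ℝ)

/-- The exponential moment over `r` positions, started at `s` at time `n`. -/
def expo (θ : ℝ) : ℕ → ℕ → S → ℝ
  | 0, _, _ => 1
  | r + 1, n, s => (1 + θ * a n s) * ∑ ω, q n ω * expo θ r (n + 1) (f n s ω)

/-- The expected number of visits over `r` positions, started at `s` at time `n`. -/
def cnt : ℕ → ℕ → S → ℝ
  | 0, _, _ => 0
  | r + 1, n, s => a n s + ∑ ω, q n ω * cnt r (n + 1) (f n s ω)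

variable {q f a}

/-- Khasminskii's lemma. -/
theorem khasminskii {θ M : ℝ} (hq : ∀ n ω, 0 ≤ q n ω) (hq1 : ∀ n, ∑ ω, q n ω ≤ 1)
    (ha : ∀ n s, 0 ≤ a n s) (hθ : 0 ≤ θ) (hM0 : 0 ≤ M) (hθM : θ * M < 1)
    (hM : ∀ r n s, cnt q f a r n s ≤ M) (r n : ℕ) (s : S) :
    expo q f a θ r n s ≤ 1 / (1 - θ * M) := by
  set R : ℝ := 1 / (1 - θ * M) with hR
  have hR0 : 0 < R := one_div_pos.2 (by linarith)
  have hR1 : 1 + θ * M * R = R := by
    have hne : 1 - θ * M ≠ 0 := by linarith
    rw [hR]; field_simp; ring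
  suffices h : ∀ r n s, expo q f a θ r n s ≤ 1 + θ * R * cnt q f a r n s by
    refine (h r n s).trans ?_
    nlinarith [mul_le_mul_of_nonneg_left (hM r n s) (mul_nonneg hθ hR0.le)]
  intro r
  induction r with
  | zero => intro n s; simp [expo, cnt]
  | succ r ih =>
    intro n s
    set C := ∑ ω, q n ω * cnt q f a r (n + 1) (f n s ω)
    have hE : ∑ ω, q n ω * expo q f a θ r (n + 1) (f n s ω) ≤ 1 + θ * R * C := by
      refine (sum_le_sum fun ω _ => mul_le_mul_of_nonneg_left (ih (n + 1) _) (hq n ω)).trans ?_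
      simp only [mul_add, mul_one, sum_add_distrib, C, mul_sum]
      refine add_le_add (hq1 n) (le_of_eq (sum_congr rfl fun ω _ => by ring))
    have hC : C ≤ M :=
      (sum_le_sum fun ω _ => mul_le_mul_of_nonneg_left (hM r (n + 1) _) (hq n ω)).trans
        (by rw [← sum_mul]; exact mul_le_of_le_one_left hM0 (hq1 n))
    have hb : 0 ≤ θ * a n s := mul_nonneg hθ (ha n s)
    simp only [expo, cnt]
    calc (1 + θ * a n s) * ∑ ω, q n ω * expo q f a θ r (n + 1) (f n s ω)
        ≤ (1 + θ * a n s) * (1 + θ * R * C) := mul_le_mul_of_nonneg_left hE (by linarith)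
      _ ≤ 1 + θ * a n s * (1 + θ * R * M) + θ * R * C := by
          nlinarith [mul_le_mul_of_nonneg_left hC (mul_nonneg hb (mul_nonneg hθ hR0.le))]
      _ = _ := by
          rw [mul_right_comm θ R M, hR1]
          ring

/-! ### Explicit paths -/

variable (f) in
/-- The positions of the walk with the given moves, the start included. -/
def walkPos : ∀ r : ℕ, ℕ → S → (Fin r → Ω) → Fin r → S
  | 0 => fun _ _ _ i => i.elim0
  | r + 1 => fun n s ω => Fin.cons s (walkPos r (n + 1) (f n s (ω 0)) (Fin.tail ω))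

lemma expo_eq_sum (θ : ℝ) : ∀ (r n : ℕ) (s : S), expo q f a θ r n s =
    ∑ ω : Fin r → Ω, (∏ i : Fin r, q (n + i) (ω i)) *
      ∏ i : Fin r, (1 + θ * a (n + i) (walkPos f r n s ω i)) := by
  intro r
  induction r with
  | zero => intro n s; simp [expo]
  | succ r ih =>
    intro n s
    rw [expo, ← (Fin.consEquiv fun _ => Ω).sum_comp, Fintype.sum_prod_type, mul_sum]
    refine sum_congr rfl fun v _ => ?_
    rw [ih, mul_sum, mul_sum]
    refine sum_congr rfl fun ω _ => ?_
    simp only [Fin.consEquiv, Equiv.coe_fn_mk, Fin.prod_univ_succ, walkPos, Fin.cons_zero,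
      Fin.cons_succ, Fin.tail_cons, Fin.val_zero, Fin.val_succ, add_zero,
      show ∀ i : Fin r, n + ((i : ℕ) + 1) = n + 1 + i from fun i => by omega]
    ring

lemma cnt_eq_sum (hq1 : ∀ n, ∑ ω, q n ω = 1) : ∀ (r n : ℕ) (s : S), cnt q f a r n s =
    ∑ ω : Fin r → Ω, (∏ i : Fin r, q (n + i) (ω i)) *
      ∑ i : Fin r, a (n + i) (walkPos f r n s ω i) := by
  classical
  intro r
  induction r with
  | zero => intro n s; simp [cnt]
  | succ r ih =>
    intro n s
    have hone : ∑ ω : Fin r → Ω, ∏ i : Fin r, q (n + 1 + i) (ω i) = 1 := by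
      rw [← Fintype.prod_sum fun (i : Fin r) ω => q (n + 1 + i) ω]
      simp [hq1]
    rw [cnt, ← (Fin.consEquiv fun _ => Ω).sum_comp, Fintype.sum_prod_type,
      ← one_mul (a n s), ← hq1 n, sum_mul, ← sum_add_distrib]
    refine sum_congr rfl fun v _ => ?_
    simp only [Fin.consEquiv, Equiv.coe_fn_mk, Fin.prod_univ_succ, Fin.sum_univ_succ, walkPos,
      Fin.cons_zero, Fin.cons_succ, Fin.tail_cons, Fin.val_zero, Fin.val_succ, add_zero,
      show ∀ i : Fin r, n + ((i : ℕ) + 1) = n + 1 + i from fun i => by omega, mul_assoc, ← mul_sum,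
      mul_add, sum_add_distrib, ← sum_mul, hone, one_mul, ← ih]

/-- Khasminskii's lemma over explicit paths. -/
theorem khasminskii_paths {θ M : ℝ} (hq : ∀ n ω, 0 ≤ q n ω) (hq1 : ∀ n, ∑ ω, q n ω = 1)
    (ha : ∀ n s, 0 ≤ a n s) (hθ : 0 ≤ θ) (hM0 : 0 ≤ M) (hθM : θ * M < 1)
    (hM : ∀ (r n : ℕ) (s : S), ∑ ω : Fin r → Ω, (∏ i : Fin r, q (n + i) (ω i)) *
      ∑ i : Fin r, a (n + i) (walkPos f r n s ω i) ≤ M) (r n : ℕ) (s : S) :
    ∑ ω : Fin r → Ω, (∏ i : Fin r, q (n + i) (ω i)) *
      ∏ i : Fin r, (1 + θ * a (n + i) (walkPos f r n s ω i)) ≤ 1 / (1 - θ * M) := by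
  rw [← expo_eq_sum]
  exact khasminskii hq (fun n => (hq1 n).le) ha hθ hM0 hθM
    (fun r n s => (cnt_eq_sum hq1 r n s).le.trans (hM r n s)) r n s

end Vale.Agent.P321
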