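import Vale.Agent.P321.AllQ.Chain
import Vale.Agent.P321.AllQ.Interfaces
import Vale.Agent.P321.Super.Step

/-!
P321, every deletion probability: finitely many stages raise `E/β` from `0.699` to `21`, where the
landed chain takes over. After `j` stages the state is `β = 10^6 b`, `E = (699000 + 20000 j) b`,
`F = (699000 - 2 j) b`.
-/

namespace Vale.Agent.P321

lemma Inv2.mono {p : ℝ} {x y : List Bool} {E E' F F' β β' R R' : ℕ} (h0 : 0 ≤ p) (h1 : p ≤ 1)
    (h : Inv2 p x y E F β R) (hE : E' ≤ E) (hF : F' ≤ F) (hβ : β ≤ β') (hR : R' ≤ R) :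
    Inv2 p x y E' F' β' R' := by
  have hx := isProb_tr h0 h1 x
  have hy := isProb_tr h0 h1 y
  have hpow : (2 : ℕ) ^ β ≤ 2 ^ β' := Nat.pow_le_pow_right (by norm_num) hβ
  exact ⟨h.len, h.ne, h.short.trans hpow, h.dist.mono (inv_le_inv_pow hE),
    h.exc.mono hx.pos hy.pos (inv_le_inv_pow hF) (inv_le_inv_pow hR),
    (overlap_mono hx hpow).trans h.overlap⟩

/-- A linear function is below a power of two. -/
lemma lin_le_two_pow {L t : ℕ} (ht : L + 4 ≤ t) : L * (t + 1) ≤ 2 ^ t := by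
  suffices h : ∀ n : ℕ, 4 ≤ n → n * n ≤ 2 ^ n by
    refine le_trans ?_ (h t (by omega))
    nlinarith
  intro n hn
  induction n, hn using Nat.le_induction with
  | base => norm_num
  | succ n hn ih =>
    rw [pow_succ 2 n]
    nlinarith

/-- The number of windows' levels during the climb. -/
def climbM : ℕ := 1000000000

/-- The shift parameter of a stage with distance exponent `E`. -/
def climbH (E : ℕ) : ℕ := 8 * E / climbM + 70 * climbM + 1

/-- The arithmetic of one stage. -/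
lemma climb_step {b j H t : ℕ} (hj : j < 1016) (hb : 1000000000000 ≤ b)
    (hH : H = climbH ((699000 + 20000 * j) * b)) (ht : t = (21 * H + 100) / 1000000 + 1) :
    8 * ((699000 + 20000 * j) * b) ≤ climbM * H ∧ 70 * climbM ≤ H ∧ b / 1000 ≤ H ∧ H ≤ b ∧
      256 * (1000000 * b + 20 * H + 20 * climbM) + (699000 + 20000 * j) * b + 1000000 * b ≤
        512 * ((699000 - 2 * j) * b) ∧
      4 * (1000000 * b) + 21 * H + 100 ≤ 1000000 * (4 * b + t) ∧
      (699000 - 2 * (j + 1)) * (4 * b + t) ≤ 4 * ((699000 - 2 * j) * b) - 6 * climbM - 40 ∧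
      2 * ((699000 + 20000 * (j + 1)) * (4 * b + t) + (5 * H + 30 * climbM + 200)) + 1000000 * b ≤
        8 * ((699000 + 20000 * j) * b) + 2 * ((699000 - 2 * j) * b) ∧
      4 * b + t ≤ 5 * b := by
  simp only [climbH, climbM] at hH ⊢
  have he : (699000 + 20000 * j) * b ≤ 21000000 * b := Nat.mul_le_mul_right _ (by clear * - hj; omega)
  have he' : 699000 * b ≤ (699000 + 20000 * j) * b := Nat.mul_le_mul_right _ (Nat.le_add_right _ _)
  have hf : 696968 * b ≤ (699000 - 2 * j) * b := Nat.mul_le_mul_right _ (by clear * - hj; omega)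
  refine ⟨by omega, by omega, by omega, by omega, by omega, by omega, ?_, ?_, by omega⟩
  · obtain ⟨i, hi⟩ : ∃ i, 699000 - 2 * j = i + 2 := ⟨699000 - 2 * (j + 1), by omega⟩
    have h2 : i * t ≤ 699000 * t := Nat.mul_le_mul_right _ (by clear * - hj hi; omega)
    rw [show 699000 - 2 * (j + 1) = i by omega, hi, mul_add, add_mul, ← mul_assoc i 4 b,
      mul_comm i 4, mul_assoc 4 i b]
    omega
  · have h1 : (699000 + 20000 * (j + 1)) * (4 * b + t) = 4 * ((699000 + 20000 * j) * b) +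
        80000 * b + (699000 + 20000 * (j + 1)) * t := by ring
    have h2 : (699000 + 20000 * (j + 1)) * t ≤ 22000000 * t := Nat.mul_le_mul_right _ (by clear * - hj; omega)
    omega

/-- A bound on the growth of the length over all stages. -/
lemma five_pow_bound : ∃ P : ℕ, ∀ j ≤ 1016, 5 ^ j ≤ P :=
  ⟨5 ^ 1016, fun _ hj => Nat.pow_le_pow_right (by omega) hj⟩

/-- The exceptional exponent suffices for a stage. -/
lemma climb_room {b H e e' f r A M : ℕ} (hb : 1 ≤ b) (hH : H ≤ b) (he : e ≤ 21000000 * b)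
    (he' : e' ≤ 22000000 * (5 * b)) (hf : f ≤ 699000 * b) (hA : 1000000000 * b ≤ A)
    (hr : 4 * A ≤ r) (h : 2 * (e' + M) + 1000000 * b ≤ 8 * e + 2 * f) :
    2 * e + 2 * f ≤ r ∧ 2 * (e' + M) ≤ 8 * e + 1000000 * b ∧
      12 * e' + 2 * f + 16 * (1000000 * b) + 100 * H ≤ r ∧
      4 * (1000000 * b) + 21 * H + f + 100 ≤ A := by
  refine ⟨by linarith, by linarith, by linarith, by linarith⟩

/-- The climb: `E / β` reaches `21`. -/
theorem climb (hS : StageStmt) (hB : BaseStmt) : ClimbStmt := by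
  intro p hp0 hp1 C
  obtain ⟨P, hP⟩ := five_pow_bound
  have hP1 : 1 ≤ P := le_trans (by norm_num) (hP 0 (Nat.zero_le _))
  obtain ⟨L, hL⟩ : ∃ L, L = 2 ^ 20 * (1000000000000000 * P) * 1021 * 1000 := ⟨_, rfl⟩
  obtain ⟨K, hK⟩ : ∃ K, K = 1000000000000 + 1000 * (L + 6) := ⟨_, rfl⟩
  obtain ⟨x₀, y₀, F₀, β₀, R₀, hi₀, hC, hF0, hF1, hR0⟩ :=
    hB p hp0 hp1 (1000000000000000 * P + C + 1000000 * K)
  have hK1 : 1000000000000 ≤ K := hK ▸ Nat.le_add_right _ _
  obtain ⟨b₀, hb₀⟩ : ∃ b, b = β₀ / 1000000 + 1 := ⟨_, rfl⟩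
  have hKb : K ≤ b₀ := by clear * - hC hb₀; omega
  have hb12 : 1000000000000 ≤ b₀ := hK1.trans hKb
  have hC0 : C ≤ 1000000 * b₀ := by clear * - hC hb₀; omega
  have h2b : 2 * b₀ ≤ β₀ := by clear * - hb₀ hb12; omega
  have hR0' : 1020 * (1000000000000 * P * b₀) ≤ R₀ := by
    calc 1020 * (1000000000000 * P * b₀) = 510000000000000 * P * (2 * b₀) := by ring
      _ ≤ (1000000000000000 * P + C + 1000000 * K) * β₀ :=
        Nat.mul_le_mul ((Nat.mul_le_mul_right P (by norm_num)).trans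
          ((Nat.le_add_right _ _).trans (Nat.le_add_right _ _))) h2b
      _ ≤ R₀ := hR0
  obtain ⟨A, hA⟩ : ∃ A, A = 1000000000000 * P * b₀ := ⟨_, rfl⟩
  rw [← hA] at hR0'
  -- the induction
  suffices h : ∀ j ≤ 1016, ∃ x y b, b₀ ≤ b ∧ b ≤ 5 ^ j * b₀ ∧
      Inv2 p x y ((699000 + 20000 * j) * b) ((699000 - 2 * j) * b) (1000000 * b)
        ((1020 - j) * A) by
    obtain ⟨x, y, b, hbl, hbu, hi⟩ := h 1016 le_rfl
    refine ⟨x, y, _, _, _, _, hi, hC0.trans (Nat.mul_le_mul_left _ hbl), ?_, ?_, ?_⟩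
    · clear * - b; omega
    · clear * - b; omega
    · have h1 : b ≤ P * b₀ := hbu.trans (Nat.mul_le_mul_right _ (hP 1016 le_rfl))
      rw [hA, mul_assoc 1000000000000 P b₀]
      clear * - h1; omega
  intro j
  induction j with
  | zero =>
    intro _
    refine ⟨x₀, y₀, b₀, le_rfl, by simp, hi₀.mono hp0.le hp1.le ?_ ?_ ?_ ?_⟩
    · clear * - hb₀ hb12 hF0; omega
    · clear * - hb₀ hb12 hF0; omega
    · clear * - hb₀; omega
    · exact hR0'
  | succ j ih =>
    intro hj
    obtain ⟨x, y, b, hbl, hbu, hi⟩ := ih (Nat.le_of_succ_le hj)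
    obtain ⟨H, hH⟩ : ∃ H, H = climbH ((699000 + 20000 * j) * b) := ⟨_, rfl⟩
    obtain ⟨t, ht⟩ : ∃ t, t = (21 * H + 100) / 1000000 + 1 := ⟨_, rfl⟩
    have hb : 1000000000000 ≤ b := hb12.trans hbl
    obtain ⟨s1, s2, s3, s4, s5, s6, s7, s8, s9⟩ := climb_step hj hb hH ht
    have hbA : 1000000000000 * b ≤ A := by
      rw [hA, mul_assoc 1000000000000 P b₀]
      exact Nat.mul_le_mul_left _ (hbu.trans (Nat.mul_le_mul_right _ (hP j (Nat.le_of_succ_le hj))))
    have hbA' : 1000000000 * b ≤ A :=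
      (Nat.mul_le_mul_right b (by norm_num)).trans hbA
    have hb1 : 1 ≤ b := le_trans (by norm_num) hb
    have hRA : (1020 - j) * A ≤ 1020 * A := Nat.mul_le_mul_right _ (Nat.sub_le _ _)
    have hRA' : 4 * A ≤ (1020 - j) * A := Nat.mul_le_mul_right _ (by clear * - hj; omega)
    have he : (699000 + 20000 * j) * b ≤ 21000000 * b :=
      Nat.mul_le_mul_right _ (by clear * - hj; omega)
    have hf : (699000 - 2 * j) * b ≤ (699000 + 20000 * j) * b :=
      Nat.mul_le_mul_right _ (by clear * - hj; omega)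
    have hf' : (699000 - 2 * j) * b ≤ 699000 * b := Nat.mul_le_mul_right _ (Nat.sub_le _ _)
    have he2 : (699000 + 20000 * (j + 1)) * (4 * b + t) ≤ 22000000 * (5 * b) :=
      Nat.mul_le_mul (by clear * - hj; omega) s9
    have hpow : (699000 + 20000 * j) * b ≤ 2 ^ (1000000 * b) := by
      refine le_trans (he.trans ?_) (lin_le_two_pow (L := 22000000) (t := 1000000 * b)
        (by clear * - hb; omega))
      clear * - hb; omega
    have hbL : L + 4 ≤ b / 1000 := by
      have : K ≤ b := hKb.trans hbl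
      clear * - this hK; omega
    have hexp : 2 ^ 20 * ((699000 + 20000 * j) * b + 1000000 * b + H + (1020 - j) * A) ≤ 2 ^ H := by
      refine le_trans ?_ (Nat.pow_le_pow_right two_pos s3)
      refine le_trans ?_ (lin_le_two_pow hbL)
      have h1 : A ≤ 1000000000000000 * P * b := by
        rw [hA]
        exact Nat.mul_le_mul (Nat.mul_le_mul_right _ (by norm_num)) hbl
      have h2 : 22000001 * b ≤ 1000000000000000 * P * b :=
        Nat.mul_le_mul_right _ (le_trans (by norm_num) (Nat.le_mul_of_pos_right _ hP1))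
      calc 2 ^ 20 * ((699000 + 20000 * j) * b + 1000000 * b + H + (1020 - j) * A)
          ≤ 2 ^ 20 * (1021 * (1000000000000000 * P * b)) := by
            refine Nat.mul_le_mul_left _ ?_
            generalize 1000000000000000 * P * b = Z at h1 h2 ⊢
            generalize (1020 - j) * A = Q at hRA ⊢
            clear * - he s4 h1 h2 hRA; omega
        _ = 2 ^ 20 * (1000000000000000 * P) * 1021 * b := by ring
        _ ≤ L * (b / 1000 + 1) := by
            rw [hL, mul_assoc _ 1000 (b / 1000 + 1)]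
            exact Nat.mul_le_mul_left _ (by clear * - b; omega)
    have c1 : 100 * H ≤ 1000000 * b := by clear * - s4; omega
    obtain ⟨c2, c3, c4, c5⟩ := climb_room hb1 s4 he he2 hf' hbA' hRA' s8
    obtain ⟨x', y', hi'⟩ := hS p x y ((699000 + 20000 * j) * b) ((699000 - 2 * j) * b)
      (1000000 * b) ((1020 - j) * A) climbM H
      ((699000 + 20000 * (j + 1)) * (4 * b + t)) hp0.le hp1.le hi (by norm_num [climbM]) s2 c1 s1
      hf hpow s5 hexp c2 c3 s8 c4
    refine ⟨x', y', 4 * b + t, hbl.trans (by clear * - b; omega), ?_,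
      hi'.mono hp0.le hp1.le le_rfl s7 s6 ?_⟩
    · calc 4 * b + t ≤ 5 * b := s9
        _ ≤ 5 * (5 ^ j * b₀) := Nat.mul_le_mul_left _ hbu
        _ = _ := by ring
    · have h3 : (1020 - (j + 1)) * A + A = (1020 - j) * A := by
        rw [show 1020 - j = 1020 - (j + 1) + 1 by clear * - hj; omega, add_mul, one_mul]
      clear * - h3 c5
      omega

/-- Superpolynomial sample complexity at every deletion probability in `(0, 1)`. -/
theorem superpoly_of_climb (hC : ClimbStmt) : ∀ q : ℝ, 0 < q → q < 1 → ∀ R : ℕ,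
    ∃ N : ℕ, ∀ n ≥ N, (n : ℝ) ^ R ≤ sampleComplexity q n := by
  intro q hq0 hq1 R
  obtain ⟨x, y, E, F, β, S, hi, hβ, hE, hF, hS⟩ :=
    hC (1 - q) (by linarith) (by linarith) (21 * (200 * 401 ^ 3) + 200000000)
  obtain ⟨b₀, hb₀⟩ : ∃ b, b = β / 20 + 1 := ⟨_, rfl⟩
  have hβ1 : 200000000 ≤ β := le_trans (Nat.le_add_left _ _) hβ
  have hm : 40 * mm 0 ≤ F := by clear * - hβ1 hF; simp only [mm]; omega
  obtain ⟨a1, a2, a3, a4, a5, a6⟩ :=
    hi.mono (by linarith) (by linarith) (E' := b₀ * 400) (F' := 40 * mm 0) (β' := 20 * b₀)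
      (R' := 12 * (b₀ * 400)) (by clear * - hE hβ1 hb₀; omega) hm (by clear * - hb₀; omega)
      (by clear * - hE hS hβ1 hb₀; omega)
  obtain ⟨N, hN⟩ := lower_of_inv hq0.le hq1 (by omega : 200 * 401 ^ 3 ≤ b₀)
    ⟨a1, a2, a3, a4, a5, a6⟩ R
  exact ⟨N, fun n hn => hN n hn _ (Nat.sInf_mem (reconstructs_exists hq0.le hq1 n))⟩

/-- The modules together: the stage and the base give the bound at every deletion probability. -/
theorem superpoly_all (hS : StageStmt) (hB : BaseStmt) : ∀ q : ℝ, 0 < q → q < 1 → ∀ R : ℕ,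
    ∃ N : ℕ, ∀ n ≥ N, (n : ℝ) ^ R ≤ sampleComplexity q n :=
  superpoly_of_climb (climb hS hB)

end Vale.Agent.P321
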