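import Vale.Agent.P321.AllQ.DriftSplit

/-!
P321, every deletion probability: the drift bound, from the shared-marks bound.
-/

namespace Vale.Agent.P321

/-- Sizes of the nest for `L` windows with pads of `Pd` cells. -/
def driftShape (B Pd hj L : ℕ) (l : List Bool) : Shape where
  J := 64 * (B + 1) - 1
  S := Pd / 4
  a := Pd - hj * (64 * (B + 1) + 1) - Pd / 4
  b := Pd - Pd / 4
  l := l
  centre := L % 2 == 1

lemma wd_unitMask (U V : Alg) (S a b : ℕ) (l : List Bool) (σ : ℕ) :
    wd U V (unitMask S a b l σ) = U ^ (a + σ) * wd U V l * U ^ (b + (2 * S - σ)) := by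
  simp [unitMask, wd_append, mul_assoc]

/-- The nest is the power of the padded window. -/
lemma mask_nest (U V : Alg) {B Pd hj : ℕ} (L : ℕ) (l : List Bool)
    (hsz : hj * (64 * (B + 1) + 1) + Pd / 4 ≤ Pd) :
    let P := driftShape B Pd hj L l
    wd U V (P.mask (nestList hj (L / 2)) P.S) = wd U V (padMask Pd l) ^ L := by
  intro P
  set X := wd U V (padMask Pd l) with hX
  have hC : wd U V (P.uC P.S) = X ^ (L % 2) := by
    rcases Nat.mod_two_eq_zero_or_one L with h | h
    · simp [Shape.uC, P, driftShape, h]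
    · rw [h, pow_one, hX, wd_padMask]
      simp only [Shape.uC, P, driftShape, h, beq_self_eq_true, if_true, wd_unitMask]
      congr 2
      · congr 1; omega
      · omega
  have key : ∀ n, wd U V (P.mask (nestList hj n) P.S) = X ^ n * X ^ (L % 2) * X ^ n := by
    intro n
    induction n with
    | zero => simp [nestList, Shape.mask, hC]
    | succ n ih =>
      rw [nestList, mask_gap, Shape.mask, wd_append, wd_append, wd_append, wd_append, ih,
        wd_replicate, Shape.uL, Shape.uR, wd_unitMask, wd_unitMask]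
      have hJ : P.J + 2 = 64 * (B + 1) + 1 := by simp [P, driftShape]; omega
      rw [hJ]
      set G := hj * (64 * (B + 1) + 1)
      have e1 : G + (P.a + P.S) = Pd := by simp [P, driftShape, G]; omega
      have e2 : P.b + (2 * P.S - P.S) = Pd := by simp [P, driftShape]; omega
      have e3 : P.b + P.S = Pd := by simp [P, driftShape]; omega
      have e4 : P.a + (2 * P.S - P.S) + G = Pd := by omega
      have hl : P.l = l := rfl
      have hXl : X = U ^ G * (U ^ (P.a + P.S) * wd U V P.l * U ^ (P.b + (2 * P.S - P.S))) := by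
        rw [hX, wd_padMask, hl, e2, ← mul_assoc, ← mul_assoc, ← pow_add, e1]
      have hXr : X = U ^ (P.b + P.S) * wd U V P.l * U ^ (P.a + (2 * P.S - P.S)) * U ^ G := by
        rw [hX, wd_padMask, hl, e3, mul_assoc _ (U ^ (P.a + _)), ← pow_add, e4]
      calc _ = (U ^ G * (U ^ (P.a + P.S) * wd U V P.l * U ^ (P.b + (2 * P.S - P.S)))) *
            (X ^ n * X ^ (L % 2) * X ^ n) *
            (U ^ (P.b + P.S) * wd U V P.l * U ^ (P.a + (2 * P.S - P.S)) * U ^ G) := by
            simp only [mul_assoc]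
        _ = X * (X ^ n * X ^ (L % 2) * X ^ n) * X := by rw [← hXl, ← hXr]
        _ = _ := by rw [pow_succ' X n]; nth_rewrite 2 [← pow_succ' X n]
                    rw [pow_succ X n]; simp only [mul_assoc]
  rw [key, ← pow_add, ← pow_add]
  congr 1
  omega

lemma length_nest {B Pd hj : ℕ} (L : ℕ) (l : List Bool)
    (hsz : hj * (64 * (B + 1) + 1) + Pd / 4 ≤ Pd) :
    let P := driftShape B Pd hj L l
    (P.mask (nestList hj (L / 2)) P.S).length = L * (2 * Pd + l.length) := by
  intro P
  have hC : (P.uC P.S).length = (L % 2) * (2 * Pd + l.length) := by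
    rw [length_uC (by omega), Shape.cLen]
    rcases Nat.mod_two_eq_zero_or_one L with h | h
    · simp [P, driftShape, h]
    · simp [P, driftShape, h]; omega
  have key : ∀ n, (P.mask (nestList hj n) P.S).length =
      (2 * n + L % 2) * (2 * Pd + l.length) := by
    intro n
    induction n with
    | zero => simp [nestList, Shape.mask, hC]
    | succ n ih =>
      rw [nestList, mask_gap, Shape.mask, List.length_append, List.length_append,
        List.length_append, List.length_append, ih, List.length_replicate,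
        length_uL (by omega), length_uR (by omega)]
      have hu : hj * (P.J + 2) + P.uLen = 2 * Pd + l.length := by
        have hJ : P.J + 2 = 64 * (B + 1) + 1 := by simp [P, driftShape]; omega
        rw [hJ]
        simp only [Shape.uLen, P, driftShape]; omega
      linarith
  rw [key, Nat.div_add_mod]

lemma Dev.zero_le {ρ : Alg} {a : ℝ} (ha : 0 ≤ a) : Dev 0 ρ a := Dev.zero.mono ha

/-- **The drift.** -/
theorem driftStmt_of_overlap (ho : OverlapStmt) : DriftStmt := by
  intro U V η B Pd hj k L l hU hV hη hle hB hk hhj hlP hP hLP hz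
  set z := driftZ k l.length L hj η with hzd
  have hz0 : 0 ≤ z := by rw [hzd, driftZ]; positivity
  have htau : 0 ≤ driftTail L Pd hj := by rw [driftTail]; positivity
  rcases Nat.eq_zero_or_pos l.length with hl0 | hl0
  · have hW : wd U V (padMask Pd l) ^ L = U ^ (L * (2 * Pd + l.length)) := by
      rw [List.length_eq_zero_iff.1 hl0, wd_padMask, wd_nil, mul_one, ← pow_add, ← pow_mul,
        List.length_nil]
      congr 1; ring
    refine ⟨⟨0, 0, by rw [hW, sub_self, add_zero], Dev.zero_le (by positivity),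
      by rw [nrm_zero]; exact htau⟩, 0, Pos.zero, ?_, ?_⟩
    · rw [map_zero]; positivity
    · rw [add_zero, hW, two_smul, add_sub_cancel_right]; exact (hU.pow _).pos
  have hη1 : η ≤ 1 := by
    have hw : (1 : ℝ) ≤ (l.length : ℝ) ^ 2 := one_le_pow₀ (by exact_mod_cast hl0)
    have hk1 : (1 : ℝ) ≤ k := by exact_mod_cast hk
    have hq : (1 : ℝ) ≤ (l.length : ℝ) ^ 2 * (Real.sqrt L / Real.sqrt hj + 1) :=
      one_le_mul_of_one_le_of_one_le hw (le_add_of_nonneg_left (by positivity))
    have h1 : η ^ 2 ≤ z := by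
      rw [hzd, driftZ]
      calc η ^ 2 = η ^ 2 * 1 := (mul_one _).symm
        _ ≤ η ^ 2 * ((2 ^ 14 * (k : ℝ)) *
              ((l.length : ℝ) ^ 2 * (Real.sqrt L / Real.sqrt hj + 1))) :=
            mul_le_mul_of_nonneg_left (one_le_mul_of_one_le_of_one_le (by linarith) hq) (sq_nonneg η)
        _ = _ := by ring
    nlinarith
  have hP' : 4096 * hj * (B + 1) ≤ Pd := le_trans (le_of_eq (by norm_num)) hP
  have hB1 : 4096 ≤ Pd := le_trans (by
    have h1 : 1 ≤ hj * (B + 1) := Nat.one_le_iff_ne_zero.2 (by positivity)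
    rw [mul_assoc]; omega) hP'
  have hG : hj * (64 * (B + 1) + 1) * 63 ≤ Pd := by
    refine le_trans ?_ hP'
    calc hj * (64 * (B + 1) + 1) * 63 ≤ hj * (65 * (B + 1)) * 63 :=
          Nat.mul_le_mul_right _ (Nat.mul_le_mul_left _ (by omega))
      _ ≤ _ := by nlinarith
  have hsz : hj * (64 * (B + 1) + 1) + Pd / 4 ≤ Pd := by omega
  have hjP : hj ≤ Pd := le_trans (by nlinarith) hP'
  have hP8 : Pd ≤ 8 * (Pd / 4) := by omega
  clear hP hP' hB1 hG
  set P := driftShape B Pd hj L l
  set n := L / 2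
  have hn : n ≤ L := Nat.div_le_self _ _
  set E := Real.exp (-(hj : ℝ) / 2 ^ 12) with hE
  have hzn : 2 ^ 14 * k * η ^ 2 * (P.l.length : ℝ) ^ 2 *
      (Real.sqrt n / Real.sqrt hj + 1) ≤ z := by
    rw [hzd, driftZ, show P.l = l from rfl]
    have hs : Real.sqrt n ≤ Real.sqrt L := Real.sqrt_le_sqrt (by exact_mod_cast hn)
    gcongr
  have hε : n * Real.exp (-(hj : ℝ) / 16) ≤ L * E := by
    refine mul_le_mul (by exact_mod_cast hn) (Real.exp_le_exp.2 ?_) (Real.exp_pos _).le (by positivity)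
    rw [neg_div, neg_div, neg_le_neg_iff]
    exact div_le_div_of_nonneg_left (Nat.cast_nonneg _) (by norm_num) (by norm_num)
  have hδ : 1 - listE (pE U P.J) (nSlot (nestList hj n)) (P.stay U (nestList hj n) P.S) ≤
      2 * E := by
    set N' : ℝ := ((n * hj + hj : ℕ) : ℝ) with hN'
    have hN0 : 0 < N' := by
      rw [hN']; exact_mod_cast Nat.lt_of_lt_of_le hhj (Nat.le_add_left _ _)
    set S : ℝ := ((Pd / 4 : ℕ) : ℝ) with hS
    have hS8 : (Pd : ℝ) ≤ 8 * S := by
      rw [hS]; exact_mod_cast hP8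
    set μ := S / N'
    have hμ : 0 ≤ μ := by positivity
    refine (stay_ge hU hμ (nestList hj n) P.S (by omega)).trans ?_
    rw [nSlot_nest, show (P.S : ℝ) = S from rfl, sub_self, mul_zero, Real.cosh_zero, one_div_mul_eq_div,
      div_le_iff₀ (Real.cosh_pos _)]
    have h1 : Real.cosh μ ^ (n * hj) ≤ Real.exp (N' * (μ ^ 2 / 2)) := by
      refine (pow_le_pow_left₀ (Real.cosh_pos _).le (Real.cosh_le_exp_half_sq μ) _).trans ?_
      rw [← Real.exp_nat_mul]
      refine Real.exp_le_exp.2 (mul_le_mul_of_nonneg_right ?_ (by positivity))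
      rw [hN']; exact_mod_cast Nat.le_add_right _ _
    have h2 : Real.exp (μ * S) / 2 ≤ Real.cosh (μ * S) := by
      rw [Real.cosh_eq]; linarith [Real.exp_pos (-(μ * S))]
    have h3 : N' * (μ ^ 2 / 2) ≤ μ * S + -(hj : ℝ) / 2 ^ 12 := by
      have h4 : N' * hj ≤ 2 * (Pd : ℝ) ^ 2 := by
        have hq : hj * hj ≤ Pd ^ 2 := by
          rw [sq]
          exact Nat.mul_le_mul hjP hjP
        have : (n * hj + hj) * hj ≤ 2 * Pd ^ 2 := by
          have := Nat.mul_le_mul_right (hj ^ 2) hn
          nlinarith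
        rw [hN']; exact_mod_cast this
      have h5 : (Pd : ℝ) ^ 2 ≤ 64 * S ^ 2 := by
        nlinarith [Nat.cast_nonneg (α := ℝ) Pd]
      rw [show μ * S + -(hj : ℝ) / 2 ^ 12 = S ^ 2 / N' - hj / 2 ^ 12 by simp only [μ]; ring,
        show N' * (μ ^ 2 / 2) = S ^ 2 / N' / 2 by simp only [μ]; field_simp]
      have : (hj : ℝ) / 2 ^ 12 ≤ S ^ 2 / N' / 2 := by
        rw [div_div, div_le_div_iff₀ (by norm_num) (by positivity)]
        nlinarith
      linarith
    calc _ ≤ Real.exp (N' * (μ ^ 2 / 2)) := h1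
      _ ≤ Real.exp (μ * S) * E := by rw [hE, ← Real.exp_add]; exact Real.exp_le_exp.2 h3
      _ ≤ 2 * E * Real.cosh (μ * S) := by nlinarith [Real.exp_pos (-(hj : ℝ) / 2 ^ 12)]
  have hlam : 9 / 20 ≤ lam U P.J := lam_ge hU hB (by simp [P, driftShape]; omega)
  obtain ⟨⟨G, R, hGR, hdev, hR⟩, R', hR'pos, hR'm, hdom⟩ :=
    nest_drift ho hU hV hη hη1 hle hlam hhj hk hzn hz hε hδ
  rw [mask_nest U V L l hsz, length_nest L l hsz] at hGR hdom
  rw [length_nest L l hsz] at hdev
  set x : ℝ := (L : ℝ) + Pd + 2 with hx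
  have hx4 : 8 * x ≤ x ^ 4 := by
    have : (2 : ℝ) ≤ x := by rw [hx]; linarith [Nat.cast_nonneg (α := ℝ) L, Nat.cast_nonneg (α := ℝ) Pd]
    nlinarith [pow_le_pow_left₀ (by norm_num) this 3]
  have hEt : ∀ c : ℝ, c ≤ 8 * x → c * E ≤ driftTail L Pd hj := fun c hc => by
    rw [driftTail]; exact mul_le_mul_of_nonneg_right (hc.trans hx4) (Real.exp_pos _).le
  refine ⟨⟨G, R, hGR, hdev, hR.trans ?_⟩, R', hR'pos, hR'm.trans ?_, hdom⟩
  · refine le_trans (le_of_eq ?_) (hEt (2 * L + 4) ?_)
    · ring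
    · rw [hx]; linarith [Nat.cast_nonneg (α := ℝ) L, Nat.cast_nonneg (α := ℝ) Pd]
  · refine add_le_add le_rfl (le_trans (le_of_eq ?_) (hEt ((L : ℝ) + 8) ?_))
    · ring
    · rw [hx]; linarith [Nat.cast_nonneg (α := ℝ) L, Nat.cast_nonneg (α := ℝ) Pd]

end Vale.Agent.P321
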