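import Vale.Agent.P321.AllQ.OverlapDef

/-!
P321, every deletion probability: the pieces of the drift bound.

The pure power through slots and window cells, the gaps with too few moves, and the moments of the
mixture of masks.
-/

open Finset

namespace Vale.Agent.P321

variable {P : Shape} {U V : Alg} {η : ℝ}

/-- Slots and window cells of law `U` make a pure power. -/
lemma nestE_plain (hU : IsProb U) : ∀ (t : List Bool) (σ : ℕ), σ ≤ 2 * P.S →
    ∀ φ : List Bool → ℝ,
      P.nestE U t (fun e c => φ (P.asm t e c)) = ev (U ^ (P.mask t σ).length) φ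
  | [], σ, hσ, φ => by
      rw [ev_pow hU]
      simp [Shape.nestE, nSlot, listE, Shape.core, Shape.asm, Shape.mask, length_uC hσ]
  | true :: t, σ, hσ, φ => by
      rw [nestE_true hU, Shape.mask, List.length_append, List.length_append, length_uL hσ,
        length_uR hσ, pow_add, pow_add, ev_mul, ev_mul, ev_pow hU P.uLen]
      refine tupE_congr fun cl hcl => ?_
      rw [ev_comm (U ^ (P.mask t σ).length), ev_pow hU P.uLen]
      refine tupE_congr fun cr hcr => ?_
      rw [← nestE_plain hU t σ hσ fun m => φ (cl.flatten ++ m ++ cr.flatten)]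
      refine congrArg (P.nestE U t) (funext fun e => funext fun c => ?_)
      rw [Shape.asm, List.take_left' hcl, List.drop_left' hcl, List.take_left' hcr,
        List.drop_left' hcr]
  | false :: t, σ, hσ, φ => by
      rw [nestE_false, Shape.mask, List.length_append, List.length_append, List.length_replicate,
        pow_add, pow_add, ← pE_plain hU P.J]
      refine congrArg (pE U P.J) (funext fun h => ?_)
      exact nestE_plain hU t σ hσ fun m => φ (h.left ++ m ++ h.right)

lemma mask_gap (j : ℕ) (t : List Bool) (σ : ℕ) :
    P.mask (List.replicate j false ++ t) σ = List.replicate (j * (P.J + 2)) false ++ P.mask t σ ++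
      List.replicate (j * (P.J + 2)) false := by
  induction j with
  | zero => simp
  | succ j ih =>
    rw [List.replicate_succ, List.cons_append, Shape.mask, ih, Nat.succ_mul]
    conv_rhs => arg 2; rw [List.replicate_add]
    conv_rhs => arg 1; arg 1; rw [Nat.add_comm, List.replicate_add]
    simp only [List.append_assoc]

lemma nSlot_nest (hj : ℕ) : ∀ n, nSlot (nestList hj n) = n * hj := by
  have h : ∀ j t, nSlot (List.replicate j false ++ t) = j + nSlot t := fun j t => by
    induction j with
    | zero => simp
    | succ j ih => simp [List.replicate_succ, nSlot, ih]; omega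
  intro n
  induction n with
  | zero => simp [nestList, nSlot]
  | succ n ih => rw [nestList, h, nSlot, ih, Nat.succ_mul, Nat.add_comm]

/-- Gaps with too few moves are rare. -/
lemma bad_gaps (hU : IsProb U) (hl : 9 / 20 ≤ lam U P.J) (hj : ℕ) : ∀ n : ℕ,
    listE (pE U P.J) (n * hj)
        (fun e => open Classical in if GoodGaps U P.J hj n e then (0 : ℝ) else 1) ≤
      n * Real.exp (-(hj : ℝ) / 16)
  | 0 => by simp [listE, GoodGaps]
  | n + 1 => by
      classical
      have hp := isMean_pE hU P.J
      have ih := bad_gaps hU hl hj n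
      rw [show (n + 1) * hj = hj + n * hj by ring, listE_add]
      have hexp : ∀ k, listE (pE U P.J) k
          (fun u => Real.exp (-(((u.map (goodEnt U P.J)).sum : ℕ) : ℝ))) ≤
          Real.exp (-(k : ℝ) / 8) := by
        intro k
        induction k with
        | zero => simp [listE]
        | succ k ihk =>
          simp only [listE, List.map_cons, List.sum_cons, Nat.cast_add, neg_add, Real.exp_add]
          simp only [(isMean_listE hp k).smul]
          rw [hp.mul_right]
          refine (mul_le_mul (pE_exp_good hU hl) ihk ((isMean_listE hp k).nonneg fun u =>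
            (Real.exp_pos _).le) (Real.exp_pos _).le).trans (le_of_eq ?_)
          rw [← Real.exp_add, Real.exp_add, ← Real.exp_add]
          congr 1
          push_cast; ring
      refine (listE_mono hp (G := fun u => Real.exp ((hj : ℝ) / 16) *
          Real.exp (-(((u.map (goodEnt U P.J)).sum : ℕ) : ℝ)) +
            n * Real.exp (-(hj : ℝ) / 16)) fun u hu => ?_).trans ?_
      · have hm := isMean_listE hp (n * hj)
        have hG : ∀ v, GoodGaps U P.J hj (n + 1) (u ++ v) ↔
            hj ≤ 16 * (u.map (goodEnt U P.J)).sum ∧ GoodGaps U P.J hj n v := fun v => by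
          rw [GoodGaps, List.take_left' hu, List.drop_left' hu]
        by_cases hg : hj ≤ 16 * (u.map (goodEnt U P.J)).sum
        · refine le_trans (le_of_eq_of_le ?_ ih) (le_add_of_nonneg_left (by positivity))
          exact congrArg _ (funext fun v => if_congr (by rw [hG]; simp [hg]) rfl rfl)
        · refine le_trans (hm.le_const (c := 1) fun v => by split_ifs <;> norm_num) ?_
          refine le_add_of_le_of_nonneg ?_ (by positivity)
          rw [← Real.exp_add]
          refine Real.one_le_exp ?_
          have : ((16 * (u.map (goodEnt U P.J)).sum : ℕ) : ℝ) ≤ hj := by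
            exact_mod_cast (not_le.1 hg).le
          push_cast at this ⊢
          linarith
      · rw [(isMean_listE hp hj).add, (isMean_listE hp hj).smul, (isMean_listE hp hj).const]
        refine (add_le_add (mul_le_mul_of_nonneg_left (hexp hj) (Real.exp_pos _).le) le_rfl).trans
          (le_of_eq ?_)
        rw [← Real.exp_add, show (hj : ℝ) / 16 + -(hj : ℝ) / 8 = -(hj : ℝ) / 16 by ring]
        push_cast; ring

lemma sum_get_map {α : Type*} (l : List α) (f : α → ℝ) :
    ∑ i : Fin l.length, f (l.get i) = (l.map f).sum := by
  induction l with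
  | nil => simp
  | cons a l ih =>
    rw [List.map_cons, List.sum_cons, ← ih]
    exact Fin.sum_univ_succ fun i : Fin (l.length + 1) => f ((a :: l).get i)

/-- Moments of the mixture given the slots. -/
lemma moment_val (hU : IsProb U) (hV : IsProb V) (hη : 0 ≤ η) (hle : Le1 (V - U) (η • U))
    {k : ℕ} (hk : 0 < k) (t : List Bool) {σ : ℕ} (hσ : σ ≤ 2 * P.S) (e : List Ent) :
    tupE U (P.core t) (fun c =>
        (P.val U (ratioD U V) t σ e c - P.stay U t σ e) ^ (2 * k)) ≤
      ((P.paths U t σ e).map fun p => ((P.paths U t σ e).map fun q =>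
        p.1 * q.1 * ((1 + 8 * k * η ^ 2) ^ common p.2 q.2 - 1)).sum).sum ^ k := by
  have h := chaosMix U (ratioD U V) η k hU (ev_ratioD_self hU hV hle) hη
    (abs_ratioD_le hη hU.pos hle) hk (P.core t) (Fin (P.paths U t σ e).length) univ
    (fun i => ((P.paths U t σ e).get i).1) (fun i => ((P.paths U t σ e).get i).2)
    (P.stay U t σ e)
    (fun i _ => length_of_mem_paths t σ e hσ _ (List.get_mem _ i))
  set L := P.paths U t σ e
  have hv : (fun u => (∑ i : Fin L.length,
      (L.get i).1 * dens (ratioD U V) (L.get i).2 u - P.stay U t σ e) ^ (2 * k)) =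
      fun u => (P.val U (ratioD U V) t σ e u - P.stay U t σ e) ^ (2 * k) := funext fun u => by
    rw [sum_get_map L fun p => p.1 * dens (ratioD U V) p.2 u]; rfl
  rw [hv] at h
  rw [sum_get_map L fun p => p.1] at h
  simp only [fun i => sum_get_map L fun q => (L.get i).1 * q.1 *
    ((1 + 8 * (k : ℝ) * η ^ 2) ^ common (L.get i).2 q.2 - 1)] at h
  rw [sum_get_map L fun p => (L.map fun q =>
    p.1 * q.1 * ((1 + 8 * (k : ℝ) * η ^ 2) ^ common p.2 q.2 - 1)).sum,
    show (L.map fun p => p.1).sum = P.stay U t σ e from rfl, sub_self, zero_pow two_ne_zero,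
    zero_add] at h
  exact h

/-- The mixture is nonnegative. -/
lemma val_nonneg (hU : IsProb U) {d : List Bool → ℝ} (hd : ∀ a, -1 ≤ d a) (t : List Bool) (σ : ℕ)
    (e : List Ent) (c : List (List Bool)) : 0 ≤ P.val U d t σ e c :=
  List.sum_nonneg fun x hx => by
    obtain ⟨p, hp, rfl⟩ := List.mem_map.1 hx
    exact mul_nonneg (paths_nonneg hU t σ e p hp) (dens_nonneg hd _ _)

end Vale.Agent.P321
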