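import Vale.Agent.P321.AllQ.DriftAux

/-!
P321, every deletion probability: the drift bound of one nest, split into an `L²` part and a small
`ℓ¹` part.
-/

open Finset

namespace Vale.Agent.P321

variable {P : Shape} {U V : Alg} {η : ℝ}

/-- The bad slots. -/
noncomputable def badInd (U : Alg) (P : Shape) (hj n : ℕ) (e : List Ent) : ℝ :=
  open Classical in if GoodGaps U P.J hj n e then 0 else 1

lemma ev_sign (R : Alg) :
    ∃ φ : List Bool → ℝ, (∀ w, |φ w| ≤ 1) ∧ ev R φ = nrm R := by
  classical
  refine ⟨fun w => if 0 ≤ R.coeff (FreeMonoid.ofList w) then 1 else -1,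
    fun w => by simp only; split_ifs <;> norm_num, ?_⟩
  refine Finset.sum_congr rfl fun w _ => ?_
  by_cases hw : 0 ≤ R.coeff w
  · simp [hw, abs_of_nonneg hw]
  · simp [hw, abs_of_neg (not_le.1 hw)]

lemma neg_pow_even_le {g c : ℝ} {k : ℕ} (h : c ≤ |g|) (hc : 0 ≤ c) :
    c ^ (2 * k) ≤ g ^ (2 * k) := by
  rw [pow_mul g, ← sq_abs g, ← pow_mul]
  exact pow_le_pow_left₀ hc h _

/-- The drift of one nest. -/
theorem nest_drift (ho : OverlapStmt) (hU : IsProb U) (hV : IsProb V) (hη : 0 ≤ η) (hη1 : η ≤ 1)
    (hle : Le1 (V - U) (η • U)) (hl : 9 / 20 ≤ lam U P.J) {hj n k : ℕ} (hhj : 0 < hj) (hk : 0 < k)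
    {z : ℝ} (hzdef : 2 ^ 14 * k * η ^ 2 * (P.l.length : ℝ) ^ 2 *
      (Real.sqrt n / Real.sqrt hj + 1) ≤ z) (hz : z ≤ 1 / 8)
    {δ ε : ℝ} (hε : n * Real.exp (-(hj : ℝ) / 16) ≤ ε)
    (hδ : 1 - listE (pE U P.J) (nSlot (nestList hj n)) (P.stay U (nestList hj n) P.S) ≤ δ) :
    (∃ G R : Alg, wd U V (P.mask (nestList hj n) P.S) -
        U ^ (P.mask (nestList hj n) P.S).length = G + R ∧
      Dev G (U ^ (P.mask (nestList hj n) P.S).length) (4 * Real.sqrt z) ∧
      nrm R ≤ 2 * ε + 2 * δ) ∧
    ∃ R : Alg, Pos R ∧ mass R ≤ (16 * z) ^ k + (ε + 4 * δ) ∧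
      Pos ((2 : ℝ) • wd U V (P.mask (nestList hj n) P.S) + R -
        U ^ (P.mask (nestList hj n) P.S).length) := by
  classical
  set t := nestList hj n with ht
  set W := wd U V (P.mask t P.S) with hW
  set N := (P.mask t P.S).length with hN
  have hσ : P.S ≤ 2 * P.S := by omega
  have hd : ∀ a, -1 ≤ ratioD U V a := fun a => by
    have := (abs_le.1 (abs_ratioD_le hη hU.pos hle a)).1
    linarith
  set d := ratioD U V
  have hp := isMean_pE hU P.J
  have hE := isMean_listE hp (nSlot t)
  have hC := isMean_tupE hU (P.core t)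
  have hM := isMean_nestE (P := P) hU t
  have hz0 : 0 ≤ z := le_trans (by positivity) hzdef
  set ω := P.stay U t P.S
  set f := P.val U d t P.S
  set bad := badInd U P hj n
  have hbad01 : ∀ e, 0 ≤ bad e ∧ bad e ≤ 1 := fun e => by
    simp only [bad, badInd]; split_ifs <;> norm_num
  have hEbad : listE (pE U P.J) (nSlot t) bad ≤ ε := by
    rw [ht, nSlot_nest]
    exact (bad_gaps hU hl hj n).trans hε
  have hEω : 1 - listE (pE U P.J) (nSlot t) ω ≤ δ := hδ
  -- moments
  have hmom : ∀ j : ℕ, 0 < j → j ≤ k → ∀ e : List Ent, e.length = nSlot t →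
      (1 - bad e) * tupE U (P.core t) (fun c => (f e c - ω e) ^ (2 * j)) ≤ (z / 4) ^ j := by
    intro j hj0 hjk e hlen
    simp only [bad, badInd]
    split_ifs with hg
    · rw [sub_zero, one_mul]
      refine (moment_val hU hV hη hle hj0 t hσ e).trans ?_
      have hjk' : (j : ℝ) ≤ k := by exact_mod_cast hjk
      set A := η ^ 2 * (P.l.length : ℝ) ^ 2 * (Real.sqrt n / Real.sqrt hj + 1) with hA
      have hA0 : 0 ≤ A := by positivity
      have hle' : 256 * (8 * (j : ℝ) * η ^ 2) * (P.l.length : ℝ) ^ 2 *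
          (Real.sqrt n / Real.sqrt hj + 1) ≤ z / 8 := by
        have h1 : 2 ^ 14 * (k : ℝ) * A ≤ z := le_trans (le_of_eq (by rw [hA]; ring)) hzdef
        calc _ = 2048 * (j : ℝ) * A := by rw [hA]; ring
          _ ≤ 2048 * (k : ℝ) * A := by gcongr
          _ ≤ z / 8 := by linarith
      have h0 := ho U P hj n e (8 * j * η ^ 2) hU hhj (by positivity)
        (by rw [hlen, ht, nSlot_nest]) hg (by linarith)
      rw [← ht] at h0
      have hm0 : (0 : ℝ) ≤ ((P.paths U t P.S e).map fun p => ((P.paths U t P.S e).map fun q =>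
          p.1 * q.1 * ((1 + 8 * j * η ^ 2) ^ common p.2 q.2 - 1)).sum).sum := by
        refine List.sum_nonneg fun x hx => ?_
        obtain ⟨p, hp', rfl⟩ := List.mem_map.1 hx
        refine List.sum_nonneg fun y hy => ?_
        obtain ⟨q, hq', rfl⟩ := List.mem_map.1 hy
        exact mul_nonneg (mul_nonneg (paths_nonneg hU t _ e p hp') (paths_nonneg hU t _ e q hq'))
          (sub_nonneg.2 (one_le_pow₀ (le_add_of_nonneg_right (by positivity))))
      exact pow_le_pow_left₀ hm0 (h0.trans (by linarith)) j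
    · rw [sub_self, zero_mul]; positivity
  -- the sub-law
  have hrest : ∀ φ : List Bool → ℝ, (∀ w, |φ w| ≤ 1) →
      |ev W φ - P.nestE U t fun e c => f e c * φ (P.asm t e c)| ≤
        1 - listE (pE U P.J) (nSlot t) ω := by
    intro φ hφ
    have hone : P.nestE U t (fun e c => f e c * (1 : ℝ)) = listE (pE U P.J) (nSlot t) ω := by
      unfold Shape.nestE
      simp only [mul_one]
      exact congrArg _ (funext fun e => tupE_val hU hV hle t hσ e)
    have hW1 : ev W (fun _ => (1 : ℝ)) = 1 := by
      rw [ev_const, (isProb_wd hU hV _).mass_one, one_mul]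
    have hmW := isMean_ev (isProb_wd hU hV (P.mask t P.S))
    have a := nest_le hU hle hd hV t P.S hσ (fun w => 1 + φ w)
      fun w => by linarith [(abs_le.1 (hφ w)).1]
    have b := nest_le hU hle hd hV t P.S hσ (fun w => 1 - φ w)
      fun w => by linarith [(abs_le.1 (hφ w)).2]
    simp only [mul_add, mul_sub] at a b
    rw [hmW.add, hW1, hM.add (fun x => f x.1 x.2 * 1) (fun x => f x.1 x.2 * φ (P.asm t x.1 x.2)),
      hone] at a
    rw [hmW.sub, hW1, hM.sub (fun x => f x.1 x.2 * 1) (fun x => f x.1 x.2 * φ (P.asm t x.1 x.2)),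
      hone] at b
    exact abs_le.2 ⟨by linarith, by linarith⟩
  constructor
  · -- the L² part
    set Λ : (List Bool → ℝ) → ℝ := fun φ =>
      P.nestE U t fun e c => (1 - bad e) * (f e c - ω e) * φ (P.asm t e c)
    have hg2 : P.nestE U t (fun e c => ((1 - bad e) * (f e c - ω e)) ^ 2) ≤ z / 4 := by
      unfold Shape.nestE
      refine le_trans (listE_mono hp fun e he => ?_) (le_of_eq (hE.const (z / 4)))
      have e1 : ∀ c, ((1 - bad e) * (f e c - ω e)) ^ 2 =
          (1 - bad e) ^ 2 * (f e c - ω e) ^ (2 * 1) := fun c => by ring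
      rw [hC.congr e1, hC.smul]
      have hb : (1 - bad e) ^ 2 = 1 - bad e := by
        simp only [bad, badInd]; split_ifs <;> norm_num
      rw [hb]
      simpa using hmom 1 one_pos hk e he
    have hbound : ∀ φ, |Λ φ| ≤ Real.sqrt (z / 4) * Real.sqrt (ev (U ^ N) (φ ^ 2)) := fun φ => by
      refine (hM.cs (fun x => (1 - bad x.1) * (f x.1 x.2 - ω x.1))
        (fun x => φ (P.asm t x.1 x.2))).trans ?_
      refine mul_le_mul (Real.sqrt_le_sqrt hg2) (le_of_eq (congrArg Real.sqrt ?_))
        (Real.sqrt_nonneg _) (Real.sqrt_nonneg _)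
      exact nestE_plain hU t P.S hσ (φ ^ 2)
    set s := (U ^ N).coeff.support
    set δw : FreeMonoid Bool → List Bool → ℝ := fun w v => if FreeMonoid.ofList v = w then 1 else 0
    set G : Alg := ∑ w ∈ s, MonoidAlgebra.single w (Λ (δw w))
    have hG : ∀ φ, ev G φ = Λ φ := by
      intro φ
      set ψ : List Bool → ℝ := fun v => if FreeMonoid.ofList v ∈ s then 0 else φ v
      have h0 : Λ ψ = 0 := by
        have hz2 : ev (U ^ N) (ψ ^ 2) = 0 := Finset.sum_eq_zero fun w hw => by
          have h : ψ w.toList = 0 := if_pos (show FreeMonoid.ofList w.toList ∈ s from hw)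
          simp [Pi.pow_apply, h]
        have h1 := hbound ψ
        rw [hz2, Real.sqrt_zero, mul_zero] at h1
        exact abs_nonpos_iff.1 h1
      have hsplit : Λ φ = (∑ w ∈ s, Λ (δw w) * φ w.toList) + Λ ψ := by
        simp only [Λ]
        simp only [fun w => (hM.mul_right (fun x => (1 - bad x.1) * (f x.1 x.2 - ω x.1) *
          δw w (P.asm t x.1 x.2)) (φ w.toList)).symm]
        rw [← hM.sum s (fun w x => (1 - bad x.1) * (f x.1 x.2 - ω x.1) *
          δw w (P.asm t x.1 x.2) * φ w.toList), ← hM.add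
          (fun x => ∑ w ∈ s, (1 - bad x.1) * (f x.1 x.2 - ω x.1) *
            δw w (P.asm t x.1 x.2) * φ w.toList)
          (fun x => (1 - bad x.1) * (f x.1 x.2 - ω x.1) * ψ (P.asm t x.1 x.2))]
        refine congrArg (P.nestE U t) (funext fun e => funext fun c => ?_)
        simp only [mul_assoc, ← Finset.mul_sum, ← mul_add]
        congr 2
        simp only [δw, ψ, ite_mul, one_mul, zero_mul, Finset.sum_ite_eq]
        split_ifs <;> simp
      rw [hsplit, h0, add_zero]
      simp only [G, ev_sum, ev_single]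
    refine ⟨G, W - U ^ N - G, by abel, ⟨by positivity, fun φ => ?_⟩, ?_⟩
    · rw [hG]
      refine (hbound φ).trans (mul_le_mul_of_nonneg_right ?_ (Real.sqrt_nonneg _))
      exact (Real.sqrt_le_sqrt (by linarith : z / 4 ≤ z)).trans
        (le_mul_of_one_le_left (Real.sqrt_nonneg _) (by norm_num))
    · obtain ⟨φ, hφ, hR⟩ := ev_sign (W - U ^ N - G)
      rw [← hR, ev_sub, ev_sub, hG, ← nestE_plain (P := P) hU t P.S hσ φ]
      set A := P.nestE U t fun e c => f e c * φ (P.asm t e c)
      have hmid : A - (P.nestE U t fun e c => φ (P.asm t e c)) - Λ φ ≤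
          2 * ε + (1 - listE (pE U P.J) (nSlot t) ω) := by
        simp only [A, Λ, Shape.nestE, ← hC.sub, ← hE.sub]
        have hone : (2 * ε + (1 - listE (pE U P.J) (nSlot t) ω)) ≥
            listE (pE U P.J) (nSlot t) (fun e => 2 * bad e + (1 - ω e)) := by
          rw [hE.add, hE.smul, hE.sub, hE.one]
          linarith
        refine le_trans (hE.mono _ _ fun e => ?_) hone
        obtain ⟨hω0, hω1⟩ : 0 ≤ ω e ∧ ω e ≤ 1 := stay_mem hU t P.S e
        obtain ⟨b0, b1⟩ := hbad01 e
        have hb : bad e = 0 ∨ bad e = 1 := by simp only [bad, badInd]; split_ifs <;> simp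
        rcases hb with hb | hb
        · refine hC.le_const fun c => ?_
          simp only [hb, sub_zero, one_mul]
          nlinarith [(abs_le.1 (hφ (P.asm t e c))).1, (abs_le.1 (hφ (P.asm t e c))).2]
        · simp only [hb, sub_self, zero_mul, sub_zero]
          refine (hC.mono _ (fun c => f e c + 1) fun c => ?_).trans ?_
          · have hf : 0 ≤ f e c := val_nonneg hU hd t P.S e c
            nlinarith [(abs_le.1 (hφ (P.asm t e c))).1, (abs_le.1 (hφ (P.asm t e c))).2]
          · rw [hC.add, hC.one, show tupE U (P.core t) (f e) = ω e from tupE_val hU hV hle t hσ e]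
            linarith
      have := (abs_le.1 (hrest φ hφ)).2
      linarith
  · -- domination
    set X := U ^ N - (2 : ℝ) • W
    set Sset : FreeMonoid Bool → Prop := fun w => 0 < X.coeff w
    refine ⟨restrict X Sset, fun w => ?_, ?_, fun w => ?_⟩
    · rw [coeff_restrict]; split_ifs with h
      · exact le_of_lt h
      · exact le_rfl
    · set φ : List Bool → ℝ := fun v => if Sset (FreeMonoid.ofList v) then 1 else 0
      have hφ0 : ∀ v, 0 ≤ φ v := fun v => by simp only [φ]; split_ifs <;> norm_num
      have hφ1 : ∀ v, φ v ≤ 1 := fun v => by simp only [φ]; split_ifs <;> norm_num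
      have e1 : mass (restrict X Sset) = ev X φ := by
        rw [mass_eq_sum (s := X.coeff.support), ev, Finsupp.sum]
        · refine Finset.sum_congr rfl fun w _ => ?_
          rw [coeff_restrict]
          by_cases hw : Sset w
          · rw [if_pos hw, show φ w.toList = 1 from if_pos hw, mul_one]
          · rw [if_neg hw, show φ w.toList = 0 from if_neg hw, mul_zero]
        · intro w hw
          rw [Finsupp.mem_support_iff, coeff_restrict] at hw
          split_ifs at hw with h
          · exact Finsupp.mem_support_iff.2 hw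
          · exact absurd rfl hw
      rw [e1]
      simp only [X]
      rw [ev_sub, ev_smul, ← nestE_plain (P := P) hU t P.S hσ φ]
      have hlow := nest_le hU hle hd hV t P.S hσ φ hφ0
      refine le_trans (sub_le_sub_left (mul_le_mul_of_nonneg_left hlow zero_le_two) _) ?_
      simp only [Shape.nestE, ← hC.smul, ← hE.smul, ← hC.sub, ← hE.sub]
      have hbd : ∀ e, e.length = nSlot t → tupE U (P.core t) (fun c =>
          φ (P.asm t e c) - 2 * (f e c * φ (P.asm t e c))) ≤
          bad e + (16 : ℝ) ^ k * (z / 4) ^ k + 4 * (1 - ω e) := by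
        intro e he
        refine le_trans (hC.mono _ (fun c => bad e +
          (16 : ℝ) ^ k * ((1 - bad e) * (f e c - ω e) ^ (2 * k)) + 4 * (1 - ω e)) fun c => ?_) ?_
        · obtain ⟨hω0, hω1⟩ : 0 ≤ ω e ∧ ω e ≤ 1 := stay_mem hU t P.S e
          obtain ⟨b0, b1⟩ := hbad01 e
          have hf : 0 ≤ f e c := val_nonneg hU hd t P.S e c
          have hp0 : 0 ≤ (f e c - ω e) ^ (2 * k) := by rw [pow_mul]; positivity
          have hb : bad e = 0 ∨ bad e = 1 := by simp only [bad, badInd]; split_ifs <;> simp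
          have hu := hφ0 (P.asm t e c)
          have hu1 := hφ1 (P.asm t e c)
          have hlhs : φ (P.asm t e c) - 2 * (f e c * φ (P.asm t e c)) ≤ 1 := by
            nlinarith [mul_nonneg hf hu]
          have h16 : 0 ≤ (16 : ℝ) ^ k * ((1 - bad e) * (f e c - ω e) ^ (2 * k)) :=
            mul_nonneg (by positivity) (mul_nonneg (by linarith) hp0)
          by_cases h3 : 1 / 4 ≤ 1 - ω e
          · linarith
          rcases hb with hb | hb
          · by_cases h4 : 1 / 2 ≤ f e c
            · nlinarith [mul_nonneg hu (sub_nonneg.2 h4)]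
            · have h5 := neg_pow_even_le (k := k) (show (1 / 4 : ℝ) ≤ |f e c - ω e| by
                rw [abs_sub_comm]; exact le_trans (by linarith) (le_abs_self _)) (by norm_num)
              rw [hb, sub_zero, one_mul]
              have h6 : (1 : ℝ) ≤ 16 ^ k * (f e c - ω e) ^ (2 * k) := by
                refine le_trans ?_ (mul_le_mul_of_nonneg_left h5 (by positivity))
                rw [pow_mul, ← mul_pow]; norm_num
              linarith
          · linarith
        · rw [hC.add, hC.add, hC.const, hC.const, hC.smul, hC.smul]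
          gcongr
          exact hmom k hk le_rfl e he
      refine le_trans (listE_mono hp hbd) ?_
      rw [hE.add, hE.add, hE.smul, hE.smul, hE.sub, hE.one, hE.const, ← mul_pow]
      have h4k : (16 * (z / 4)) ^ k ≤ (16 * z) ^ k :=
        pow_le_pow_left₀ (by positivity) (by linarith) k
      linarith
    · simp only [MonoidAlgebra.coeff_sub, Finsupp.sub_apply, MonoidAlgebra.coeff_add,
        Finsupp.add_apply, coeff_restrict, Sset, X, MonoidAlgebra.coeff_smul, Finsupp.smul_apply,
        smul_eq_mul]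
      split_ifs with h <;> linarith

end Vale.Agent.P321
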