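import Vale.Agent.P321.AllQ.OverlapDef

/-!
P321, every deletion probability: two paths share few marks.

Given the slots, two independent paths are two copies of one walk. Their shared marks are bounded
through the hits of the difference (Khasminskii), and the hits through the largest point mass of
one walk: every good slot pair contains a fair coin with weight `1/8`.
-/

open Finset

namespace Vale.Agent.P321
namespace Ov

/-- One step of the walk. -/
noncomputable def mv (U : Alg) (J : ℕ) (h : Ent) (g : ℤ → ℝ) (z : ℤ) : ℝ :=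
  qL U J h * g (z - 1) + qR U J h * g (z + 1) + (1 - qL U J h - qR U J h) * g z

/-- Two windows of `w` cells meet. -/
def near (w : ℕ) (z z' : ℤ) : ℝ := if |z - z'| < w then 1 else 0

/-- The expected number of meetings of two walks. -/
noncomputable def hits (U : Alg) (J w : ℕ) : List Bool → List Ent → ℤ → ℤ → ℝ
  | [], _, z, z' => near w z z'
  | true :: t, e, z, z' => near w z z' + hits U J w t e z z'
  | false :: t, h :: e, z, z' => mv U J h (fun x' => mv U J h (fun x => hits U J w t e x x') z) z'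
  | false :: _, [], _, _ => 0

/-- The mean over a fair binomial shift. -/
noncomputable def coins (j : ℕ) (f : ℤ → ℝ) (z : ℤ) : ℝ :=
  ∑ i ∈ range (j + 1), (j.choose i : ℝ) / 2 ^ j * f (z + i)

variable {U : Alg} {J w : ℕ}

lemma near_nonneg (w : ℕ) (z z' : ℤ) : 0 ≤ near w z z' := by unfold near; split_ifs <;> norm_num

lemma stay_coef_nonneg (hU : IsProb U) (h : Ent) : 1 / 2 ≤ 1 - qL U J h - qR U J h := by
  have := (qL_mem (J := J) hU h).2
  have := (qR_mem (J := J) hU h).2
  linarith

lemma mv_le (hU : IsProb U) (h : Ent) {g : ℤ → ℝ} {c : ℝ} (hg : ∀ x, g x ≤ c) (z : ℤ) :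
    mv U J h g z ≤ c := by
  have := mul_le_mul_of_nonneg_left (hg (z - 1)) (qL_mem (J := J) hU h).1
  have := mul_le_mul_of_nonneg_left (hg (z + 1)) (qR_mem (J := J) hU h).1
  have := mul_le_mul_of_nonneg_left (hg z)
    (show 0 ≤ 1 - qL U J h - qR U J h by linarith [stay_coef_nonneg (J := J) hU h])
  unfold mv; linarith

lemma mv_nonneg (hU : IsProb U) (h : Ent) {g : ℤ → ℝ} (hg : ∀ x, 0 ≤ g x) (z : ℤ) :
    0 ≤ mv U J h g z := by
  have := mul_nonneg (qL_mem (J := J) hU h).1 (hg (z - 1))
  have := mul_nonneg (qR_mem (J := J) hU h).1 (hg (z + 1))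
  have := mul_nonneg
    (show 0 ≤ 1 - qL U J h - qR U J h by linarith [stay_coef_nonneg (J := J) hU h]) (hg z)
  unfold mv; linarith

lemma hits_nonneg (hU : IsProb U) : ∀ t e z z', 0 ≤ hits U J w t e z z'
  | [], _, _, _ => near_nonneg ..
  | true :: t, e, z, z' => add_nonneg (near_nonneg ..) (hits_nonneg hU t e z z')
  | false :: t, h :: e, _, _ =>
      mv_nonneg hU h (fun x' => mv_nonneg hU h (fun x => hits_nonneg hU t e x x') _) _
  | false :: _, [], _, _ => le_refl 0

/-! ### Coins -/

lemma coins_zero (f : ℤ → ℝ) (z : ℤ) : coins 0 f z = f z := by simp [coins]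

lemma coins_add (j : ℕ) (f g : ℤ → ℝ) (z : ℤ) :
    coins j (fun x => f x + g x) z = coins j f z + coins j g z := by
  simp [coins, mul_add, Finset.sum_add_distrib]

lemma coins_smul (j : ℕ) (c : ℝ) (f : ℤ → ℝ) (z : ℤ) :
    coins j (fun x => c * f x) z = c * coins j f z := by
  simp [coins, Finset.mul_sum, mul_left_comm]

lemma coins_shift (j : ℕ) (f : ℤ → ℝ) (d z : ℤ) :
    coins j (fun x => f (x + d)) z = coins j f (z + d) := by
  simp [coins, add_right_comm]

lemma coins_succ (j : ℕ) (f : ℤ → ℝ) (z : ℤ) :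
    coins (j + 1) f z = (coins j f z + coins j f (z + 1)) / 2 := by
  unfold coins
  have e : ∑ i ∈ range (j + 1), (j.choose i : ℝ) / 2 ^ j * f (z + i) =
      (∑ i ∈ range (j + 1), (j.choose (i + 1) : ℝ) / 2 ^ j * f (z + 1 + i)) +
        1 / 2 ^ j * f z := by
    have h := sum_range_succ (fun i : ℕ => (j.choose i : ℝ) / 2 ^ j * f (z + i)) (j + 1)
    rw [Nat.choose_succ_self, Nat.cast_zero, zero_div, zero_mul, add_zero] at h
    rw [← h, sum_range_succ']
    simp [add_assoc, add_comm (1 : ℤ)]
  rw [e, sum_range_succ' _ (j + 1), add_right_comm, ← Finset.sum_add_distrib, add_div,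
    Finset.sum_div]
  congr 1
  · refine sum_congr rfl fun i _ => ?_
    rw [Nat.choose_succ_succ', show z + ((i + 1 : ℕ) : ℤ) = z + 1 + i by push_cast; ring]
    push_cast; ring
  · simp; ring

lemma coins_near (w j : ℕ) (z z' : ℤ) :
    coins j (fun x => near w x z') z ≤ 2 * w / Real.sqrt (j + 1) := by
  have hs : 0 < Real.sqrt ((j : ℝ) + 1) := Real.sqrt_pos.2 (by positivity)
  have hmax : ∀ i, (j.choose i : ℝ) / 2 ^ j ≤ 1 / Real.sqrt (j + 1) := fun i => by
    rw [div_le_div_iff₀ (by positivity) hs, one_mul]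
    have hi : (j.choose i : ℝ) ≤ (j.choose (j / 2) : ℝ) := by
      exact_mod_cast Nat.choose_le_middle i j
    refine le_trans (mul_le_mul_of_nonneg_right hi hs.le)
      (le_of_pow_le_pow_left₀ two_ne_zero (by positivity) ?_)
    rw [mul_pow, Real.sq_sqrt (by positivity), ← pow_mul, mul_comm j 2, pow_mul,
      show (2 : ℝ) ^ 2 = 4 by norm_num]
    exact middle_sq j
  set s := (range (j + 1)).filter fun i : ℕ => |z + i - z'| < w
  have hc : s.card ≤ 2 * w := by
    refine (Finset.card_le_card_of_injOn (t := Finset.Ioo (z' - z - w) (z' - z + w))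
      (fun i : ℕ => (i : ℤ)) ?_ (fun _ _ _ _ h => Int.ofNat.inj h)).trans ?_
    · intro i hi
      rw [Finset.mem_coe, Finset.mem_filter, abs_lt] at hi
      simp only [Finset.mem_coe, Finset.mem_Ioo]
      constructor <;> omega
    · rw [Int.card_Ioo]; omega
  calc coins j (fun x => near w x z') z = ∑ i ∈ s, (j.choose i : ℝ) / 2 ^ j := by
        simp [coins, s, near, Finset.sum_filter]
    _ ≤ ∑ _i ∈ s, 1 / Real.sqrt (j + 1) := sum_le_sum fun i _ => hmax i
    _ = (s.card : ℝ) * (1 / Real.sqrt (j + 1)) := by rw [sum_const, nsmul_eq_mul]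
    _ ≤ ((2 * w : ℕ) : ℝ) * (1 / Real.sqrt (j + 1)) :=
        mul_le_mul_of_nonneg_right (by exact_mod_cast hc) (by positivity)
    _ = _ := by push_cast; ring

lemma coins_mv (j : ℕ) (h : Ent) (g : ℤ → ℝ) (z : ℤ) :
    coins j (mv U J h g) z = mv U J h (coins j g) z := by
  show coins j (fun x => mv U J h g x) z = _
  simp only [mv, sub_eq_add_neg _ (1 : ℤ), coins_add, coins_smul, coins_shift]

/-! ### Hits -/

/-- A bound that a good slot pair improves by `1/16`. -/
def Dec (g : ℝ → ℝ) : Prop :=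
  ∀ v, 1 ≤ v → 1 / 8 * g (v + 1) + 7 / 8 * g v ≤ g (v + 1 / 16)

/-- A bound on the hits after any number of coins. -/
def Bd (U : Alg) (J w : ℕ) (t : List Bool) (e : List Ent) (g : ℝ → ℝ) : Prop :=
  ∀ (j : ℕ) (z z' : ℤ), coins j (fun x => hits U J w t e x z') z ≤ g (j + 1)

lemma bd_false (hU : IsProb U) (t : List Bool) (h : Ent) (e : List Ent) {g : ℝ → ℝ}
    (hg : Dec g) (hb : Bd U J w t e g) :
    Bd U J w (false :: t) (h :: e) fun v => g (v + goodEnt U J h / 16) := by
  intro j z z'
  have e1 : coins j (fun x => hits U J w (false :: t) (h :: e) x z') z =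
      mv U J h (fun x' => mv U J h (coins j fun x => hits U J w t e x x') z) z' := by
    show coins j (fun x =>
      qL U J h * mv U J h (fun y => hits U J w t e y (z' - 1)) x +
      qR U J h * mv U J h (fun y => hits U J w t e y (z' + 1)) x +
      (1 - qL U J h - qR U J h) * mv U J h (fun y => hits U J w t e y z') x) z =
      qL U J h * mv U J h (coins j fun y => hits U J w t e y (z' - 1)) z +
      qR U J h * mv U J h (coins j fun y => hits U J w t e y (z' + 1)) z +
      (1 - qL U J h - qR U J h) * mv U J h (coins j fun y => hits U J w t e y z') z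
    rw [coins_add, coins_add, coins_smul, coins_smul, coins_smul, ← coins_mv, ← coins_mv,
      ← coins_mv]
  rw [e1]
  refine mv_le hU h (fun x' => ?_) z'
  set G := coins j fun x => hits U J w t e x x' with hG
  have h0 : ∀ y, G y ≤ g (j + 1) := fun y => hb j y x'
  unfold goodEnt
  split_ifs with hq
  · have h1 := hb (j + 1) z x'
    rw [coins_succ, ← hG] at h1
    push_cast at h1 ⊢
    have hv := hg ((j : ℝ) + 1) (by linarith [(Nat.cast_nonneg j : (0 : ℝ) ≤ (j : ℝ))])
    have a := mul_le_mul_of_nonneg_left (h0 (z + 1))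
      (show 0 ≤ qR U J h - 1 / 16 by linarith)
    have b := mul_le_mul_of_nonneg_left (h0 (z - 1)) (qL_mem (J := J) hU h).1
    have c := mul_le_mul_of_nonneg_left (h0 z)
      (show 0 ≤ 1 - qL U J h - qR U J h - 1 / 16 by
        linarith [stay_coef_nonneg (J := J) hU h])
    unfold mv
    linarith
  · exact le_of_le_of_eq (mv_le hU h h0 z) (by simp)

lemma bd_gap (hU : IsProb U) (t : List Bool) {g : ℝ → ℝ} (hg : Dec g) :
    ∀ (m : ℕ) (e : List Ent), m ≤ e.length → Bd U J w t (e.drop m) g →
      Bd U J w (List.replicate m false ++ t) e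
        fun v => g (v + (((e.take m).map (goodEnt U J)).sum : ℕ) / 16)
  | 0, e, _, hb => by simpa using hb
  | m + 1, [], hm, _ => by simp at hm
  | m + 1, h :: e, hm, hb => by
      have ih := bd_gap hU t hg m e (by simpa using hm) (by simpa using hb)
      set G : ℕ := ((e.take m).map (goodEnt U J)).sum
      have hd : Dec fun v => g (v + G / 16) := fun v hv => by
        have := hg (v + G / 16) (by linarith [(by positivity : (0 : ℝ) ≤ G / 16)])
        dsimp only
        rwa [show v + 1 + (G : ℝ) / 16 = v + G / 16 + 1 by ring,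
          show v + 1 / 16 + (G : ℝ) / 16 = v + G / 16 + 1 / 16 by ring]
      intro j z z'
      refine (bd_false hU _ h e hd ih j z z').trans (le_of_eq (congrArg g ?_))
      simp [G]; ring

/-- The bound for `n` gaps that each improve by `D`. -/
noncomputable def bound (w : ℕ) (D : ℝ) : ℕ → ℝ → ℝ
  | 0, u => 2 * w / Real.sqrt u
  | n + 1, u => 2 * w / Real.sqrt (u + D) + bound w D n (u + D)

lemma dec_base (w : ℕ) {v : ℝ} (hv : 1 ≤ v) :
    1 / 8 * (2 * w / Real.sqrt (v + 1)) + 7 / 8 * (2 * w / Real.sqrt v) ≤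
      2 * w / Real.sqrt (v + 1 / 16) := by
  set a := Real.sqrt v
  set b := Real.sqrt (v + 1)
  set c := Real.sqrt (v + 1 / 16)
  have ha : 0 < a := Real.sqrt_pos.2 (by linarith)
  have hb : 0 < b := Real.sqrt_pos.2 (by linarith)
  have hc : 0 < c := Real.sqrt_pos.2 (by linarith)
  have a2 : a ^ 2 = v := Real.sq_sqrt (by linarith)
  have b2 : b ^ 2 = v + 1 := Real.sq_sqrt (by linarith)
  have c2 : c ^ 2 = v + 1 / 16 := Real.sq_sqrt (by linarith)
  have hab : a * b ≤ v + 1 / 2 := by nlinarith [sq_nonneg (a - b)]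
  have key : c * (a + 7 * b) ≤ 8 * (a * b) := by
    refine le_of_pow_le_pow_left₀ two_ne_zero (by positivity) ?_
    rw [mul_pow c, c2, show (8 * (a * b)) ^ 2 = 64 * (a ^ 2 * b ^ 2) by ring, a2, b2,
      show (a + 7 * b) ^ 2 = a ^ 2 + 14 * (a * b) + 49 * b ^ 2 by ring, a2, b2]
    nlinarith [mul_le_mul_of_nonneg_left hab (show (0 : ℝ) ≤ v + 1 / 16 by linarith)]
  have k1 : 1 / 8 * (1 / b) + 7 / 8 * (1 / a) ≤ 1 / c := by
    rw [show 1 / 8 * (1 / b) + 7 / 8 * (1 / a) = (a + 7 * b) / (8 * (a * b)) by field_simp,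
      div_le_div_iff₀ (by positivity) hc]
    linarith
  have := mul_le_mul_of_nonneg_left k1 (show (0 : ℝ) ≤ 2 * w by positivity)
  calc _ = 2 * (w : ℝ) * (1 / 8 * (1 / b) + 7 / 8 * (1 / a)) := by ring
    _ ≤ 2 * (w : ℝ) * (1 / c) := this
    _ = _ := by ring

lemma dec_bound (w : ℕ) {D : ℝ} (hD : 0 ≤ D) : ∀ n, Dec (bound w D n)
  | 0 => fun _ hv => dec_base w hv
  | n + 1 => fun v hv => by
      have h1 := dec_base w (v := v + D) (by linarith)
      have h2 := dec_bound w hD n (v + D) (by linarith)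
      simp only [bound]
      rw [show v + 1 + D = v + D + 1 by ring, show v + 1 / 16 + D = v + D + 1 / 16 by ring]
      linarith

lemma bound_anti (w : ℕ) {D : ℝ} (hD : 0 ≤ D) : ∀ (n : ℕ) {u v : ℝ}, 1 ≤ u → u ≤ v →
    bound w D n v ≤ bound w D n u
  | 0, u, v, hu, huv => by
      simp only [bound]
      gcongr
  | n + 1, u, v, hu, huv => by
      simp only [bound]
      gcongr
      exact bound_anti w hD n (by linarith) (by linarith)

lemma bound_le (w : ℕ) {D : ℝ} (hD : 0 < D) : ∀ (n : ℕ) {u : ℝ}, 1 ≤ u →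
    bound w D n u ≤ 2 * w * (2 * (Real.sqrt (u + n * D) - Real.sqrt u) / D + 1)
  | 0, u, hu => by
      simp only [bound, Nat.cast_zero, zero_mul, add_zero, sub_self, mul_zero, zero_div, zero_add,
        mul_one]
      exact div_le_self (by positivity) (Real.one_le_sqrt.2 hu)
  | n + 1, u, hu => by
      have ih := bound_le w hD n (u := u + D) (by linarith)
      set a := Real.sqrt u
      set b := Real.sqrt (u + D)
      have hb : 0 < b := Real.sqrt_pos.2 (by linarith)
      have key : 1 / b ≤ 2 * (b - a) / D := by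
        rw [div_le_div_iff₀ hb hD]
        nlinarith [Real.sq_sqrt (show 0 ≤ u by linarith), Real.sq_sqrt (show 0 ≤ u + D by linarith),
          sq_nonneg (b - a)]
      have k2 := mul_le_mul_of_nonneg_left key (show (0 : ℝ) ≤ 2 * w by positivity)
      rw [show u + D + (n : ℝ) * D = u + ((n + 1 : ℕ) : ℝ) * D by push_cast; ring] at ih
      simp only [bound]
      calc 2 * (w : ℝ) / b + bound w D n (u + D)
          ≤ 2 * w * (2 * (b - a) / D) +
            2 * w * (2 * (Real.sqrt (u + ((n + 1 : ℕ) : ℝ) * D) - b) / D + 1) :=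
            add_le_add (le_of_eq_of_le (by ring) k2) ih
        _ = _ := by ring

lemma bd_nest (hU : IsProb U) (hj : ℕ) : ∀ (n : ℕ) (e : List Ent), e.length = n * hj →
    GoodGaps U J hj n e → Bd U J w (nestList hj n) e (bound w (hj / 256) n)
  | 0, e, _, _ => fun j z z' => coins_near w j z z'
  | n + 1, e, he, hg => by
      obtain ⟨hG, hrest⟩ := hg
      have hlen : hj ≤ e.length := by rw [he]; exact Nat.le_mul_of_pos_left _ (by omega)
      have ih := bd_nest hU hj n (e.drop hj) (by rw [List.length_drop, he]; simp [Nat.succ_mul])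
        hrest
      have hD : (0 : ℝ) ≤ (hj : ℝ) / 256 := by positivity
      set g : ℝ → ℝ := fun v => 2 * w / Real.sqrt v + bound w (hj / 256) n v
      have hd : Dec g := fun v hv => by
        have := dec_base w hv
        have := dec_bound w hD n v hv
        simp only [g]; linarith
      have hb : Bd U J w (true :: nestList hj n) (e.drop hj) g := fun j z z' => by
        simp only [hits, coins_add, g]
        exact add_le_add (coins_near w j z z') (ih j z z')
      intro j z z'
      refine (bd_gap hU _ hd hj e hlen hb j z z').trans ?_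
      simp only [bound, g]
      have hG' : (hj : ℝ) ≤ 16 * (((e.take hj).map (goodEnt U J)).sum : ℕ) := by exact_mod_cast hG
      have h1 : (1 : ℝ) ≤ (j : ℝ) + 1 + hj / 256 := by
        linarith [(Nat.cast_nonneg j : (0 : ℝ) ≤ (j : ℝ))]
      have h2 : (j : ℝ) + 1 + hj / 256 ≤
          (j : ℝ) + 1 + (((e.take hj).map (goodEnt U J)).sum : ℕ) / 16 := by linarith
      gcongr
      exact bound_anti w hD n h1 h2

lemma hits_le (hU : IsProb U) {hj n m : ℕ} (hj0 : 0 < hj) (hm : m ≤ n) {e : List Ent}
    (he : e.length = m * hj) (hg : GoodGaps U J hj m e) (z z' : ℤ) :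
    hits U J w (nestList hj m) e z z' ≤ 64 * w * (Real.sqrt n / Real.sqrt hj + 1) := by
  have hD : (0 : ℝ) < (hj : ℝ) / 256 := by positivity
  have h := bd_nest (w := w) hU hj m e he hg 0 z z'
  rw [coins_zero, Nat.cast_zero, zero_add] at h
  refine h.trans ((bound_le w hD m le_rfl).trans ?_)
  have hs : (0 : ℝ) < Real.sqrt hj := Real.sqrt_pos.2 (by exact_mod_cast hj0)
  have e1 : Real.sqrt (1 + m * ((hj : ℝ) / 256)) - Real.sqrt 1 ≤
      Real.sqrt n * Real.sqrt hj / 16 := by
    rw [Real.sqrt_one, sub_le_iff_le_add, Real.sqrt_le_left (by positivity), add_sq, div_pow,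
      mul_pow, Real.sq_sqrt (Nat.cast_nonneg n), Real.sq_sqrt (Nat.cast_nonneg hj)]
    have : (m : ℝ) * hj ≤ n * hj := by gcongr
    nlinarith [(by positivity : (0 : ℝ) ≤ Real.sqrt n * Real.sqrt hj)]
  have e2 : 2 * (Real.sqrt n * Real.sqrt hj / 16) / ((hj : ℝ) / 256) =
      32 * (Real.sqrt n / Real.sqrt hj) := by
    field_simp
    rw [Real.sq_sqrt (Nat.cast_nonneg hj)]
    ring
  calc 2 * (w : ℝ) * (2 * (Real.sqrt (1 + m * ((hj : ℝ) / 256)) - Real.sqrt 1) / ((hj : ℝ) / 256)
        + 1)
      ≤ 2 * w * (2 * (Real.sqrt n * Real.sqrt hj / 16) / ((hj : ℝ) / 256) + 1) := by gcongr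
    _ = 64 * w * (Real.sqrt n / Real.sqrt hj) + 2 * w := by rw [e2]; ring
    _ ≤ _ := by linarith [(Nat.cast_nonneg w : (0 : ℝ) ≤ w)]

/-! ### Shared marks of two windows -/

lemma common_symm (S T : List Bool) : common S T = common T S := by
  simp only [common]; rw [List.zipWith_comm]; simp [Bool.and_comm]

lemma unitMask_common_zero {S a b σ σ' : ℕ} {l : List Bool}
    (h : σ + l.length ≤ σ') :
    common (unitMask S a b l σ) (unitMask S a b l σ') = 0 := by
  obtain ⟨k, rfl⟩ := Nat.exists_eq_add_of_le h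
  have e : unitMask S a b l (σ + l.length + k) = List.replicate (a + σ) false ++
      (List.replicate l.length false ++ (List.replicate k false ++ l ++
        List.replicate (b + (2 * S - (σ + l.length + k))) false)) := by
    simp only [unitMask, ← List.append_assoc, List.replicate_append_replicate]
    congr 3
    omega
  rw [e, unitMask, List.append_assoc, common_append rfl, common_append (by simp),
    common_replicate_left, common_symm l, common_replicate_left, common_replicate_left]

lemma unitMask_common {S a b σ σ' : ℕ} {l : List Bool} :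
    (common (unitMask S a b l σ) (unitMask S a b l σ') : ℝ) ≤ l.length * near l.length σ σ' := by
  unfold near
  split_ifs with h
  · rw [mul_one]
    have h1 := common_le_count (unitMask S a b l σ) (unitMask S a b l σ')
    have h2 : (unitMask S a b l σ).count true ≤ l.length := by
      simp [unitMask, List.count_append, List.count_replicate, List.count_le_length]
    exact_mod_cast h1.trans h2
  · rw [mul_zero]
    rw [abs_lt, not_and_or] at h
    rcases le_or_gt σ σ' with h' | h'
    · rw [unitMask_common_zero (by omega), Nat.cast_zero]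
    · rw [common_symm, unitMask_common_zero (by omega), Nat.cast_zero]

lemma pow_common_le {θ : ℝ} (hθ : 0 ≤ θ) {w c : ℕ} {a : ℝ} (hw : 2 * w * θ ≤ 1)
    (ha : a = 0 ∨ a = 1) (hc : (c : ℝ) ≤ 2 * w * a) : (1 + θ) ^ c ≤ 1 + 4 * w * θ * a := by
  rcases ha with rfl | rfl
  · have : c = 0 := by
      rw [mul_zero] at hc
      exact_mod_cast le_antisymm hc (Nat.cast_nonneg c)
    subst this; simp
  · rw [mul_one] at hc ⊢
    refine (pow_le_pow_left₀ (by linarith) (by linarith [Real.add_one_le_exp θ] :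
      1 + θ ≤ Real.exp θ) c).trans ?_
    rw [← Real.exp_nat_mul]
    have h0 : 0 ≤ (c : ℝ) * θ := by positivity
    have h1 : (c : ℝ) * θ ≤ 2 * w * θ := by gcongr
    have := (abs_le.1 (Real.abs_exp_sub_one_le (x := (c : ℝ) * θ)
      (by rw [abs_of_nonneg h0]; linarith))).2
    rw [abs_of_nonneg h0] at this
    linarith

/-! ### Khasminskii -/

variable {P : Shape}

/-- A statistic of the mask of one path. -/
noncomputable def psum (P : Shape) (U : Alg) (t : List Bool) (σ : ℕ) (e : List Ent)
    (F : List Bool → ℝ) : ℝ :=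
  ((P.paths U t σ e).map fun p => p.1 * F p.2).sum

lemma psum_false (t : List Bool) (σ : ℕ) (h : Ent) (e : List Ent) (F : List Bool → ℝ) :
    psum P U (false :: t) σ (h :: e) F =
      if 1 ≤ σ ∧ σ < 2 * P.S then qL U P.J h * psum P U t (σ - 1) e F +
        qR U P.J h * psum P U t (σ + 1) e F +
        (1 - qL U P.J h - qR U P.J h) * psum P U t σ e F else 0 := by
  simp only [psum, Shape.paths]
  split_ifs <;> simp [Function.comp_def, mul_assoc, List.sum_map_mul_left, add_assoc]

lemma psum_add (t : List Bool) (σ : ℕ) (e : List Ent) (F G : List Bool → ℝ) :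
    psum P U t σ e (fun T => F T + G T) = psum P U t σ e F + psum P U t σ e G := by
  simp [psum, mul_add, List.sum_map_add]

lemma psum_smul (t : List Bool) (σ : ℕ) (e : List Ent) (c : ℝ) (F : List Bool → ℝ) :
    psum P U t σ e (fun T => c * F T) = c * psum P U t σ e F := by
  simp [psum, mul_left_comm, List.sum_map_mul_left]

lemma psum_congr {t : List Bool} {σ : ℕ} (hσ : σ ≤ 2 * P.S) {e : List Ent}
    {F G : List Bool → ℝ} (h : ∀ T, T.length = P.core t → F T = G T) :
    psum P U t σ e F = psum P U t σ e G :=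
  congrArg List.sum (List.map_congr_left fun p hp => by
    rw [h _ (length_of_mem_paths t σ e hσ p hp)])

lemma psum_one (t : List Bool) (σ : ℕ) (e : List Ent) :
    psum P U t σ e (fun _ => 1) = P.stay U t σ e := by simp [psum, Shape.stay]

/-- The exponential moment of the shared marks. -/
noncomputable def pairX (P : Shape) (U : Alg) (θ : ℝ) (t : List Bool) (e : List Ent)
    (σ σ' : ℕ) : ℝ :=
  psum P U t σ e fun S => psum P U t σ' e fun T => (1 + θ) ^ common S T

/-- The moment is one plus the hits. -/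
def Kh (P : Shape) (U : Alg) (θ c : ℝ) (t : List Bool) (e : List Ent) : Prop :=
  ∀ σ σ', σ ≤ 2 * P.S → σ' ≤ 2 * P.S → pairX P U θ t e σ σ' ≤
    P.stay U t σ e * P.stay U t σ' e + c * hits U P.J P.l.length t e σ σ'

variable {θ c : ℝ}

lemma kh_false (hU : IsProb U) (hc : 0 ≤ c) (t : List Bool) (h : Ent) (e : List Ent)
    (ih : Kh P U θ c t e) : Kh P U θ c (false :: t) (h :: e) := by
  intro σ σ' hσ hσ'
  have hh := mul_nonneg hc (hits_nonneg (J := P.J) (w := P.l.length) hU (false :: t) (h :: e) σ σ')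
  obtain ⟨a0, -⟩ := qL_mem (J := P.J) hU h
  obtain ⟨b0, -⟩ := qR_mem (J := P.J) hU h
  have r0 : 0 ≤ 1 - qL U P.J h - qR U P.J h := by linarith [stay_coef_nonneg (J := P.J) hU h]
  have hs := (stay_mem (P := P) hU (false :: t) σ (h :: e)).1
  have hs' := (stay_mem (P := P) hU (false :: t) σ' (h :: e)).1
  unfold pairX
  rw [psum_false]
  by_cases hr : 1 ≤ σ ∧ σ < 2 * P.S
  swap
  · rw [if_neg hr]; positivity
  rw [if_pos hr]
  simp only [psum_false]
  by_cases hr' : 1 ≤ σ' ∧ σ' < 2 * P.S
  swap
  · have z : ∀ s, psum P U t s e (fun _ => (0 : ℝ)) = 0 := fun s => by simp [psum]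
    simp only [if_neg hr', z, mul_zero, add_zero]
    positivity
  simp only [if_pos hr', psum_add, psum_smul]
  have H := fun s s' (hs : s ≤ 2 * P.S) (hs' : s' ≤ 2 * P.S) => ih s s' hs hs'
  unfold pairX at H
  rw [stay_false, if_pos hr, stay_false, if_pos hr']
  simp only [hits, mv]
  obtain ⟨s, rfl⟩ : ∃ s, σ = s + 1 := ⟨σ - 1, by omega⟩
  obtain ⟨s', rfl⟩ : ∃ s', σ' = s' + 1 := ⟨σ' - 1, by omega⟩
  simp only [Nat.add_sub_cancel, Nat.cast_add, Nat.cast_one, add_sub_cancel_right]
  have k : ∀ u u', u ≤ 2 * P.S → u' ≤ 2 * P.S → ∀ x : ℝ, 0 ≤ x →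
      x * psum P U t u e (fun S => psum P U t u' e fun T => (1 + θ) ^ common S T) ≤
        x * (P.stay U t u e * P.stay U t u' e + c * hits U P.J P.l.length t e u u') :=
    fun u u' hu hu' x hx => mul_le_mul_of_nonneg_left (H u u' hu hu') hx
  have h11 := k s s' (by omega) (by omega) _ (mul_nonneg a0 a0)
  have h12 := k s (s' + 1 + 1) (by omega) (by omega) _ (mul_nonneg a0 b0)
  have h10 := k s (s' + 1) (by omega) (by omega) _ (mul_nonneg a0 r0)
  have h21 := k (s + 1 + 1) s' (by omega) (by omega) _ (mul_nonneg b0 a0)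
  have h22 := k (s + 1 + 1) (s' + 1 + 1) (by omega) (by omega) _ (mul_nonneg b0 b0)
  have h20 := k (s + 1 + 1) (s' + 1) (by omega) (by omega) _ (mul_nonneg b0 r0)
  have h01 := k (s + 1) s' (by omega) (by omega) _ (mul_nonneg r0 a0)
  have h02 := k (s + 1) (s' + 1 + 1) (by omega) (by omega) _ (mul_nonneg r0 b0)
  have h00 := k (s + 1) (s' + 1) (by omega) (by omega) _ (mul_nonneg r0 r0)
  push_cast at h11 h12 h10 h21 h22 h20 h01 h02 h00
  linarith

lemma kh_gap (hU : IsProb U) (hc : 0 ≤ c) (t : List Bool) :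
    ∀ (m : ℕ) (e : List Ent), m ≤ e.length → Kh P U θ c t (e.drop m) →
      Kh P U θ c (List.replicate m false ++ t) e
  | 0, e, _, h => by simpa using h
  | m + 1, [], hm, _ => by simp at hm
  | m + 1, h :: e, hm, hk =>
      kh_false hU hc _ h e (kh_gap hU hc t m e (by simpa using hm) (by simpa using hk))

lemma kh_true (hU : IsProb U) (hθ : 0 ≤ θ) (hw : 2 * P.l.length * θ ≤ 1) (hc : 0 ≤ c)
    (t : List Bool) (e : List Ent) {M : ℝ} (hM : ∀ z z', hits U P.J P.l.length t e z z' ≤ M)
    (hcM : 4 * P.l.length * θ * (1 + c * M) ≤ c) (ih : Kh P U θ c t e) :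
    Kh P U θ c (true :: t) e := by
  intro σ σ' hσ hσ'
  set w := P.l.length
  set a := near w σ σ'
  have ha : a = 0 ∨ a = 1 := by simp only [a, near]; split_ifs <;> simp
  have hL := unitMask_common (S := P.S) (a := P.a) (b := P.b) (l := P.l) (σ := σ) (σ' := σ')
  have hR := unitMask_common (S := P.S) (a := P.b) (b := P.a) (l := P.l) (σ := σ) (σ' := σ')
  set f := (1 + θ) ^ (common (P.uL σ) (P.uL σ') + common (P.uR σ) (P.uR σ'))
  have hf : f ≤ 1 + 4 * w * θ * a := pow_common_le hθ hw ha (by
    push_cast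
    linarith [show (common (P.uL σ) (P.uL σ') : ℝ) ≤ w * a from hL,
      show (common (P.uR σ) (P.uR σ') : ℝ) ≤ w * a from hR])
  have e1 : pairX P U θ (true :: t) e σ σ' = f * pairX P U θ t e σ σ' := by
    unfold pairX
    rw [← psum_smul]
    simp only [psum, Shape.paths, List.map_map, Function.comp_def]
    refine congrArg List.sum (List.map_congr_left fun p _ => ?_)
    congr 1
    rw [← List.sum_map_mul_left]
    refine congrArg List.sum (List.map_congr_left fun q _ => ?_)
    rw [common_append (by rw [length_uL hσ, length_uL hσ']),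
      common_append (by rw [length_uR hσ, length_uR hσ'])]
    simp only [f, pow_add]
    ring
  rw [e1, stay_true, stay_true]
  simp only [hits]
  have hf0 : 0 ≤ f := by positivity
  obtain ⟨s0, s1⟩ := stay_mem (P := P) hU t σ e
  obtain ⟨s0', s1'⟩ := stay_mem (P := P) hU t σ' e
  set x := P.stay U t σ e * P.stay U t σ' e
  have hx1 : x ≤ 1 := mul_le_one₀ s1 s0' s1'
  set H := hits U P.J w t e σ σ'
  have h0 : 0 ≤ H := hits_nonneg hU ..
  have hA : 0 ≤ 4 * (w : ℝ) * θ * a := by
    rcases ha with h | h <;> rw [h] <;> positivity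
  have hx0 : 0 ≤ x + c * H := by positivity
  have ha0 := near_nonneg w σ σ'
  calc f * pairX P U θ t e σ σ' ≤ f * (x + c * H) :=
        mul_le_mul_of_nonneg_left (ih σ σ' hσ hσ') hf0
    _ ≤ (1 + 4 * w * θ * a) * (x + c * H) := mul_le_mul_of_nonneg_right hf hx0
    _ = x + c * H + 4 * w * θ * a * (x + c * H) := by ring
    _ ≤ x + c * H + 4 * w * θ * a * (1 + c * M) := by
        gcongr
        exact hM ..
    _ ≤ x + c * H + c * a := by nlinarith [mul_le_mul_of_nonneg_left hcM ha0]
    _ = _ := by ring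

lemma kh_nil (hθ : 0 ≤ θ) (hw : 2 * P.l.length * θ ≤ 1) (hc : 4 * P.l.length * θ ≤ c)
    (e : List Ent) : Kh P U θ c [] e := by
  intro σ σ' hσ hσ'
  set w := P.l.length
  set a := near w σ σ'
  have ha0 : 0 ≤ a := near_nonneg ..
  have hcom : (common (P.uC σ) (P.uC σ') : ℝ) ≤ w * a := by
    unfold Shape.uC
    split_ifs
    · exact unitMask_common
    · rw [show common ([] : List Bool) [] = 0 from rfl, Nat.cast_zero]; positivity
  have := pow_common_le hθ hw (c := common (P.uC σ) (P.uC σ'))
    (a := a) (by simp only [a, near]; split_ifs <;> simp)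
    (hcom.trans (by nlinarith [mul_nonneg (Nat.cast_nonneg w : (0 : ℝ) ≤ w) ha0]))
  have h2 := mul_le_mul_of_nonneg_right hc ha0
  simp only [pairX, psum, Shape.paths, Shape.stay, hits, List.map_cons, List.map_nil,
    List.sum_cons, List.sum_nil, one_mul, add_zero]
  linarith

lemma kh_nest (hU : IsProb U) (hθ : 0 ≤ θ) (hw : 2 * P.l.length * θ ≤ 1) {hj n : ℕ}
    (hj0 : 0 < hj) (hc : 0 ≤ c)
    (hcM : 4 * P.l.length * θ *
      (1 + c * (64 * P.l.length * (Real.sqrt n / Real.sqrt hj + 1))) ≤ c) :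
    ∀ (m : ℕ) (e : List Ent), m ≤ n → e.length = m * hj → GoodGaps U P.J hj m e →
      Kh P U θ c (nestList hj m) e
  | 0, e, _, _, _ => kh_nil hθ hw (le_trans (le_mul_of_one_le_right (by positivity)
      (le_add_of_nonneg_right (by positivity))) hcM) e
  | m + 1, e, hm, he, hg => by
      have hlen : hj ≤ e.length := by rw [he]; exact Nat.le_mul_of_pos_left _ (by omega)
      have he' : (e.drop hj).length = m * hj := by rw [List.length_drop, he]; simp [Nat.succ_mul]
      exact kh_gap hU hc _ hj e hlen (kh_true hU hθ hw hc _ _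
        (fun z z' => hits_le hU hj0 (by omega) he' hg.2 z z') hcM
        (kh_nest hU hθ hw hj0 hc hcM m _ (by omega) he' hg.2))

end Ov

open Ov in
/-- **Two paths share few marks.** -/
theorem overlap : OverlapStmt := by
  intro U P hj n e θ hU hj0 hθ he hg hsmall
  set w := P.l.length
  set R := Real.sqrt n / Real.sqrt hj + 1
  have hR1 : (1 : ℝ) ≤ R := le_add_of_nonneg_left (by positivity)
  set θ' := 4 * (w : ℝ) * θ
  set M := 64 * (w : ℝ) * R
  have hM : θ' * M ≤ 1 / 2 := le_of_eq_of_le (by ring) hsmall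
  have hw : 2 * (w : ℝ) * θ ≤ 1 := by
    rcases Nat.eq_zero_or_pos w with h | h
    · rw [h]; simp
    · have h1 : (1 : ℝ) ≤ w := by exact_mod_cast h
      have : 2 * (w : ℝ) * θ * 1 ≤ 256 * θ * (w : ℝ) ^ 2 * R := by
        refine mul_le_mul ?_ hR1 zero_le_one (by positivity)
        nlinarith [mul_le_mul_of_nonneg_left h1 (show 0 ≤ (w : ℝ) * θ by positivity)]
      linarith
  have hθ' : 0 ≤ θ' := by positivity
  have hcM : θ' * (1 + 2 * θ' * M) ≤ 2 * θ' := by
    nlinarith [mul_le_mul_of_nonneg_left hM hθ']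
  have hS : P.S ≤ 2 * P.S := by omega
  have h := kh_nest hU hθ hw hj0 (c := 2 * θ') (by positivity) hcM n e le_rfl he hg
    P.S P.S hS hS
  have hh := mul_le_mul_of_nonneg_left (hits_le (w := w) hU hj0 le_rfl he hg P.S P.S)
    (show 0 ≤ 2 * θ' by positivity)
  have e1 : ((P.paths U (nestList hj n) P.S e).map fun p =>
      ((P.paths U (nestList hj n) P.S e).map fun q =>
        p.1 * q.1 * ((1 + θ) ^ common p.2 q.2 - 1)).sum).sum =
      pairX P U θ (nestList hj n) e P.S P.S -
        P.stay U (nestList hj n) P.S e * P.stay U (nestList hj n) P.S e := by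
    rw [eq_sub_iff_add_eq]
    nth_rewrite 1 [Shape.stay]
    rw [← List.sum_map_mul_right, ← List.sum_map_add]
    simp only [pairX, psum]
    refine congrArg List.sum (List.map_congr_left fun p _ => ?_)
    rw [Shape.stay, ← List.sum_map_mul_left, ← List.sum_map_add, ← List.sum_map_mul_left]
    refine congrArg List.sum (List.map_congr_left fun q _ => ?_)
    ring
  rw [e1]
  calc _ ≤ 2 * θ' * hits U P.J w (nestList hj n) e P.S P.S := by linarith
    _ ≤ 2 * θ' * M := hh
    _ = _ := by ring

end Vale.Agent.P321
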