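import Vale.Agent.P321.AllQ.Drift
import Vale.Agent.P321.AllQ.Overlap

/-!
P321, every deletion probability: the drift bound.
-/

namespace Vale.Agent.P321

/-- Module B: the drift bound, unconditionally. -/
theorem driftStmt_holds : DriftStmt := driftStmt_of_overlap overlap

end Vale.Agent.P321
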