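import Vale.Agent.P321.AllQ.Piece

/-!
P321, every deletion probability: nested windows and their moves.

A layer list describes a symmetric nest from outside in: `false` is a pair of slots, `true` a pair
of windows. A move shifts everything inside it. The paths that keep the shift in range give a
mixture of masks on the window cells, below the true law, and the missing mass is small.
-/

open Finset

namespace Vale.Agent.P321

/-- Parameters of a nest. -/
structure Shape where
  J : ℕ
  S : ℕ
  a : ℕ
  b : ℕ
  l : List Bool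
  centre : Bool

variable (P : Shape)

/-- A window shifted by `σ`. -/
def unitMask (S a b : ℕ) (l : List Bool) (σ : ℕ) : List Bool :=
  List.replicate (a + σ) false ++ l ++ List.replicate (b + (2 * S - σ)) false

/-- The left window. -/
def Shape.uL (σ : ℕ) : List Bool := unitMask P.S P.a P.b P.l σ

/-- The right window. -/
def Shape.uR (σ : ℕ) : List Bool := unitMask P.S P.b P.a P.l σ

/-- The window in the middle. -/
def Shape.uC (σ : ℕ) : List Bool := if P.centre then unitMask P.S P.b P.b P.l σ else []

/-- Cells of a window. -/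
def Shape.uLen : ℕ := P.a + P.b + 2 * P.S + P.l.length

/-- Cells of the middle window. -/
def Shape.cLen : ℕ := if P.centre then P.b + P.b + 2 * P.S + P.l.length else 0

/-- The mask of a nest. -/
def Shape.mask : List Bool → ℕ → List Bool
  | [], σ => P.uC σ
  | true :: t, σ => P.uL σ ++ Shape.mask t σ ++ P.uR σ
  | false :: t, σ =>
      List.replicate (P.J + 2) false ++ Shape.mask t σ ++ List.replicate (P.J + 2) false

/-- Cells of all the windows. -/
def Shape.core : List Bool → ℕ
  | [] => P.cLen
  | true :: t => P.uLen + (P.uLen + Shape.core t)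
  | false :: t => Shape.core t

/-- Number of slot pairs. -/
def nSlot : List Bool → ℕ
  | [] => 0
  | true :: t => nSlot t
  | false :: t => nSlot t + 1

/-- The word made of the slots and the window cells. -/
def Shape.asm : List Bool → List Ent → List (List Bool) → List Bool
  | [], _, c => c.flatten
  | true :: t, e, c => (c.take P.uLen).flatten ++ Shape.asm t e ((c.drop P.uLen).drop P.uLen) ++
      ((c.drop P.uLen).take P.uLen).flatten
  | false :: t, h :: e, c => h.left ++ Shape.asm t e c ++ h.right
  | false :: _, [], _ => []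

/-- The paths that stay in range: weight and mask on the window cells. -/
noncomputable def Shape.paths (U : Alg) : List Bool → ℕ → List Ent → List (ℝ × List Bool)
  | [], σ, _ => [(1, P.uC σ)]
  | true :: t, σ, e => (Shape.paths U t σ e).map fun p => (p.1, P.uL σ ++ (P.uR σ ++ p.2))
  | false :: t, σ, h :: e =>
      if 1 ≤ σ ∧ σ < 2 * P.S then
        (Shape.paths U t (σ - 1) e).map (fun p => (qL U P.J h * p.1, p.2)) ++
        (Shape.paths U t (σ + 1) e).map (fun p => (qR U P.J h * p.1, p.2)) ++
        (Shape.paths U t σ e).map (fun p => ((1 - qL U P.J h - qR U P.J h) * p.1, p.2))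
      else []
  | false :: _, _, [] => []

/-- Probability of staying in range. -/
noncomputable def Shape.stay (U : Alg) (t : List Bool) (σ : ℕ) (e : List Ent) : ℝ :=
  ((P.paths U t σ e).map fun p => p.1).sum

/-- The density on the window cells. -/
noncomputable def Shape.val (U : Alg) (d : List Bool → ℝ) (t : List Bool) (σ : ℕ) (e : List Ent)
    (c : List (List Bool)) : ℝ :=
  ((P.paths U t σ e).map fun p => p.1 * dens d p.2 c).sum

/-- Expectation over slots and window cells. -/
noncomputable def Shape.nestE (U : Alg) (t : List Bool)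
    (F : List Ent → List (List Bool) → ℝ) : ℝ :=
  listE (pE U P.J) (nSlot t) fun e => tupE U (P.core t) (F e)

variable {P}

/-! ### Means commute -/

lemma IsMean.sum {α ι : Type*} {E : (α → ℝ) → ℝ} (hE : IsMean E) (s : Finset ι)
    (f : ι → α → ℝ) : E (fun a => ∑ i ∈ s, f i a) = ∑ i ∈ s, E (f i) := by
  classical
  induction s using Finset.induction_on with
  | empty => simpa using hE.const 0
  | insert i s hi ih => simp [Finset.sum_insert hi, hE.add, ih]

lemma IsMean.comm_ev {α : Type*} {E : (α → ℝ) → ℝ} (hE : IsMean E) (f : Alg)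
    (F : α → List Bool → ℝ) : E (fun a => ev f (F a)) = ev f fun b => E fun a => F a b := by
  simp only [ev, Finsupp.sum, hE.sum, hE.smul]

lemma IsMean.comm_tupE {α : Type*} {E : (α → ℝ) → ℝ} (hE : IsMean E) (U : Alg) :
    ∀ (N : ℕ) (F : α → List (List Bool) → ℝ),
      E (fun a => tupE U N (F a)) = tupE U N fun u => E fun a => F a u
  | 0, _ => rfl
  | N + 1, F => by
      simp only [tupE]
      rw [hE.comm_ev]
      exact congrArg (ev U) (funext fun b => hE.comm_tupE U N fun a u => F a (b :: u))

/-! ### Masks -/

lemma length_unitMask {S σ : ℕ} (h : σ ≤ 2 * S) (a b : ℕ) (l : List Bool) :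
    (unitMask S a b l σ).length = a + b + 2 * S + l.length := by simp [unitMask]; omega

lemma length_uL {σ : ℕ} (h : σ ≤ 2 * P.S) : (P.uL σ).length = P.uLen := length_unitMask h _ _ _

lemma length_uR {σ : ℕ} (h : σ ≤ 2 * P.S) : (P.uR σ).length = P.uLen := by
  rw [Shape.uR, length_unitMask h, Shape.uLen]; omega

lemma length_uC {σ : ℕ} (h : σ ≤ 2 * P.S) : (P.uC σ).length = P.cLen := by
  unfold Shape.uC Shape.cLen
  split_ifs
  · exact length_unitMask h _ _ _
  · rfl

lemma unitMask_shift {S σ : ℕ} (h : σ + 1 ≤ 2 * S) (a b : ℕ) (l : List Bool) :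
    false :: unitMask S a b l σ = unitMask S a b l (σ + 1) ++ [false] := by
  simp only [unitMask, List.append_assoc, ← List.cons_append, ← List.replicate_succ]
  rw [show b + (2 * S - σ) = b + (2 * S - (σ + 1)) + 1 by omega,
    show a + (σ + 1) = a + σ + 1 by omega, ← List.replicate_succ' (n := b + (2 * S - (σ + 1)))]

lemma uC_shift {σ : ℕ} (h : σ + 1 ≤ 2 * P.S) :
    false :: P.uC σ = P.uC (σ + 1) ++ [false] := by
  unfold Shape.uC
  split_ifs
  · exact unitMask_shift h _ _ _
  · rfl

/-- Shifting a window commutes a cell past it. -/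
lemma wd_shift {U V : Alg} {A B : List Bool} (h : false :: A = B ++ [false]) :
    U * wd U V A = wd U V B * U := by
  have e := congrArg (wd U V) h
  simpa [wd_append] using e

lemma mask_shift (U V : Alg) {σ : ℕ} (h : σ + 1 ≤ 2 * P.S) :
    ∀ t, wd U V (P.mask t (σ + 1)) * U = U * wd U V (P.mask t σ)
  | [] => (wd_shift (uC_shift h)).symm
  | true :: t => by
      have hL := wd_shift (U := U) (V := V) (unitMask_shift h P.a P.b P.l)
      have hR := wd_shift (U := U) (V := V) (unitMask_shift h P.b P.a P.l)
      simp only [Shape.mask, wd_append, Shape.uL, Shape.uR, mul_assoc]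
      rw [← hR, ← mul_assoc (wd U V (P.mask t (σ + 1))), mask_shift U V h t, ← mul_assoc,
        ← mul_assoc, ← mul_assoc, ← mul_assoc, hL]
  | false :: t => by
      simp only [Shape.mask, wd_append, wd_replicate]
      set n := P.J + 2
      calc U ^ n * wd U V (P.mask t (σ + 1)) * U ^ n * U
          = U ^ n * (wd U V (P.mask t (σ + 1)) * U) * U ^ n := by
            rw [mul_assoc _ (U ^ n) U, (Commute.pow_self U n).eq]; simp only [mul_assoc]
        _ = U * (U ^ n * wd U V (P.mask t σ) * U ^ n) := by
            rw [mask_shift U V h t, ← mul_assoc (U ^ n), (Commute.pow_self U n).eq]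
            simp only [mul_assoc]

lemma length_of_mem_paths {U : Alg} : ∀ (t : List Bool) (σ : ℕ) (e : List Ent), σ ≤ 2 * P.S →
    ∀ p ∈ P.paths U t σ e, p.2.length = P.core t
  | [], σ, e, h, p, hp => by
      simp only [Shape.paths, List.mem_singleton] at hp
      subst hp; exact length_uC h
  | true :: t, σ, e, h, p, hp => by
      obtain ⟨q, hq, rfl⟩ := List.mem_map.1 hp
      simp [length_uL h, length_uR h, length_of_mem_paths t σ e h q hq, Shape.core]
  | false :: t, σ, [], h, p, hp => by simp [Shape.paths] at hp
  | false :: t, σ, a :: e, h, p, hp => by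
      simp only [Shape.paths] at hp
      split_ifs at hp with hr
      · simp only [List.mem_append, List.mem_map] at hp
        rcases hp with (⟨q, hq, rfl⟩ | ⟨q, hq, rfl⟩) | ⟨q, hq, rfl⟩
        · exact length_of_mem_paths t _ e (by omega) q hq
        · exact length_of_mem_paths t _ e (by omega) q hq
        · exact length_of_mem_paths t _ e h q hq
      · simp at hp

/-! ### The mixture -/

variable {U V : Alg} {η : ℝ}

lemma isMean_nestE (hU : IsProb U) (t : List Bool) :
    IsMean fun F : List Ent × List (List Bool) → ℝ => P.nestE U t fun e c => F (e, c) := by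
  have h1 := isMean_listE (isMean_pE hU P.J) (nSlot t)
  have h2 := isMean_tupE hU (P.core t)
  refine ⟨fun f g => ?_, fun c f => ?_, fun f g h => ?_, ?_⟩
  · simp only [Shape.nestE, h2.add, h1.add]
  · simp only [Shape.nestE, h2.smul, h1.smul]
  · exact h1.mono _ _ fun e => h2.mono _ _ fun c => h _
  · simp only [Shape.nestE, h2.one, h1.one]

lemma sum_map_smul {α : Type*} (l : List α) (c : ℝ) (f : α → ℝ) :
    (l.map fun a => c * f a).sum = c * (l.map f).sum := List.sum_map_mul_left ..

lemma paths_nonneg (hU : IsProb U) : ∀ (t : List Bool) (σ : ℕ) (e : List Ent),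
    ∀ p ∈ P.paths U t σ e, 0 ≤ p.1
  | [], σ, e, p, hp => by
      simp only [Shape.paths, List.mem_singleton] at hp
      subst hp; norm_num
  | true :: t, σ, e, p, hp => by
      obtain ⟨q, hq, rfl⟩ := List.mem_map.1 hp
      exact paths_nonneg hU t σ e q hq
  | false :: t, σ, [], p, hp => by simp [Shape.paths] at hp
  | false :: t, σ, a :: e, p, hp => by
      simp only [Shape.paths] at hp
      split_ifs at hp with hr
      · obtain ⟨h0, h1⟩ := qL_mem (J := P.J) hU a
        obtain ⟨h2, h3⟩ := qR_mem (J := P.J) hU a
        simp only [List.mem_append, List.mem_map] at hp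
        rcases hp with (⟨q, hq, rfl⟩ | ⟨q, hq, rfl⟩) | ⟨q, hq, rfl⟩
        · exact mul_nonneg h0 (paths_nonneg hU t _ e q hq)
        · exact mul_nonneg h2 (paths_nonneg hU t _ e q hq)
        · exact mul_nonneg (by linarith) (paths_nonneg hU t _ e q hq)
      · simp at hp

lemma val_true (U : Alg) (d : List Bool → ℝ) (t : List Bool) {σ : ℕ} (hσ : σ ≤ 2 * P.S)
    (e : List Ent) {cl cr : List (List Bool)} (hl : cl.length = P.uLen) (hr : cr.length = P.uLen)
    (c : List (List Bool)) :
    P.val U d (true :: t) σ e (cl ++ (cr ++ c)) =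
      dens d (P.uL σ) cl * (dens d (P.uR σ) cr * P.val U d t σ e c) := by
  simp only [Shape.val, Shape.paths, List.map_map, ← sum_map_smul]
  refine congrArg List.sum (List.map_congr_left fun p _ => ?_)
  simp only [Function.comp_apply,
    dens_append d (show (P.uL σ).length = cl.length by rw [length_uL hσ, hl]),
    dens_append d (show (P.uR σ).length = cr.length by rw [length_uR hσ, hr])]
  ring

lemma val_false (U : Alg) (d : List Bool → ℝ) (t : List Bool) (σ : ℕ) (h : Ent) (e : List Ent)
    (c : List (List Bool)) :
    P.val U d (false :: t) σ (h :: e) c =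
      if 1 ≤ σ ∧ σ < 2 * P.S then qL U P.J h * P.val U d t (σ - 1) e c +
        qR U P.J h * P.val U d t (σ + 1) e c +
        (1 - qL U P.J h - qR U P.J h) * P.val U d t σ e c else 0 := by
  simp only [Shape.val, Shape.paths]
  split_ifs <;>
    simp [Function.comp_def, mul_assoc, List.sum_map_mul_left, add_assoc]

lemma stay_true (U : Alg) (t : List Bool) (σ : ℕ) (e : List Ent) :
    P.stay U (true :: t) σ e = P.stay U t σ e := by
  simp [Shape.stay, Shape.paths, Function.comp_def]

lemma stay_false (U : Alg) (t : List Bool) (σ : ℕ) (h : Ent) (e : List Ent) :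
    P.stay U (false :: t) σ (h :: e) =
      if 1 ≤ σ ∧ σ < 2 * P.S then qL U P.J h * P.stay U t (σ - 1) e +
        qR U P.J h * P.stay U t (σ + 1) e +
        (1 - qL U P.J h - qR U P.J h) * P.stay U t σ e else 0 := by
  simp only [Shape.stay, Shape.paths]
  split_ifs <;> simp [Function.comp_def, List.sum_map_mul_left, add_assoc]

lemma stay_mem (hU : IsProb U) : ∀ (t : List Bool) (σ : ℕ) (e : List Ent),
    0 ≤ P.stay U t σ e ∧ P.stay U t σ e ≤ 1
  | [], σ, e => by simp [Shape.stay, Shape.paths]
  | true :: t, σ, e => by rw [stay_true]; exact stay_mem hU t σ e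
  | false :: t, σ, [] => by simp [Shape.stay, Shape.paths]
  | false :: t, σ, a :: e => by
      rw [stay_false]
      split_ifs with hr
      · obtain ⟨h0, h1⟩ := qL_mem (J := P.J) hU a
        obtain ⟨h2, h3⟩ := qR_mem (J := P.J) hU a
        obtain ⟨a0, a1⟩ := stay_mem hU t (σ - 1) e
        obtain ⟨b0, b1⟩ := stay_mem hU t (σ + 1) e
        obtain ⟨c0, c1⟩ := stay_mem hU t σ e
        constructor
        · have := mul_nonneg (sub_nonneg.2 (show qR U P.J a ≤ 1 - qL U P.J a by linarith)) c0
          positivity
        · nlinarith [mul_le_mul_of_nonneg_left a1 h0, mul_le_mul_of_nonneg_left b1 h2,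
            mul_le_mul_of_nonneg_left c1 (show 0 ≤ 1 - qL U P.J a - qR U P.J a by linarith)]
      · simp

/-- Given the slots, the mixture has mass `stay`. -/
lemma tupE_val (hU : IsProb U) (hV : IsProb V) (hle : Le1 (V - U) (η • U)) (t : List Bool)
    {σ : ℕ} (hσ : σ ≤ 2 * P.S) (e : List Ent) :
    tupE U (P.core t) (P.val U (ratioD U V) t σ e) = P.stay U t σ e := by
  have hm := isMean_tupE hU (P.core t)
  have key : ∀ L : List (ℝ × List Bool), (∀ p ∈ L, p.2.length = P.core t) →
      tupE U (P.core t) (fun c => (L.map fun p => p.1 * dens (ratioD U V) p.2 c).sum) =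
        (L.map fun p => p.1).sum := by
    intro L
    induction L with
    | nil => intro _; simpa using hm.const 0
    | cons p L ih =>
      intro hL
      simp only [List.map_cons, List.sum_cons, hm.add, hm.smul,
        ih fun q hq => hL q (List.mem_cons_of_mem _ hq)]
      rw [← hL p (by simp), tupE_dens hU hV hle, mul_one]
  exact key _ (length_of_mem_paths t σ e hσ)

lemma nestE_true (hU : IsProb U) (t : List Bool) (F : List Ent → List (List Bool) → ℝ) :
    P.nestE U (true :: t) F = tupE U P.uLen fun cl => tupE U P.uLen fun cr =>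
      P.nestE U t fun e c => F e (cl ++ (cr ++ c)) := by
  have hl := isMean_listE (isMean_pE hU P.J) (nSlot t)
  simp only [Shape.nestE, nSlot, Shape.core, tupE_add]
  rw [hl.comm_tupE]
  exact congrArg (tupE U P.uLen) (funext fun cl => hl.comm_tupE U _ _)

lemma nestE_false (t : List Bool) (F : List Ent → List (List Bool) → ℝ) :
    P.nestE U (false :: t) F = pE U P.J fun h => P.nestE U t fun e c => F (h :: e) c := rfl

/-- **Below the true law.** -/
theorem nest_le (hU : IsProb U) (hle : Le1 (V - U) (η • U)) (hd : ∀ a, -1 ≤ ratioD U V a)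
    (hη : IsProb V) : ∀ (t : List Bool) (σ : ℕ), σ ≤ 2 * P.S →
    ∀ φ : List Bool → ℝ, (∀ w, 0 ≤ φ w) →
      P.nestE U t (fun e c => P.val U (ratioD U V) t σ e c * φ (P.asm t e c)) ≤
        ev (wd U V (P.mask t σ)) φ
  | [], σ, hσ, φ, _ => by
      rw [ev_wd hU hle]
      simp [Shape.nestE, nSlot, listE, Shape.core, Shape.val, Shape.paths, Shape.asm, Shape.mask,
        length_uC hσ]
  | true :: t, σ, hσ, φ, hφ => by
      rw [nestE_true hU, Shape.mask, wd_append, wd_append, ev_mul, ev_mul,
        ev_wd hU hle, length_uL hσ]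
      simp only [tupE_eq]
      refine listE_mono (isMean_ev hU) fun cl hcl => ?_
      simp only [← tupE_eq]
      rw [ev_comm (wd U V (P.mask t σ)), ev_wd hU hle (P.uR σ), length_uR hσ,
        ← (isMean_tupE hU P.uLen).smul]
      simp only [tupE_eq]
      refine listE_mono (isMean_ev hU) fun cr hcr => ?_
      have ih := nest_le hU hle hd hη t σ hσ (fun m => φ (cl.flatten ++ m ++ cr.flatten))
        fun w => hφ _
      refine le_trans (le_of_eq ?_) (mul_le_mul_of_nonneg_left
        (mul_le_mul_of_nonneg_left ih (dens_nonneg hd _ _)) (dens_nonneg hd (P.uL σ) cl))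
      unfold Shape.nestE
      rw [← (isMean_listE (isMean_pE hU P.J) _).smul, ← (isMean_listE (isMean_pE hU P.J) _).smul]
      refine congrArg (listE (pE U P.J) (nSlot t)) (funext fun e => ?_)
      rw [← (isMean_tupE hU _).smul, ← (isMean_tupE hU _).smul]
      refine congrArg (tupE U (P.core t)) (funext fun c => ?_)
      dsimp only
      rw [val_true U _ t hσ e hcl hcr, Shape.asm, List.take_left' hcl, List.drop_left' hcl,
        List.take_left' hcr, List.drop_left' hcr]
      simp only [List.append_assoc]
      ring
  | false :: t, σ, hσ, φ, hφ => by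
      rw [nestE_false]
      simp only [val_false, Shape.asm]
      by_cases hr : 1 ≤ σ ∧ σ < 2 * P.S
      · simp only [if_pos hr]
        obtain ⟨s, rfl⟩ : ∃ s, σ = s + 1 := ⟨σ - 1, by omega⟩
        have h1 := mask_shift U V (show s + 1 ≤ 2 * P.S by omega) t
        have h2 := mask_shift U V (show s + 1 + 1 ≤ 2 * P.S by omega) t
        rw [Shape.mask, wd_append, wd_append, wd_replicate, ← piece_move hU P.J h1 h2 φ,
          Nat.add_sub_cancel]
        refine (isMean_pE hU P.J).mono _ _ fun h => ?_
        obtain ⟨a0, a1⟩ := qL_mem (J := P.J) hU h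
        obtain ⟨b0, b1⟩ := qR_mem (J := P.J) hU h
        have hl := isMean_listE (isMean_pE hU P.J) (nSlot t)
        have hc := isMean_tupE hU (P.core t)
        simp only [add_mul, mul_assoc, Shape.nestE, hl.add, hl.smul, hc.add, hc.smul]
        refine add_le_add (add_le_add ?_ ?_) ?_
        · exact mul_le_mul_of_nonneg_left (nest_le hU hle hd hη t s (by omega)
            (fun m => φ (h.left ++ m ++ h.right)) fun w => hφ _) a0
        · exact mul_le_mul_of_nonneg_left (nest_le hU hle hd hη t (s + 1 + 1) (by omega)
            (fun m => φ (h.left ++ m ++ h.right)) fun w => hφ _) b0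
        · exact mul_le_mul_of_nonneg_left (nest_le hU hle hd hη t (s + 1) (by omega)
            (fun m => φ (h.left ++ m ++ h.right)) fun w => hφ _) (by linarith)
      · simp only [if_neg hr, zero_mul]
        rw [(isMean_pE hU P.J).congr (g := fun _ => (0 : ℝ))
          (fun h => (isMean_nestE (P := P) hU t).const 0), (isMean_pE hU P.J).const]
        exact ev_nonneg (isProb_wd hU hη _).pos hφ

/-- The mass that leaves the range. -/
theorem stay_ge (hU : IsProb U) {μ : ℝ} (hμ : 0 ≤ μ) : ∀ (t : List Bool) (σ : ℕ), σ ≤ 2 * P.S →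
    1 - listE (pE U P.J) (nSlot t) (P.stay U t σ) ≤
      Real.cosh (μ * ((σ : ℝ) - P.S)) / Real.cosh (μ * P.S) * Real.cosh μ ^ nSlot t
  | [], σ, _ => by
      simp only [listE, nSlot, Shape.stay, Shape.paths, List.map_cons, List.map_nil,
        List.sum_cons, List.sum_nil, add_zero, sub_self]
      positivity
  | true :: t, σ, hσ => by
      simp only [nSlot]
      rw [funext (stay_true (P := P) U t σ)]
      exact stay_ge hU hμ t σ hσ
  | false :: t, σ, hσ => by
      have hp := isMean_pE hU P.J
      have hl := isMean_listE hp (nSlot t)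
      set B : ℝ → ℝ := fun z => Real.cosh (μ * z) / Real.cosh (μ * P.S) * Real.cosh μ ^ nSlot t
      have hC := Real.one_le_cosh μ
      simp only [nSlot, listE, stay_false]
      by_cases hr : 1 ≤ σ ∧ σ < 2 * P.S
      · simp only [if_pos hr, hl.add, hl.smul]
        obtain ⟨s, rfl⟩ : ∃ s, σ = s + 1 := ⟨σ - 1, by omega⟩
        rw [Nat.add_sub_cancel]
        set x0 := listE (pE U P.J) (nSlot t) (P.stay U t s)
        set x1 := listE (pE U P.J) (nSlot t) (P.stay U t (s + 1))
        set x2 := listE (pE U P.J) (nSlot t) (P.stay U t (s + 1 + 1))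
        have i0 : 1 - x0 ≤ B ((s : ℝ) - P.S) := stay_ge hU hμ t s (by omega)
        have i1 : 1 - x1 ≤ B (((s + 1 : ℕ) : ℝ) - P.S) := stay_ge hU hμ t (s + 1) (by omega)
        have i2 : 1 - x2 ≤ B (((s + 1 + 1 : ℕ) : ℝ) - P.S) :=
          stay_ge hU hμ t (s + 1 + 1) (by omega)
        rw [hp.add, hp.add, hp.mul_right, hp.mul_right, hp.mul_right, hp.sub, hp.sub, hp.const,
          pE_qL hU, pE_qR hU]
        push_cast at i1 i2 ⊢
        set z := (s : ℝ) + 1 - P.S
        rw [show (s : ℝ) - P.S = z - 1 by simp only [z]; ring] at i0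
        rw [show (s : ℝ) + 1 + 1 - P.S = z + 1 by simp only [z]; ring] at i2
        have hsum : B (z - 1) + B (z + 1) = 2 * Real.cosh μ * B z := by
          simp only [B, mul_add, mul_sub, mul_one, Real.cosh_add, Real.cosh_sub]
          ring
        have hl0 : 0 ≤ lam U P.J := by
          have := hp.nonneg fun h => (qL_mem (J := P.J) hU h).1
          rw [pE_qL hU] at this; linarith
        have hl1 := lam_le hU P.J
        have hB : 0 ≤ B z := by positivity
        rw [show Real.cosh (μ * z) / Real.cosh (μ * P.S) * Real.cosh μ ^ (nSlot t + 1) =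
          Real.cosh μ * B z by simp only [B]; rw [pow_succ]; ring]
        nlinarith [mul_le_mul_of_nonneg_left i0 hl0, mul_le_mul_of_nonneg_left i2 hl0,
          mul_le_mul_of_nonneg_left i1 (show 0 ≤ 1 - lam U P.J / 2 by linarith),
          mul_nonneg (mul_nonneg (sub_nonneg.2 hC) hB) (show 0 ≤ 1 - lam U P.J / 2 by linarith)]
      · simp only [if_neg hr]
        rw [hp.congr (g := fun _ => (0 : ℝ)) (fun _ => hl.const 0), hp.const, sub_zero]
        have hz : μ * ((σ : ℝ) - P.S) = μ * P.S ∨ μ * ((σ : ℝ) - P.S) = -(μ * P.S) := by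
          rcases Nat.eq_zero_or_pos σ with h0 | h0
          · right; subst h0; simp
          · left
            rw [show σ = 2 * P.S by omega]; push_cast; ring
        have : Real.cosh (μ * ((σ : ℝ) - P.S)) = Real.cosh (μ * P.S) := by
          rcases hz with h | h <;> rw [h]
          exact Real.cosh_neg _
        rw [this, div_self (Real.cosh_pos _).ne', one_mul]
        exact one_le_pow₀ hC

/-- `n` pairs of windows, each preceded by `hj` pairs of slots. -/
def nestList (hj : ℕ) : ℕ → List Bool
  | 0 => []
  | n + 1 => List.replicate hj false ++ true :: nestList hj n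

/-- In every gap at least one slot pair in sixteen moves with probability `1/16`. -/
def GoodGaps (U : Alg) (J hj : ℕ) : ℕ → List Ent → Prop
  | 0, _ => True
  | n + 1, e => hj ≤ 16 * ((e.take hj).map (goodEnt U J)).sum ∧ GoodGaps U J hj n (e.drop hj)

end Vale.Agent.P321
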