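import Vale.Agent.P321.AllQ.Nest

/-!
P321, every deletion probability: shared marks of two paths.
-/

namespace Vale.Agent.P321

/-- Two paths share few marks: the exponential moment is close to one. -/
def OverlapStmt : Prop :=
  ∀ (U : Alg) (P : Shape) (hj n : ℕ) (e : List Ent) (θ : ℝ), IsProb U → 0 < hj → 0 ≤ θ →
    e.length = n * hj → GoodGaps U P.J hj n e →
    256 * θ * (P.l.length : ℝ) ^ 2 * (Real.sqrt n / Real.sqrt hj + 1) ≤ 1 / 2 →
    ((P.paths U (nestList hj n) P.S e).map fun p =>
      ((P.paths U (nestList hj n) P.S e).map fun q =>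
        p.1 * q.1 * ((1 + θ) ^ common p.2 q.2 - 1)).sum).sum ≤
      512 * θ * (P.l.length : ℝ) ^ 2 * (Real.sqrt n / Real.sqrt hj + 1)

end Vale.Agent.P321
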