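import Vale.Agent.P321.AllQ.Tup

/-!
P321, every deletion probability: one move of a block between two slots.

A slot holds `J + 2` cells. Reading the left slot as `J + 1` or as `J + 2` cells moves everything
between the two slots by one cell; the two readings are mixed through their common part, which
leaves the law unchanged.
-/

open Finset

namespace Vale.Agent.P321

/-- The content of a pair of slots. -/
structure Ent where
  a : List Bool
  x : List Bool
  y : List Bool
  c : List Bool
  b : List Bool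

/-- Expectation over the content of a pair of slots. -/
noncomputable def pE (U : Alg) (J : ℕ) (F : Ent → ℝ) : ℝ :=
  ev (U ^ (J + 1)) fun a => ev U fun x => ev U fun y => ev U fun c => ev (U ^ J) fun b =>
    F ⟨a, x, y, c, b⟩

/-- The two readings' common part at a pair of words. -/
noncomputable def both (U : Alg) (J : ℕ) (a b : List Bool) : ℝ :=
  min ((U ^ (J + 1)).coeff (FreeMonoid.ofList a) * (U ^ (J + 1)).coeff (FreeMonoid.ofList b))
    ((U ^ (J + 2)).coeff (FreeMonoid.ofList a) * (U ^ J).coeff (FreeMonoid.ofList b))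

/-- Share of the even reading that can move. -/
noncomputable def accA (U : Alg) (J : ℕ) (a b : List Bool) : ℝ :=
  both U J a b /
    ((U ^ (J + 1)).coeff (FreeMonoid.ofList a) * (U ^ (J + 1)).coeff (FreeMonoid.ofList b))

/-- Share of the uneven reading that can move. -/
noncomputable def accB (U : Alg) (J : ℕ) (a b : List Bool) : ℝ :=
  both U J a b /
    ((U ^ (J + 2)).coeff (FreeMonoid.ofList a) * (U ^ J).coeff (FreeMonoid.ofList b))

/-- Probability of a move to the left. -/
noncomputable def qL (U : Alg) (J : ℕ) (h : Ent) : ℝ := 1 / 4 * accA U J h.a (h.c ++ h.b)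

/-- Probability of a move to the right. -/
noncomputable def qR (U : Alg) (J : ℕ) (h : Ent) : ℝ := 1 / 4 * accB U J (h.a ++ h.x) h.b

/-- The word in the left slot. -/
def Ent.left (h : Ent) : List Bool := h.a ++ h.x

/-- The word in the right slot. -/
def Ent.right (h : Ent) : List Bool := h.y ++ h.c ++ h.b

variable {U : Alg} {J : ℕ}

lemma both_nonneg (hU : IsProb U) (a b : List Bool) : 0 ≤ both U J a b :=
  le_min (mul_nonneg ((hU.pow _).pos _) ((hU.pow _).pos _))
    (mul_nonneg ((hU.pow _).pos _) ((hU.pow _).pos _))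

lemma accA_mem (hU : IsProb U) (a b : List Bool) : 0 ≤ accA U J a b ∧ accA U J a b ≤ 1 :=
  ⟨div_nonneg (both_nonneg hU a b) (mul_nonneg ((hU.pow _).pos _) ((hU.pow _).pos _)),
    div_le_one_of_le₀ (min_le_left _ _) (mul_nonneg ((hU.pow _).pos _) ((hU.pow _).pos _))⟩

lemma accB_mem (hU : IsProb U) (a b : List Bool) : 0 ≤ accB U J a b ∧ accB U J a b ≤ 1 :=
  ⟨div_nonneg (both_nonneg hU a b) (mul_nonneg ((hU.pow _).pos _) ((hU.pow _).pos _)),
    div_le_one_of_le₀ (min_le_right _ _) (mul_nonneg ((hU.pow _).pos _) ((hU.pow _).pos _))⟩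

lemma qL_mem (hU : IsProb U) (h : Ent) : 0 ≤ qL U J h ∧ qL U J h ≤ 1 / 4 := by
  obtain ⟨h0, h1⟩ := accA_mem (J := J) hU h.a (h.c ++ h.b)
  unfold qL; constructor <;> linarith

lemma qR_mem (hU : IsProb U) (h : Ent) : 0 ≤ qR U J h ∧ qR U J h ≤ 1 / 4 := by
  obtain ⟨h0, h1⟩ := accB_mem (J := J) hU (h.a ++ h.x) h.b
  unfold qR; constructor <;> linarith

lemma isMean_pE (hU : IsProb U) (J : ℕ) : IsMean (pE U J) := by
  have h1 := isMean_ev (hU.pow (J + 1))
  have h2 := isMean_ev hU
  have h3 := isMean_ev (hU.pow J)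
  refine ⟨fun f g => ?_, fun c f => ?_, fun f g h => ?_, ?_⟩
  · simp only [pE, h3.add, h2.add, h1.add]
  · simp only [pE, h3.smul, h2.smul, h1.smul]
  · exact h1.mono _ _ fun _ => h2.mono _ _ fun _ => h2.mono _ _ fun _ => h2.mono _ _ fun _ =>
      h3.mono _ _ fun _ => h _
  · simp only [pE, h3.one, h2.one, h1.one]

/-- The two readings agree on the part that moves. -/
lemma acc_swap (hU : IsProb U) (J : ℕ) (Ψ : List Bool → List Bool → ℝ) :
    (ev (U ^ (J + 1)) fun a => ev (U ^ (J + 1)) fun b => accA U J a b * Ψ a b) =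
      ev (U ^ (J + 2)) fun a => ev (U ^ J) fun b => accB U J a b * Ψ a b := by
  classical
  set A := U ^ (J + 1)
  set A' := U ^ (J + 2)
  set B' := U ^ J
  set s := A.coeff.support ∪ A'.coeff.support
  set t := A.coeff.support ∪ B'.coeff.support
  have e1 : ∀ F : List Bool → ℝ, ev A F = ∑ w ∈ s, A.coeff w * F w.toList := fun F =>
    Finsupp.sum_of_support_subset _ subset_union_left _ (by simp)
  have e2 : ∀ F : List Bool → ℝ, ev A F = ∑ w ∈ t, A.coeff w * F w.toList := fun F =>
    Finsupp.sum_of_support_subset _ subset_union_left _ (by simp)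
  have e3 : ∀ F : List Bool → ℝ, ev A' F = ∑ w ∈ s, A'.coeff w * F w.toList := fun F =>
    Finsupp.sum_of_support_subset _ subset_union_right _ (by simp)
  have e4 : ∀ F : List Bool → ℝ, ev B' F = ∑ w ∈ t, B'.coeff w * F w.toList := fun F =>
    Finsupp.sum_of_support_subset _ subset_union_right _ (by simp)
  rw [e1, e3]
  refine Finset.sum_congr rfl fun v _ => ?_
  rw [e2, e4, Finset.mul_sum, Finset.mul_sum]
  refine Finset.sum_congr rfl fun w _ => ?_
  have key : A.coeff v * A.coeff w * accA U J v.toList w.toList =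
      A'.coeff v * B'.coeff w * accB U J v.toList w.toList := by
    simp only [accA, accB, both, FreeMonoid.ofList_toList, A, A', B']
    have a0 := mul_nonneg ((hU.pow (J + 1)).pos v) ((hU.pow (J + 1)).pos w)
    have b0 := mul_nonneg ((hU.pow (J + 2)).pos v) ((hU.pow J).pos w)
    rcases a0.eq_or_lt with ha | ha
    · rw [← ha, min_eq_left b0, zero_mul, zero_div, mul_zero]
    rcases b0.eq_or_lt with hb | hb
    · rw [← hb, min_eq_right a0, zero_mul, zero_div, mul_zero]
    rw [mul_div_cancel₀ _ ha.ne', mul_div_cancel₀ _ hb.ne']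
  calc A.coeff v * (A.coeff w * (accA U J v.toList w.toList * Ψ v.toList w.toList))
      = A.coeff v * A.coeff w * accA U J v.toList w.toList * Ψ v.toList w.toList := by ring
    _ = A'.coeff v * B'.coeff w * accB U J v.toList w.toList * Ψ v.toList w.toList := by rw [key]
    _ = _ := by ring

/-- A statistic that sees the two slots in the even reading. -/
lemma pE_even (hU : IsProb U) (J : ℕ) (f : List Bool → List Bool → ℝ) (N : Alg)
    (φ : List Bool → ℝ) :
    pE U J (fun h => f h.a (h.c ++ h.b) * ev N fun m => φ (h.left ++ m ++ h.right)) =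
      ev (U ^ (J + 1)) fun a => ev (U ^ (J + 1)) fun b =>
        f a b * ev (U * N * U) fun m => φ (a ++ m ++ b) := by
  have hb := fun (F : List Bool → ℝ) => show ev (U ^ (J + 1)) F =
      ev U fun c => ev (U ^ J) fun b => F (c ++ b) by rw [pow_succ', ev_mul]
  refine congrArg (ev (U ^ (J + 1))) (funext fun a => ?_)
  rw [hb]
  simp only [Ent.left, Ent.right]
  calc (ev U fun x => ev U fun y => ev U fun c => ev (U ^ J) fun b =>
        f a (c ++ b) * ev N fun m => φ (a ++ x ++ m ++ (y ++ c ++ b)))
      = ev U fun c => ev U fun x => ev U fun y => ev (U ^ J) fun b =>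
        f a (c ++ b) * ev N fun m => φ (a ++ x ++ m ++ (y ++ c ++ b)) := by
        simp only [ev_comm U U (fun y c => ev (U ^ J) fun b =>
          f a (c ++ b) * ev N fun m => φ (a ++ _ ++ m ++ (y ++ c ++ b)))]
        rw [ev_comm U U]
    _ = _ := by
      refine congrArg (ev U) (funext fun c => ?_)
      simp only [ev_comm U (U ^ J)]
      refine congrArg (ev (U ^ J)) (funext fun b => ?_)
      simp only [(isMean_ev hU).smul, mul_assoc U N U, ev_mul, List.append_assoc]
      congr 1
      refine congrArg (ev U) (funext fun x => ?_)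
      rw [ev_comm U N]

/-- A statistic that sees the two slots in the uneven reading. -/
lemma pE_odd (hU : IsProb U) (J : ℕ) (f : List Bool → List Bool → ℝ) (N : Alg)
    (φ : List Bool → ℝ) :
    pE U J (fun h => f (h.a ++ h.x) h.b * ev N fun m => φ (h.left ++ m ++ h.right)) =
      ev (U ^ (J + 2)) fun a => ev (U ^ J) fun b =>
        f a b * ev (N * U * U) fun m => φ (a ++ m ++ b) := by
  rw [pow_succ U (J + 1), ev_mul]
  refine congrArg (ev (U ^ (J + 1))) (funext fun a => congrArg (ev U) (funext fun x => ?_))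
  simp only [Ent.left, Ent.right]
  simp only [ev_comm U (U ^ J)]
  refine congrArg (ev (U ^ J)) (funext fun b => ?_)
  simp only [(isMean_ev hU).smul]
  rw [mul_assoc N U U, ev_mul]
  congr 1
  simp only [ev_mul, List.append_assoc]
  rw [ev_comm N U]
  refine congrArg (ev U) (funext fun y => ?_)
  rw [ev_comm N U]

/-- The law of the content of two slots around `N`. -/
lemma pE_plain (hU : IsProb U) (J : ℕ) (N : Alg) (φ : List Bool → ℝ) :
    pE U J (fun h => ev N fun m => φ (h.left ++ m ++ h.right)) =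
      ev (U ^ (J + 2) * N * U ^ (J + 2)) φ := by
  have h := pE_even hU J (fun _ _ => 1) N φ
  simp only [one_mul] at h
  rw [h, show U ^ (J + 2) * N * U ^ (J + 2) = U ^ (J + 1) * ((U * N * U) * U ^ (J + 1)) by
    rw [show U ^ (J + 2) = U ^ (J + 1) * U from pow_succ U (J + 1)]
    nth_rewrite 2 [show U ^ (J + 1) * U = U * U ^ (J + 1) from (pow_succ U (J + 1)).symm.trans
      (pow_succ' U (J + 1))]
    simp only [mul_assoc], ev_mul]
  refine congrArg (ev (U ^ (J + 1))) (funext fun a => ?_)
  rw [ev_mul, ev_comm]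
  simp only [List.append_assoc]

/-- **One move.** -/
theorem piece_move (hU : IsProb U) (J : ℕ) {M₀ M₁ M₂ : Alg} (h₁ : M₁ * U = U * M₀)
    (h₂ : M₂ * U = U * M₁) (φ : List Bool → ℝ) :
    pE U J (fun h => qL U J h * ev M₀ (fun m => φ (h.left ++ m ++ h.right)) +
      qR U J h * ev M₂ (fun m => φ (h.left ++ m ++ h.right)) +
      (1 - qL U J h - qR U J h) * ev M₁ (fun m => φ (h.left ++ m ++ h.right))) =
      ev (U ^ (J + 2) * M₁ * U ^ (J + 2)) φ := by
  have hm := isMean_pE hU J
  have el := fun N => pE_even hU J (fun a b => 1 / 4 * accA U J a b) N φ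
  have er := fun N => pE_odd hU J (fun a b => 1 / 4 * accB U J a b) N φ
  have sw := fun N : Alg => acc_swap hU J fun a b => 1 / 4 * ev N fun m => φ (a ++ m ++ b)
  have e1 : pE U J (fun h => qL U J h * ev M₀ fun m => φ (h.left ++ m ++ h.right)) =
      pE U J (fun h => qR U J h * ev M₁ fun m => φ (h.left ++ m ++ h.right)) := by
    simp only [qL, qR, el, er]
    rw [← h₁]
    simpa [mul_left_comm, mul_assoc] using sw (M₁ * (U * U))
  have e2 : pE U J (fun h => qR U J h * ev M₂ fun m => φ (h.left ++ m ++ h.right)) =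
      pE U J (fun h => qL U J h * ev M₁ fun m => φ (h.left ++ m ++ h.right)) := by
    simp only [qL, qR, el, er]
    rw [← h₂]
    simpa [mul_left_comm, mul_assoc] using (sw (M₂ * (U * U))).symm
  rw [hm.add, hm.add, hm.congr (fun h => sub_mul (1 - qL U J h) (qR U J h) _), hm.sub,
    hm.congr (fun h => sub_mul 1 (qL U J h) _), hm.sub, e1, e2, ← pE_plain hU J M₁ φ]
  simp only [one_mul]
  ring

/-- Probability of a possible move. -/
noncomputable def lam (U : Alg) (J : ℕ) : ℝ :=
  ev (U ^ (J + 1)) fun a => ev (U ^ (J + 1)) fun b => accA U J a b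

lemma pE_qL (hU : IsProb U) (J : ℕ) : pE U J (qL U J) = 1 / 4 * lam U J := by
  have h := pE_even hU J (fun a b => 1 / 4 * accA U J a b) 1 fun _ => 1
  have h1 := isMean_ev (hU.pow (J + 1))
  simp only [ev_one, mul_one] at h
  rw [show pE U J (qL U J) = _ from h]
  simp only [mul_one, ev_const, (hU.mul hU).mass_one, h1.smul, lam]

lemma pE_qR (hU : IsProb U) (J : ℕ) : pE U J (qR U J) = 1 / 4 * lam U J := by
  have h := pE_odd hU J (fun a b => 1 / 4 * accB U J a b) 1 fun _ => 1
  simp only [ev_one, mul_one] at h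
  rw [show pE U J (qR U J) = _ from h]
  have h1 := isMean_ev (hU.pow (J + 1))
  have h2 := isMean_ev (hU.pow J)
  have h3 := isMean_ev (hU.pow (J + 2))
  have sw := acc_swap hU J fun _ _ => (1 : ℝ)
  simp only [mul_one] at sw
  simp only [one_mul, ev_const, (hU.mul hU).mass_one, mul_one, h2.smul, h3.smul, ← sw, lam]

/-- Two consecutive powers overlap, so a move is possible half of the time. -/
lemma lam_ge (hU : IsProb U) {B : ℕ} (hB : nrm (U ^ (B + 1) - U ^ B) ≤ 1)
    (hJ : 64 * (B + 1) ≤ J + 1) : 9 / 20 ≤ lam U J := by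
  classical
  set A := U ^ (J + 1)
  set A' := U ^ (J + 2)
  set B' := U ^ J
  set s := A.coeff.support ∪ A'.coeff.support
  set t := A.coeff.support ∪ B'.coeff.support
  have hA : IsProb A := hU.pow _
  have hA' : IsProb A' := hU.pow _
  have hB' : IsProb B' := hU.pow _
  have m1 : ∑ v ∈ s, A.coeff v = 1 := (mass_eq_sum subset_union_left).symm.trans hA.mass_one
  have m2 : ∑ v ∈ s, A'.coeff v = 1 := (mass_eq_sum subset_union_right).symm.trans hA'.mass_one
  have m3 : ∑ v ∈ t, A.coeff v = 1 := (mass_eq_sum subset_union_left).symm.trans hA.mass_one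
  have m4 : ∑ v ∈ t, B'.coeff v = 1 := (mass_eq_sum subset_union_right).symm.trans hB'.mass_one
  have hl : lam U J = ∑ v ∈ s, ∑ w ∈ t, min (A.coeff v * A.coeff w) (A'.coeff v * B'.coeff w) := by
    rw [lam, ev, Finsupp.sum_of_support_subset _ subset_union_left _ (by simp)]
    refine Finset.sum_congr rfl fun v _ => ?_
    rw [ev, Finsupp.sum_of_support_subset (s := t) _ subset_union_left _ (by simp),
      Finset.mul_sum]
    refine Finset.sum_congr rfl fun w _ => ?_
    simp only [accA, both, FreeMonoid.ofList_toList]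
    rcases (mul_nonneg (hA.pos v) (hA.pos w)).eq_or_lt with h0 | h0
    · rw [← h0, min_eq_left (mul_nonneg (hA'.pos v) (hB'.pos w))]; simp
    · rw [← mul_assoc, mul_div_cancel₀ _ h0.ne']
  have d1 : ∑ v ∈ s, |A.coeff v - A'.coeff v| = nrm (A - A') := by
    rw [nrm_eq_sum (f := A - A') (s := s)]
    · simp
    · rw [MonoidAlgebra.coeff_sub]; exact Finsupp.support_sub
  have d2 : ∑ w ∈ t, |A.coeff w - B'.coeff w| = nrm (A - B') := by
    rw [nrm_eq_sum (f := A - B') (s := t)]
    · simp
    · rw [MonoidAlgebra.coeff_sub]; exact Finsupp.support_sub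
  have hsm : ∀ j, 63 * (B + 1) ≤ j → nrm (U ^ j * (1 - U)) ≤ 11 / 20 := fun j hj => by
    refine (smooth_of_overlap hU B hB j (by omega)).trans ?_
    rw [div_le_iff₀ (Real.sqrt_pos.2 (by exact_mod_cast (by omega : 0 < j)))]
    refine le_of_pow_le_pow_left₀ two_ne_zero (by positivity) ?_
    rw [mul_pow, mul_pow, Real.sq_sqrt (by positivity), Real.sq_sqrt (Nat.cast_nonneg _)]
    have : (63 : ℝ) * (B + 1) ≤ j := by exact_mod_cast hj
    linarith
  have e1 : nrm (A - A') ≤ 11 / 20 := by
    have := hsm (J + 1) (by omega)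
    rwa [mul_sub, mul_one, ← pow_succ] at this
  have e2 : nrm (A - B') ≤ 11 / 20 := by
    have := hsm J (by omega)
    rw [mul_sub, mul_one, ← pow_succ] at this
    rwa [nrm_sub_comm]
  have hpt : ∀ v w, A.coeff v * A.coeff w + A'.coeff v * B'.coeff w ≤
      2 * min (A.coeff v * A.coeff w) (A'.coeff v * B'.coeff w) +
        (|A.coeff v - A'.coeff v| * A.coeff w + A'.coeff v * |A.coeff w - B'.coeff w|) := by
    intro v w
    have a1 := mul_le_mul_of_nonneg_right (le_abs_self (A.coeff v - A'.coeff v)) (hA.pos w)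
    have a2 := mul_le_mul_of_nonneg_left (le_abs_self (A.coeff w - B'.coeff w)) (hA'.pos v)
    have b1 := mul_le_mul_of_nonneg_right (neg_le_abs (A.coeff v - A'.coeff v)) (hA.pos w)
    have b2 := mul_le_mul_of_nonneg_left (neg_le_abs (A.coeff w - B'.coeff w)) (hA'.pos v)
    rcases le_total (A.coeff v * A.coeff w) (A'.coeff v * B'.coeff w) with h | h
    · rw [min_eq_left h]; linarith
    · rw [min_eq_right h]; linarith
  have := Finset.sum_le_sum fun v (_ : v ∈ s) => Finset.sum_le_sum fun w (_ : w ∈ t) => hpt v w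
  simp only [Finset.sum_add_distrib, ← Finset.mul_sum, ← Finset.sum_mul, m1, m2, m3, m4, d1, d2,
    ← hl] at this
  linarith

lemma lam_le (hU : IsProb U) (J : ℕ) : lam U J ≤ 1 := by
  have h1 := isMean_ev (hU.pow (J + 1))
  exact h1.le_const fun a => h1.le_const fun b => (accA_mem hU a b).2

/-- A slot pair that moves with probability at least `1/16`. -/
noncomputable def goodEnt (U : Alg) (J : ℕ) (h : Ent) : ℕ := if 1 / 16 ≤ qR U J h then 1 else 0

lemma pE_exp_good (hU : IsProb U) (hl : 9 / 20 ≤ lam U J) :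
    pE U J (fun h => Real.exp (-(goodEnt U J h : ℝ))) ≤ Real.exp (-(1 : ℝ) / 8) := by
  have hm := isMean_pE hU J
  have he : Real.exp (-1) ≤ 3 / 8 := by
    rw [Real.exp_neg]
    exact (inv_le_comm₀ (Real.exp_pos 1) (by norm_num)).2 (by
      have := Real.exp_one_gt_d9; norm_num at this ⊢; linarith)
  have hp : ∀ h, Real.exp (-(goodEnt U J h : ℝ)) ≤ (1 + 5 / 24) - 10 / 3 * qR U J h := by
    intro h
    obtain ⟨h0, h1⟩ := qR_mem (J := J) hU h
    unfold goodEnt
    split_ifs with hq
    · push_cast; linarith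
    · push_cast; rw [neg_zero, Real.exp_zero]; linarith
  refine (hm.mono _ _ hp).trans ?_
  rw [hm.sub, hm.const, hm.smul, pE_qR hU J]
  linarith [Real.add_one_le_exp (-(1 : ℝ) / 8)]

end Vale.Agent.P321
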