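import Vale.Agent.P321.AllQ.Climb

/-!
P321, every deletion probability: the growth rate `n^(c log log n)` given by the chain.
-/

namespace Vale.Agent.P321

lemma bq_upper {b₀ : ℕ} (h : 200 * 401 ^ 3 ≤ b₀) : ∀ k, bq b₀ k ≤ 5 ^ k * b₀
  | 0 => by simp [bq]
  | k + 1 => by
      have h1 : bq b₀ (k + 1) ≤ 5 * bq b₀ k :=
        (paramsQ k (bq b₀ k) (bq_lower h k)).2.2.2.2.2.2
      refine h1.trans ((Nat.mul_le_mul_left 5 (bq_upper h k)).trans_eq ?_)
      ring

/-- A climbed pair gives a pair at the start of the chain. -/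
lemma start_of_climb (hC : ClimbStmt) {q : ℝ} (hq0 : 0 < q) (hq1 : q < 1) :
    ∃ b₀ : ℕ, 200 * 401 ^ 3 ≤ b₀ ∧
      ∃ x y : List Bool, Inv (1 - q) x y (b₀ * 400) (20 * b₀) (mm 0) := by
  obtain ⟨x, y, E, F, β, S, hi, hβ, hE, hF, hS⟩ :=
    hC (1 - q) (by linarith) (by linarith) (21 * (200 * 401 ^ 3) + 200000000)
  obtain ⟨b₀, hb₀⟩ : ∃ b, b = β / 20 + 1 := ⟨_, rfl⟩
  have hβ1 : 200000000 ≤ β := le_trans (Nat.le_add_left _ _) hβ
  have hm : 40 * mm 0 ≤ F := by clear * - hβ1 hF; simp only [mm]; omega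
  obtain ⟨a1, a2, a3, a4, a5, a6⟩ :=
    hi.mono (by linarith) (by linarith) (E' := b₀ * 400) (F' := 40 * mm 0) (β' := 20 * b₀)
      (R' := 12 * (b₀ * 400)) (by clear * - hE hβ1 hb₀; omega) hm (by clear * - hb₀; omega)
      (by clear * - hE hS hβ1 hb₀; omega)
  exact ⟨b₀, by omega, x, y, a1, a2, a3, a4, a5, a6⟩

/-- **The rate.** At every fixed deletion probability, `n^(c log log n)` traces are needed. -/
theorem rate_of_climb (hC : ClimbStmt) : ∀ q : ℝ, 0 < q → q < 1 → ∃ c : ℝ, 0 < c ∧ ∃ N : ℕ,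
    ∀ n ≥ N, (n : ℝ) ^ (c * Real.log (Real.log n)) ≤ (sampleComplexity q n : ℝ) := by
  intro q hq0 hq1
  obtain ⟨b₀, hb₀, x₀, y₀, hi₀⟩ := start_of_climb hC hq0 hq1
  set A : ℝ := 20 * (b₀ : ℝ) with hA
  have hb1 : (1 : ℝ) ≤ b₀ := by exact_mod_cast le_trans (by norm_num) hb₀
  have hA1 : 1 ≤ A := by rw [hA]; linarith
  have h5 : (1 : ℝ) ≤ Real.log 5 := by
    rw [Real.le_log_iff_exp_le (by norm_num)]
    linarith [Real.exp_one_lt_d9]
  have h5' : Real.log 5 ≤ 2 := by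
    rw [Real.log_le_iff_le_exp (by norm_num), show (2 : ℝ) = 1 + 1 by norm_num, Real.exp_add]
    nlinarith [Real.exp_one_gt_d9]
  obtain ⟨T, hT⟩ : ∃ T : ℝ, T = 800 * (Real.log A + 1) + 800 := ⟨_, rfl⟩
  have hlA : 0 ≤ Real.log A := Real.log_nonneg hA1
  obtain ⟨N, hN⟩ := exists_nat_ge (Real.exp (Real.exp T))
  refine ⟨1 / 800, by norm_num, max N 2, fun n hn => ?_⟩
  have hn2 : (2 : ℝ) ≤ n := by exact_mod_cast le_of_max_le_right hn
  have hnN : Real.exp (Real.exp T) ≤ n :=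
    hN.trans (by exact_mod_cast le_of_max_le_left hn)
  have hlog : Real.exp T ≤ Real.log n := (Real.le_log_iff_exp_le (by linarith)).2 hnN
  have hlog0 : 0 < Real.log n := (Real.exp_pos T).trans_le hlog
  set ℓ := Real.log (Real.log n) with hℓ
  have hTl : T ≤ ℓ := (Real.le_log_iff_exp_le hlog0).2 hlog
  set R : ℕ := ⌊(ℓ - Real.log A) / (100 * Real.log 5)⌋₊ with hR
  have hden : 0 < 100 * Real.log 5 := by linarith
  have hq : 0 ≤ (ℓ - Real.log A) / (100 * Real.log 5) := div_nonneg (by linarith) hden.le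
  have hR1 : (R : ℝ) * (100 * Real.log 5) ≤ ℓ - Real.log A :=
    (le_div_iff₀ hden).1 (Nat.floor_le hq)
  have hR2 : 1 / 800 * ℓ ≤ (R : ℝ) := by
    have h1 := Nat.lt_floor_add_one ((ℓ - Real.log A) / (100 * Real.log 5))
    have h2 : (ℓ - Real.log A) / 200 ≤ (ℓ - Real.log A) / (100 * Real.log 5) :=
      div_le_div_of_nonneg_left (by linarith) hden (by linarith)
    rw [← hR] at h1
    linarith
  have hsize : ((20 * bq b₀ (100 * R) : ℕ) : ℝ) ≤ Real.log n := by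
    have h1 : ((20 * bq b₀ (100 * R) : ℕ) : ℝ) ≤ A * (5 : ℝ) ^ (100 * R) := by
      rw [hA, mul_comm (20 * (b₀ : ℝ)), ← mul_assoc, mul_comm _ (20 : ℝ), mul_assoc]
      have := Nat.mul_le_mul_left 20 (bq_upper hb₀ (100 * R))
      calc ((20 * bq b₀ (100 * R) : ℕ) : ℝ) ≤ ((20 * (5 ^ (100 * R) * b₀) : ℕ) : ℝ) := by
            exact_mod_cast this
        _ = _ := by push_cast; ring
    refine h1.trans ((Real.log_le_log_iff (by positivity) hlog0).1 ?_)
    rw [Real.log_mul (by linarith) (by positivity), Real.log_pow, ← hℓ]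
    push_cast
    linarith
  have hnat : 2 ^ (20 * bq b₀ (100 * R)) ≤ n := by
    have h2 : ((2 : ℝ) ^ (20 * bq b₀ (100 * R))) ≤ n := by
      rw [← Real.log_le_log_iff (by positivity) (by linarith), Real.log_pow]
      refine le_trans (mul_le_of_le_one_right (Nat.cast_nonneg _) ?_) hsize
      linarith [Real.log_two_lt_d9]
    exact_mod_cast h2
  refine le_trans (Real.rpow_le_rpow_of_exponent_le (by linarith) hR2) ?_
  rw [Real.rpow_natCast]
  exact lower_of_inv_at hq0.le hq1 hb₀ hi₀ R n hnat _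
    (Nat.sInf_mem (reconstructs_exists hq0.le hq1 n))

end Vale.Agent.P321
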