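import Vale.Agent.P321.Super.Gain
import Vale.Agent.P321.Super.Ratio

/-!
P321, all deletion probabilities: the likelihood ratio through one level of padded windows, in a
truncated world (`|V - U| ≤ η U` coefficientwise). The linear term is killed by the pads up to a
tiny mass, the rest is of second order.
-/

open Finset

namespace Vale.Agent.P321

/-- A binomial shift kills a commutator with the cell, coefficientwise. -/
lemma le1_sh_comm {P G : Alg} {n : ℕ} {a : ℝ} (hP : IsProb P) (ha : 0 ≤ a)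
    (hG : Le1 G (a • P ^ n)) (h : ℕ) :
    Le1 ((sh P)^[h] (G * P - P * G)) ((a * (2 / Real.sqrt (h + 1))) • P ^ (h + n + 1)) := by
  set u : ℕ → Alg := fun s => P ^ s * G * P ^ (h + 1 - s)
  have e : (sh P)^[h] (G * P - P * G) = ∑ s ∈ range (h + 2),
      ((h.choose s : ℝ) / 2 ^ h - (if s = 0 then 0 else (h.choose (s - 1) : ℝ) / 2 ^ h)) • u s := by
    rw [← shift_sum (fun t => (h.choose t : ℝ) / 2 ^ h) u h (by simp), sh_iterate]
    refine sum_congr rfl fun t ht => ?_
    rw [mem_range] at ht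
    congr 1
    simp only [u, show h + 1 - t = (h - t) + 1 by omega, show h + 1 - (t + 1) = h - t by omega,
      pow_succ', mul_sub, sub_mul, mul_assoc]
    rw [← mul_assoc (P ^ t) P, (Commute.pow_self P t).eq, mul_assoc]
  rw [e]
  have hu : ∀ s ∈ range (h + 2), Le1 (u s) (a • P ^ (h + n + 1)) := fun s hs => by
    rw [mem_range] at hs
    have := ((Le1.of_pos (hP.pow s).pos).mul hG).mul (Le1.of_pos (hP.pow (h + 1 - s)).pos)
    rwa [mul_smul_comm, smul_mul_assoc, ← pow_add, ← pow_add,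
      show s + n + (h + 1 - s) = h + n + 1 by omega] at this
  refine (Le1.sum _ fun s hs => (hu s hs).smul _).trans_pos ?_
  rw [← sum_smul, smul_smul, ← sub_smul]
  refine (hP.pow _).pos.smul (sub_nonneg.2 ?_)
  rw [mul_comm _ a]
  exact mul_le_mul_of_nonneg_left (sum_abs_choose_diff h) ha

/-- Commutators with powers of the cell. -/
lemma le1_sh_comm_pow {P G : Alg} {n : ℕ} {a : ℝ} (hP : IsProb P) (ha : 0 ≤ a)
    (hG : Le1 G (a • P ^ n)) (h : ℕ) :
    ∀ K : ℕ, Le1 ((sh P)^[h] (G * P ^ K - P ^ K * G))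
      (((K : ℝ) * (a * (2 / Real.sqrt (h + 1)))) • P ^ (h + n + K))
  | 0 => by
      rw [pow_zero, mul_one, one_mul, sub_self, Nat.cast_zero, zero_mul, add_zero, zero_smul,
        show (0 : Alg) = (0 : Alg) - 0 from (sub_self 0).symm, sh_iter_sub, sub_self]
      simpa using Le1.zero
  | K + 1 => by
      have ih := le1_sh_comm_pow hP ha hG h K
      have h1 := ih.mul (Le1.of_pos hP.pos)
      have h2 := (Le1.of_pos (hP.pow K).pos).mul (le1_sh_comm hP ha hG h)
      rw [smul_mul_assoc, ← pow_succ, add_assoc (h + n)] at h1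
      rw [mul_smul_comm, ← pow_add, show K + (h + n + 1) = h + n + (K + 1) by omega] at h2
      have e : G * P ^ (K + 1) - P ^ (K + 1) * G =
          P ^ 0 * (G * P ^ K - P ^ K * G) * P ^ 1 + P ^ K * (G * P - P * G) * P ^ 0 := by
        simp only [pow_zero, mul_one, one_mul, pow_succ, mul_sub, sub_mul, mul_assoc]
        abel
      rw [e, sh_iter_add, sh_iter_sandwich, sh_iter_sandwich, pow_zero, one_mul, pow_one, mul_one]
      convert h1.add h2 using 1
      rw [← add_smul]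
      congr 1
      push_cast
      ring

/-- The linear part of two windows after the shifts, coefficientwise. -/
lemma le1_tmLin {P D : Alg} {η : ℝ} (hP : IsProb P) (hη : 0 ≤ η) (hD : Le1 D (η • P)) (h₁ : ℕ) :
    ∀ j : ℕ, Le1 ((sh P)^[j * h₁] (tmLin P D j))
      ((η * ((2 : ℝ) ^ j * (2 / Real.sqrt (h₁ + 1))) ^ j) • P ^ (j * h₁ + 2 ^ j))
  | 0 => by simpa using hD
  | j + 1 => by
      set δ : ℝ := 2 / Real.sqrt (h₁ + 1)
      have hδ : 0 ≤ δ := by positivity
      have ih := le1_tmLin hP hη hD h₁ j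
      set G := (sh P)^[j * h₁] (tmLin P D j)
      have e : (sh P)^[(j + 1) * h₁] (tmLin P D (j + 1)) =
          (sh P)^[h₁] (G * P ^ 2 ^ j - P ^ 2 ^ j * G) := by
        rw [show (j + 1) * h₁ = h₁ + j * h₁ by ring, Function.iterate_add_apply, tmLin_succ,
          sh_iter_sub]
        have a := sh_iter_sandwich P (tmLin P D j) 0 (2 ^ j) (j * h₁)
        have b := sh_iter_sandwich P (tmLin P D j) (2 ^ j) 0 (j * h₁)
        rw [pow_zero, one_mul, one_mul] at a
        rw [pow_zero, mul_one, mul_one] at b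
        rw [a, b]
      rw [e, show (j + 1) * h₁ + 2 ^ (j + 1) = h₁ + (j * h₁ + 2 ^ j) + 2 ^ j by ring]
      refine Ratio.le1_mono (le1_sh_comm_pow hP (by positivity) ih h₁ (2 ^ j)) ?_ (hP.pow _).pos
      have h0 : ((2 : ℝ) ^ j * δ) ^ j ≤ ((2 : ℝ) ^ (j + 1) * δ) ^ j := by
        gcongr <;> [norm_num; omega]
      have h1 : (2 : ℝ) ^ j * δ ≤ (2 : ℝ) ^ (j + 1) * δ := by
        gcongr <;> [norm_num; omega]
      push_cast
      calc (2 : ℝ) ^ j * (η * ((2 : ℝ) ^ j * δ) ^ j * δ)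
          = η * (((2 : ℝ) ^ j * δ) ^ j * ((2 : ℝ) ^ j * δ)) := by ring
        _ ≤ η * (((2 : ℝ) ^ (j + 1) * δ) ^ j * ((2 : ℝ) ^ (j + 1) * δ)) :=
            mul_le_mul_of_nonneg_left (mul_le_mul h0 h1 (by positivity) (by positivity)) hη
        _ = _ := by rw [← pow_succ]

/-- `F` is at most `a G` up to mass `v`, coefficientwise. -/
def RelLe (a : ℝ) (F G : Alg) (v : ℝ) : Prop :=
  ∃ r, Pos r ∧ mass r ≤ v ∧ Le1 F (a • G + r)

lemma closed_relLe {a : ℝ} : Closed (RelLe a) where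
  mono := fun ⟨r, h1, h2, h3⟩ hv => ⟨r, h1, h2.trans hv, h3⟩
  sandwich := by
    rintro F G α β v hα hβ ⟨r, h1, h2, h3⟩
    refine ⟨α * r * β, (hα.pos.mul h1).mul hβ.pos, ?_, ?_⟩
    · rw [map_mul, map_mul, hα.mass_one, hβ.mass_one]; simpa
    · have := ((Le1.of_pos hα.pos).mul h3).mul (Le1.of_pos hβ.pos)
      simpa only [mul_add, add_mul, mul_smul_comm, smul_mul_assoc] using this
  mix := by
    rintro F G F' G' v v' s h0 h1 ⟨r, r1, r2, r3⟩ ⟨r', r1', r2', r3'⟩
    have hs : 0 ≤ 1 - s := by linarith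
    refine ⟨s • r + (1 - s) • r', (r1.smul h0).add (r1'.smul hs), ?_, ?_⟩
    · rw [map_add, map_smul, map_smul, smul_eq_mul, smul_eq_mul]
      exact add_le_add (mul_le_mul_of_nonneg_left r2 h0) (mul_le_mul_of_nonneg_left r2' hs)
    · have := (r3.smul s).add (r3'.smul (1 - s))
      rw [abs_of_nonneg h0, abs_of_nonneg hs] at this
      convert this using 1
      simp only [smul_add, smul_comm a]
      abel

/-- The first order of a word, coefficientwise. -/
lemma le1_second_order {U V : Alg} {η : ℝ} (hU : IsProb U) (hV : IsProb V) (hη : 0 ≤ η)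
    (hle : Le1 (V - U) (η • U)) {m : ℕ} {l : List Bool} (hl : l.length = 2 ^ m)
    (hsmall : (2 : ℝ) ^ m * η ≤ 1) :
    Le1 (Lr U (V - U) 1 l) (((2 : ℝ) ^ m * η) • U ^ 2 ^ m) ∧
      Le1 (wd U V l - U ^ 2 ^ m - Lr U (V - U) 1 l) (((2 : ℝ) ^ m * η) ^ 2 • U ^ 2 ^ m) := by
  have hs : Ratio.Split U V 0 0 η 0 :=
    ⟨hU.pos, hV.pos, Pos.zero, Pos.zero, hU.mass_one.le, hV.mass_one.le, by simp [hU.mass_one],
      by simp [hV.mass_one], by simp, by simp, hη, hle⟩
  have e0 : ∀ l : List Bool, Ratio.E0 U V l = wd U V l := by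
    intro l
    induction l with
    | nil => simp [Ratio.E0]
    | cons b l ih => rw [Ratio.E0, ih, wd_cons]; rfl
  have e1 : ∀ l : List Bool, Ratio.M1 U (Ratio.dc U V) l = Lr U (V - U) 1 l := by
    intro l
    induction l with
    | nil => simp [Ratio.M1]
    | cons b l ih => rw [Ratio.M1, ih, Lr_cons, Lr_zero, add_comm]; rfl
  have hc : Ratio.cnt l ≤ 2 ^ m := hl ▸ Ratio.cnt_le_length l
  have hpow : Pos (U ^ 2 ^ m) := (hU.pow _).pos
  refine ⟨?_, ?_⟩
  · rw [← e1]
    have h := hs.M1_dc_le l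
    rw [hl] at h
    exact Ratio.le1_mono h (mul_le_mul_of_nonneg_right (by exact_mod_cast hc) hη) hpow
  · have h := hs.E0_sub2 l
    rw [e0, e1, hl] at h
    refine Ratio.le1_mono h ((Ratio.T2_le_of hη hc (by push_cast; exact hsmall)).trans ?_) hpow
    push_cast
    exact le_rfl

/-- One level in the truncated world: the new pair has ratio `O(w² η²)` up to a tiny mass. -/
theorem level_ratio {U V : Alg} {η : ℝ} {B m h h₁ : ℕ} (hU : IsProb U) (hV : IsProb V)
    (hη0 : 0 ≤ η) (hle : Le1 (V - U) (η • U)) (hov : nrm (U ^ (B + 1) - U ^ B) ≤ 1)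
    (hmh : m * h₁ ≤ h) (hlin : ((2 : ℝ) ^ m * (2 / Real.sqrt (h₁ + 1))) ^ m ≤ η)
    (hη : 32 * ((2 : ℝ) ^ m) ^ 2 * η ≤ 1) :
    ∃ R : Alg, Pos R ∧ mass R ≤ ((2 : ℝ) ^ h)⁻¹ ∧
      Le1 (wd U V (cellMask h B (winB m)) - wd U V (cellMask h B (winA m)))
        ((8 * ((2 : ℝ) ^ m) ^ 2 * η ^ 2) • wd U V (cellMask h B (winA m)) + R) := by
  set w : ℝ := 2 ^ m with hw
  have hw1 : 1 ≤ w := one_le_pow₀ (by norm_num)
  set P := padLen h B with hP
  set n := 2 * P + 2 ^ m with hn
  have hwη : 2 * (w * η) ≤ 1 := by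
    nlinarith [mul_le_mul_of_nonneg_right hw1 (mul_nonneg (zero_le_one.trans hw1) hη0)]
  obtain ⟨la1, la2⟩ := le1_second_order hU hV hη0 hle (length_winA m) (by linarith)
  obtain ⟨lb1, lb2⟩ := le1_second_order hU hV hη0 hle (length_winB m) (by linarith)
  -- the linear part after the pads
  have hsh : RelLe (η ^ 2) ((sh U)^[h] (tmLin U (V - U) m)) ((sh U)^[h] (U ^ 2 ^ m)) 0 := by
    have h1 := Ratio.le1_mono (le1_tmLin hU hη0 hle h₁ m)
      (show η * (w * (2 / Real.sqrt (h₁ + 1))) ^ m ≤ η ^ 2 by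
        rw [sq]; exact mul_le_mul_of_nonneg_left hlin hη0) (hU.pow _).pos
    obtain ⟨d, rfl⟩ : ∃ d, h = d + m * h₁ := ⟨h - m * h₁, by omega⟩
    have h2 : RelLe (η ^ 2) ((sh U)^[m * h₁] (tmLin U (V - U) m))
        ((sh U)^[m * h₁] (U ^ 2 ^ m)) 0 := by
      refine ⟨0, Pos.zero, by simp, ?_⟩
      rw [add_zero, sh_pow]
      exact h1
    rw [Function.iterate_add_apply, Function.iterate_add_apply]
    have hgo : ∀ j : ℕ, RelLe (η ^ 2) ((sh U)^[j] ((sh U)^[m * h₁] (tmLin U (V - U) m)))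
        ((sh U)^[j] ((sh U)^[m * h₁] (U ^ 2 ^ m))) 0 := by
      intro j
      induction j with
      | zero => exact h2
      | succ j ih =>
        rw [Function.iterate_succ_apply', Function.iterate_succ_apply']
        exact closed_relLe.sh hU ih
    exact hgo d
  have hcr : RelLe (η ^ 2) (tmLin U (V - U) m) (U ^ 2 ^ m) (2 * (w * η)) := by
    refine ⟨(2 * (w * η)) • U ^ 2 ^ m, (hU.pow _).pos.smul (by positivity),
      by rw [map_smul, (hU.pow _).mass_one, smul_eq_mul, mul_one], ?_⟩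
    refine (la1.sub lb1).trans_pos ?_
    convert (hU.pow (2 ^ m)).pos.smul (sq_nonneg η) using 1
    module
  obtain ⟨R, hR, hRm, hlinle⟩ := pad closed_relLe hU B hov h le_rfl (by positivity) hsh hcr
  refine ⟨R, hR, hRm.trans ?_, ?_⟩
  · rw [zero_add]
    calc ((2 : ℝ) ^ (2 * h))⁻¹ * (2 * (w * η)) ≤ ((2 : ℝ) ^ h)⁻¹ * 1 :=
          mul_le_mul (inv_anti₀ (by positivity)
            (pow_le_pow_right₀ (by norm_num) (by omega))) hwη (by positivity) (by positivity)
      _ = _ := mul_one _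
  -- the pads around the second order, and the base
  have hpad : ∀ F : Alg, ∀ c : ℝ, Le1 F (c • U ^ 2 ^ m) →
      Le1 (U ^ P * F * U ^ P) (c • U ^ n) := fun F c hF => by
    have := ((Le1.of_pos (hU.pow P).pos).mul hF).mul (Le1.of_pos (hU.pow P).pos)
    rwa [mul_smul_comm, smul_mul_assoc, ← pow_add, ← pow_add,
      show P + 2 ^ m + P = n by omega] at this
  have hcl : (U ^ P * U ^ 2 ^ m * U ^ P : Alg) = U ^ n := by
    rw [← pow_add, ← pow_add, show P + 2 ^ m + P = n by omega]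
  have hlenA : (cellMask h B (winA m)).length = n := by
    rw [cellMask, length_padMask, length_winA]
  have hlenB : (cellMask h B (winB m)).length = n := by
    rw [cellMask, length_padMask, length_winB]
  have hcA : (cellMask h B (winA m)).count true ≤ 2 ^ m := by
    rw [cellMask, count_padMask]; exact List.count_le_length.trans (length_winA m).le
  have hcB : (cellMask h B (winB m)).count true ≤ 2 ^ m := by
    rw [cellMask, count_padMask]; exact List.count_le_length.trans (length_winB m).le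
  obtain ⟨-, hX, -⟩ := cell_compare hU hV hle hη hη0 hlenA hlenB hcA hcB
  rw [show 48 * h * (B + 1) = P from rfl, hcl] at hlinle
  have key := hlinle.neg.add ((hpad _ _ lb2).sub (hpad _ _ la2))
  rw [cellMask, cellMask, ← hP, wd_padMask, wd_padMask]
  rw [cellMask, ← hP, wd_padMask] at hX
  have ht : tmLin U (V - U) m = Lr U (V - U) 1 (winA m) - Lr U (V - U) 1 (winB m) := rfl
  rw [ht] at key
  convert key.trans_pos (g' := (8 * w ^ 2 * η ^ 2) • (U ^ P * wd U V (winA m) * U ^ P) + R) ?_ using 1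
  · noncomm_ring
  · have hw2 : η ^ 2 ≤ w ^ 2 * η ^ 2 :=
      le_mul_of_one_le_left (sq_nonneg η) (one_le_pow₀ hw1)
    have h0 := ((hX.smul (show (0 : ℝ) ≤ 4 * w ^ 2 * η ^ 2 by positivity)).add
      ((hU.pow n).pos.smul (show (0 : ℝ) ≤ 2 * w ^ 2 * η ^ 2 - η ^ 2 by
        nlinarith [mul_nonneg (sq_nonneg w) (sq_nonneg η)])))
    convert h0 using 1
    module

end Vale.Agent.P321
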