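import Vale.Agent.P321.AllQ.StageSizes
import Vale.Agent.P321.AllQ.StageRatio

/-!
P321, every deletion probability, module C: one stage of the climb, from the drift.
-/

open Finset

namespace Vale.Agent.P321

/-- The numerical hypotheses of a stage. -/
structure StageHyp (E F β R m H : ℕ) : Prop where
  hm : 1000 ≤ m
  hH : 70 * m ≤ H
  hβ : 100 * H ≤ β
  hE : 8 * E ≤ m * H
  hFE : F ≤ E
  hF : 256 * (β + 20 * H + 20 * m) + E + β ≤ 512 * F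
  hR : 2 ^ 20 * (E + β + H + R) ≤ 2 ^ H
  hR2 : 2 * E + 2 * F ≤ R
  hR3 : 2 * F + 16 * β + 100 * H ≤ R

/-- The exponent of all tails. -/
def stageT (E β R H : ℕ) : ℕ := 150 * (E + β + H + R)

/-- The drift parameter of the first level. -/
noncomputable def stageZ (F β m H : ℕ) : ℝ :=
  2 ^ (49 + 2 * m + 6 * H + β) * ((2 : ℝ) ^ (2 * F))⁻¹

lemma StageHyp.room {E F β R m H : ℕ} (hh : StageHyp E F β R m H) :
    256 * (E + β + H + R) ≤ 2 ^ (H - 12) := by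
  obtain ⟨hm, hH, -, -, -, -, hR, -, -⟩ := hh
  exact tail_room (by omega) hR

lemma StageHyp.two_pow {E F β R m H : ℕ} (hh : StageHyp E F β R m H) (a : ℕ) (ha : 1 ≤ a) :
    stageT E β R H ≤ 2 ^ (a * H) := by
  have h1 := hh.room
  have h2 : 2 ^ (H - 12) ≤ 2 ^ (a * H) := Nat.pow_le_pow_right (by norm_num)
    ((Nat.sub_le _ _).trans (Nat.le_mul_of_pos_left _ ha))
  rw [stageT]
  omega

lemma StageHyp.stageZ_le {E F β R m H : ℕ} (hh : StageHyp E F β R m H) :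
    stageZ F β m H ≤ ((2 : ℝ) ^ 14)⁻¹ := by
  obtain ⟨hm, hH, hβ, -, -, hF, -, -, -⟩ := hh
  exact two_pow_mul_inv (by omega)

lemma sqrt_small {z : ℝ} (h : z ≤ ((2 : ℝ) ^ 14)⁻¹) : Real.sqrt z ≤ 1 / 128 := by
  rw [Real.sqrt_le_left (by norm_num)]
  norm_num at h ⊢
  linarith

/-- The drift of the padded window, at every length used by a stage. -/
theorem first_drift (hD : DriftStmt) {E F β R m H : ℕ} (hh : StageHyp E F β R m H) {U V : Alg}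
    (hU : IsProb U) (hV : IsProb V) (hle : Le1 (V - U) ((16 * ((2 : ℝ) ^ F)⁻¹) • U))
    (hov : nrm (U ^ (2 ^ β + 1) - U ^ 2 ^ β) ≤ 1) :
    nrm (wd U V (cellMask (2 ^ (9 * H)) (2 ^ β) (winA m)) ^ (stageBX H β + 1) -
        wd U V (cellMask (2 ^ (9 * H)) (2 ^ β) (winA m)) ^ stageBX H β) ≤ 3 / 8 ∧
      ∀ L : ℕ, L ≤ 2 ^ (12 * H + 2 * β + 27) →
        (∃ G R' : Alg, wd U V (cellMask (2 ^ (9 * H)) (2 ^ β) (winA m)) ^ L -
            U ^ (L * (2 * padLen (2 ^ (9 * H)) (2 ^ β) + 2 ^ m)) = G + R' ∧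
          Dev G (U ^ (L * (2 * padLen (2 ^ (9 * H)) (2 ^ β) + 2 ^ m)))
            (4 * Real.sqrt (stageZ F β m H)) ∧ nrm R' ≤ ((2 : ℝ) ^ stageT E β R H)⁻¹) ∧
        ∃ R' : Alg, Pos R' ∧
          mass R' ≤ (16 * stageZ F β m H) ^ stageK + ((2 : ℝ) ^ stageT E β R H)⁻¹ ∧
          Pos ((2 : ℝ) • wd U V (cellMask (2 ^ (9 * H)) (2 ^ β) (winA m)) ^ L + R' -
            U ^ (L * (2 * padLen (2 ^ (9 * H)) (2 ^ β) + 2 ^ m))) := by
  have hz14 := hh.stageZ_le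
  have hroom := hh.room
  obtain ⟨hm, hH, hβ, -, -, -, -, -, -⟩ := hh
  obtain ⟨⟨hwA, -⟩, ⟨hLA, -⟩, ⟨hBX, -⟩, ⟨hjA, -⟩, hLA2, -, -⟩ :=
    stage_sizes (β := β) (by omega : m ≤ H) (by omega)
  set P := padLen (2 ^ (9 * H)) (2 ^ β) with hP
  have hη : (0 : ℝ) ≤ 16 * ((2 : ℝ) ^ F)⁻¹ := by positivity
  have hlen : (winA m).length = 2 ^ m := length_winA m
  have hPle : P ≤ 2 ^ (12 * H + 2 * β + 28) :=
    le_trans (le_two_mul_add P _)
      (hLA.trans (Nat.pow_le_pow_right (by norm_num) (by omega)))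
  have hz : ∀ L : ℕ, L ≤ 2 ^ (12 * H + 2 * β + 27) →
      driftZ stageK (winA m).length L (2 ^ H) (16 * ((2 : ℝ) ^ F)⁻¹) ≤ stageZ F β m H := by
    intro L hL
    rw [hlen, show (16 : ℝ) = 2 ^ 4 by norm_num]
    refine (driftZ_le (s := 6 * H + β + 14)
      (hL.trans (Nat.pow_le_pow_right (by norm_num) (by omega)))).trans_eq ?_
    rw [stageZ, show 27 + 2 * 4 + 2 * m + (6 * H + β + 14) = 49 + 2 * m + 6 * H + β by omega]
  have ht : ∀ L : ℕ, L ≤ 2 ^ (12 * H + 2 * β + 27) →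
      driftTail L P (2 ^ H) ≤ ((2 : ℝ) ^ stageT E β R H)⁻¹ := fun L hL =>
    driftTail_le (by omega) (hL.trans (Nat.pow_le_pow_right (by norm_num) (by omega))) hPle
      (by rw [stageT]; omega)
  have h18 : stageZ F β m H ≤ 1 / 8 := hz14.trans (by norm_num)
  refine ⟨?_, fun L hL => ?_⟩
  · have hB1 : stageBX H β + 1 ≤ 2 ^ (12 * H + 2 * β + 27) := succ_le_two_pow (by omega)
    refine (overlap_drift hD (z := stageZ F β m H) (τ := ((2 : ℝ) ^ stageT E β R H)⁻¹)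
      (k := stageK) hU hV hη hle hov stageK_pos (Nat.two_pow_pos H)
      (hlen.le.trans hwA) hjA (hLA2 _ hB1) (hz _ hB1) h18 (ht _ hB1) ?_ ?_).trans ?_
    · refine Nat.mul_pos ?_ (Nat.two_pow_pos _)
      rw [hlen]
      exact Nat.lt_of_lt_of_le (Nat.two_pow_pos m) (Nat.le_add_left _ _)
    · rw [hlen]; exact hBX
    · have h1 := sqrt_small hz14
      have h2 : ((2 : ℝ) ^ stageT E β R H)⁻¹ ≤ ((2 : ℝ) ^ 6)⁻¹ :=
        inv_le_inv_pow (by rw [stageT]; omega)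
      norm_num at h2
      linarith
  · obtain ⟨⟨G, R₁, e1, hG, hR₁⟩, R₂, hR₂, hR₂m, hR₂le⟩ := hD U V _ (2 ^ β) P (2 ^ H) stageK L
      (winA m) hU hV hη hle hov stageK_pos (Nat.two_pow_pos H) (hlen.le.trans hwA) hjA
      (hLA2 L hL) ((hz L hL).trans h18)
    rw [hlen] at e1 hG hR₂le
    have hzL := hz L hL
    rw [hlen] at hzL hR₂m
    refine ⟨⟨G, R₁, e1, hG.mono (mul_le_mul_of_nonneg_left (Real.sqrt_le_sqrt hzL) (by norm_num)),
      hR₁.trans (ht L hL)⟩, R₂, hR₂, hR₂m.trans (add_le_add ?_ (ht L hL)), hR₂le⟩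
    have h0 := driftZ_nonneg stageK (2 ^ m) L (2 ^ H) (16 * ((2 : ℝ) ^ F)⁻¹)
    exact pow_le_pow_left₀ (mul_nonneg (by norm_num) h0) (mul_le_mul_of_nonneg_left hzL (by norm_num)) _

/-- The truncated world of the cells. -/
theorem first_world {E F β R m H : ℕ} (hh : StageHyp E F β R m H) {U V : Alg} (hU : IsProb U)
    (hV : IsProb V) (hdist : Dev (U - V) (U + V) ((2 : ℝ) ^ E)⁻¹)
    (hexc : Exc U V ((2 : ℝ) ^ F)⁻¹ ((2 : ℝ) ^ R)⁻¹)
    (hov : nrm (U ^ (2 ^ β + 1) - U ^ 2 ^ β) ≤ 1 / 2) :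
    ∃ U' V', Til U' V' (16 * ((2 : ℝ) ^ E)⁻¹) (16 * ((2 : ℝ) ^ F)⁻¹) (2 ^ β) ∧
      nrm (U - U') ≤ 2 ^ (F + 2) * ((2 : ℝ) ^ R)⁻¹ ∧
      nrm (V - V') ≤ 2 ^ (F + 2) * ((2 : ℝ) ^ R)⁻¹ := by
  obtain ⟨hm, hH, hβ, -, hFE, hF, -, hR2, hR3⟩ := hh
  have he : ((2 : ℝ) ^ R)⁻¹ / ((2 : ℝ) ^ F)⁻¹ = 2 ^ F * ((2 : ℝ) ^ R)⁻¹ := by
    rw [div_inv_eq_mul, mul_comm]
  have e4 : 4 * ((2 : ℝ) ^ R)⁻¹ / ((2 : ℝ) ^ F)⁻¹ = 2 ^ (F + 2) * ((2 : ℝ) ^ R)⁻¹ := by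
    rw [mul_div_assoc, he, pow_add]; ring
  obtain ⟨U', V', T, hdU, hdV⟩ := exists_til hU hV (B := 2 ^ β) (η := ((2 : ℝ) ^ F)⁻¹)
    (by positivity)
    (show ((2 : ℝ) ^ F)⁻¹ ≤ 1 / 16 by
      rw [show (1 : ℝ) / 16 = ((2 : ℝ) ^ 4)⁻¹ by norm_num]; exact inv_le_inv_pow (by omega))
    (show ((2 : ℝ) ^ E)⁻¹ ≤ 1 / 16 by
      rw [show (1 : ℝ) / 16 = ((2 : ℝ) ^ 4)⁻¹ by norm_num]; exact inv_le_inv_pow (by omega))
    (by rw [he]; exact two_pow_mul_inv (by omega)) hdist hexc hov (by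
      rw [e4]
      have hb : (2 * ((2 ^ β : ℕ) : ℝ) + 1) ≤ 2 ^ (β + 2) := by
        rw [pow_add]; push_cast
        linarith [one_le_pow₀ (M₀ := ℝ) (a := 2) (by norm_num) (n := β)]
      refine (mul_le_mul_of_nonneg_right hb (by positivity)).trans ?_
      rw [← mul_assoc, ← pow_add]
      exact (two_pow_mul_inv (c := 1) (by omega)).trans (by norm_num))
  rw [e4] at hdU hdV
  exact ⟨U', V', T, hdU, hdV⟩

/-- The truncated world of the padded windows. -/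
theorem second_world {E F β R m H : ℕ} (hh : StageHyp E F β R m H) {U V : Alg} (hU : IsProb U)
    (hV : IsProb V) (hle : Le1 (V - U) ((16 * ((2 : ℝ) ^ F)⁻¹) • U))
    (hov : nrm (U ^ (2 ^ β + 1) - U ^ 2 ^ β) ≤ 1)
    (hovX : nrm (wd U V (cellMask (2 ^ (9 * H)) (2 ^ β) (winA m)) ^ (stageBX H β + 1) -
        wd U V (cellMask (2 ^ (9 * H)) (2 ^ β) (winA m)) ^ stageBX H β) ≤ 1 / 2) :
    ∃ X₁ Y₁, Til X₁ Y₁ 1 (2 ^ (15 + 2 * m) * ((2 : ℝ) ^ (2 * F))⁻¹) (stageBX H β) ∧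
      nrm (wd U V (cellMask (2 ^ (9 * H)) (2 ^ β) (winA m)) - X₁) ≤
        2 ^ (2 * F + 2) * ((2 : ℝ) ^ stageT E β R H)⁻¹ ∧
      nrm (wd U V (cellMask (2 ^ (9 * H)) (2 ^ β) (winB m)) - Y₁) ≤
        2 ^ (2 * F + 2) * ((2 : ℝ) ^ stageT E β R H)⁻¹ := by
  have h2p := hh.two_pow 9 (by norm_num)
  obtain ⟨hm, hH, hβ, hE, hFE, hF, -, -, -⟩ := hh
  set X := wd U V (cellMask (2 ^ (9 * H)) (2 ^ β) (winA m))
  set Y := wd U V (cellMask (2 ^ (9 * H)) (2 ^ β) (winB m))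
  have hX : IsProb X := isProb_wd hU hV _
  have hY : IsProb Y := isProb_wd hU hV _
  obtain ⟨R₁, hR₁, hR₁m, hR₁le⟩ := level_ratio (h := 2 ^ (9 * H)) (m := m) (h₁ := 2 ^ (2 * H))
    hU hV (by positivity) hle hov (by
      rw [show 9 * H = 7 * H + 2 * H by ring, pow_add]
      exact Nat.mul_le_mul_right _ (le_trans (by omega) Nat.lt_two_pow_self.le))
    ((lin_small (E := E) (by omega) hH).trans (by
      rw [inv_pow, ← pow_mul]
      exact (inv_le_inv_pow (by omega : F ≤ E * 4)).trans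
        (le_mul_of_one_le_left (by positivity) (by norm_num))))
    (by
      rw [show (32 : ℝ) = 2 ^ 5 by norm_num, show (16 : ℝ) = 2 ^ 4 by norm_num, ← pow_mul,
        ← mul_assoc, ← pow_add, ← pow_add]
      exact (two_pow_mul_inv (c := 0) (by omega)).trans (by norm_num))
  have hη₁ : 8 * ((2 : ℝ) ^ m) ^ 2 * (16 * ((2 : ℝ) ^ F)⁻¹) ^ 2 =
      2 ^ (11 + 2 * m) * ((2 : ℝ) ^ (2 * F))⁻¹ := by
    rw [mul_pow, inv_pow, ← pow_mul, ← pow_mul, mul_comm F 2]; ring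
  rw [hη₁] at hR₁le
  set η₁ := (2 : ℝ) ^ (11 + 2 * m) * ((2 : ℝ) ^ (2 * F))⁻¹ with hη₁def
  set T := stageT E β R H with hT
  have hex : Exc X Y η₁ ((2 : ℝ) ^ T)⁻¹ :=
    exc_of_le hY.pos (by positivity) hR₁ (hR₁m.trans (inv_le_inv_pow h2p)) hR₁le
  have hlow : ((2 : ℝ) ^ (2 * F))⁻¹ ≤ η₁ :=
    le_mul_of_one_le_left (by positivity) (one_le_pow₀ (by norm_num))
  have he : ((2 : ℝ) ^ T)⁻¹ / η₁ ≤ 2 ^ (2 * F) * ((2 : ℝ) ^ T)⁻¹ := by
    refine (div_le_div_of_nonneg_left (by positivity) (by positivity) hlow).trans (le_of_eq ?_)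
    rw [div_inv_eq_mul, mul_comm]
  have hη16 : η₁ ≤ ((2 : ℝ) ^ 10)⁻¹ := two_pow_mul_inv (by omega)
  have hT0 : ((2 : ℝ) ^ T)⁻¹ ≤ ((2 : ℝ) ^ 10)⁻¹ := inv_le_inv_pow (by rw [hT, stageT]; omega)
  norm_num at hη16 hT0
  obtain ⟨X₁, Y₁, Tw, hdX, hdY⟩ := exists_til hX hY (ε := 1 / 16) (η := η₁) (B := stageBX H β)
    (by positivity) (by linarith) le_rfl
    (he.trans ((two_pow_mul_inv (c := 4) (by rw [hT, stageT]; omega)).trans (by norm_num)))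
    (dev_of_exc_crude hX hY (by norm_num) hex (by norm_num; linarith)) hex hovX (by
      rw [mul_div_assoc]
      have hb : (2 * ((stageBX H β : ℕ) : ℝ) + 1) ≤ 2 ^ (9 * H + 2 * β + 20) := by
        rw [stageBX, show 9 * H + 2 * β + 20 = 9 * H + 2 * β + 18 + 2 by omega,
          pow_add (2 : ℝ) (9 * H + 2 * β + 18)]
        push_cast
        linarith [one_le_pow₀ (M₀ := ℝ) (a := 2) (by norm_num) (n := 9 * H + 2 * β + 18)]
      calc _ ≤ 2 ^ (9 * H + 2 * β + 20) * (2 ^ 2 * (2 ^ (2 * F) * ((2 : ℝ) ^ T)⁻¹)) := by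
            gcongr
            norm_num
        _ = 2 ^ (9 * H + 2 * β + 20 + 2 + 2 * F) * ((2 : ℝ) ^ T)⁻¹ := by ring
        _ ≤ ((2 : ℝ) ^ 1)⁻¹ := two_pow_mul_inv (by rw [hT, stageT]; omega)
        _ = 1 / 2 := by norm_num)
  refine ⟨X₁, Y₁, ?_, ?_, ?_⟩
  · rw [show (2 : ℝ) ^ (15 + 2 * m) * ((2 : ℝ) ^ (2 * F))⁻¹ = 16 * η₁ by rw [hη₁def]; ring,
      show (1 : ℝ) = 16 * (1 / 16) by norm_num]
    exact Tw
  · refine hdX.trans ?_
    rw [mul_div_assoc, pow_add, mul_comm (2 ^ (2 * F) : ℝ), mul_assoc]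
    exact mul_le_mul (by norm_num) he (by positivity) (by positivity)
  · refine hdY.trans ?_
    rw [mul_div_assoc, pow_add, mul_comm (2 ^ (2 * F) : ℝ), mul_assoc]
    exact mul_le_mul (by norm_num) he (by positivity) (by positivity)

lemma gain_sq {m E β : ℕ} {z : ℝ} (hz : 0 ≤ z) :
    (2 ^ 13 * ((2 : ℝ) ^ m) ^ 6 * (16 * ((2 : ℝ) ^ E)⁻¹) ^ 4 *
      ((Real.sqrt (2 ^ β))⁻¹ + 4 * Real.sqrt z +
        ((2 : ℝ) ^ m) ^ 3 * (16 * ((2 : ℝ) ^ E)⁻¹))) ^ 2 ≤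
      2 ^ (60 + 12 * m) * ((2 : ℝ) ^ (8 * E + β))⁻¹ +
        2 ^ (64 + 12 * m) * ((2 : ℝ) ^ (8 * E))⁻¹ * z +
        2 ^ (68 + 18 * m) * ((2 : ℝ) ^ (10 * E))⁻¹ := by
  set u := ((2 : ℝ) ^ E)⁻¹ with hu
  set s := (Real.sqrt ((2 : ℝ) ^ β))⁻¹ with hs
  set t := 4 * Real.sqrt z with ht
  set v := ((2 : ℝ) ^ m) ^ 3 * (16 * u) with hv
  have e1 : s ^ 2 = ((2 : ℝ) ^ β)⁻¹ := by rw [hs, inv_pow, Real.sq_sqrt (by positivity)]
  have e2 : t ^ 2 = 16 * z := by rw [ht, mul_pow, Real.sq_sqrt hz]; norm_num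
  have h3 : (s + t + v) ^ 2 ≤ 4 * (s ^ 2 + t ^ 2 + v ^ 2) := by
    nlinarith [sq_nonneg (s - t), sq_nonneg (t - v), sq_nonneg (s - v)]
  rw [e1, e2] at h3
  have hc : (2 ^ 13 * ((2 : ℝ) ^ m) ^ 6 * (16 * u) ^ 4) ^ 2 =
      2 ^ (58 + 12 * m) * u ^ 8 := by ring
  rw [mul_pow _ _ 2, hc]
  refine (mul_le_mul_of_nonneg_left h3 (by positivity)).trans (le_of_eq ?_)
  rw [hv, show 8 * E + β = E * 8 + β by ring, show 10 * E = E * 10 by ring,
    show 8 * E = E * 8 by ring, pow_add (2 : ℝ) (E * 8), mul_inv, pow_mul, pow_mul, ← inv_pow,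
    ← inv_pow, ← hu]
  ring

/-- The small parameters of the gain. -/
lemma gain_params {E F β R m H : ℕ} (hh : StageHyp E F β R m H) :
    16 * ((2 : ℝ) ^ E)⁻¹ ≤ 1 ∧ (m * 2 ^ (2 * H) ≤ 2 ^ (9 * H) ∧ m * 2 ^ (2 * H) ≤ 2 ^ (3 * H)) ∧
      ((2 : ℝ) ^ m * (2 / Real.sqrt (((2 ^ (2 * H) : ℕ) : ℝ) + 1))) ^ m ≤
          (16 * ((2 : ℝ) ^ E)⁻¹) ^ 4 ∧
      (((2 : ℝ) ^ 2 ^ (9 * H))⁻¹ ≤ (16 * ((2 : ℝ) ^ E)⁻¹) ^ 6 ∧
        ((2 : ℝ) ^ 2 ^ (3 * H))⁻¹ ≤ (16 * ((2 : ℝ) ^ E)⁻¹) ^ 6) ∧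
      ((2 : ℝ) ^ 2 ^ (2 * β))⁻¹ ≤ (Real.sqrt (2 ^ β))⁻¹ ∧
      32 * ((2 : ℝ) ^ m) ^ 2 * (16 * ((2 : ℝ) ^ F)⁻¹) ≤ 1 ∧
      256 * (((2 : ℝ) ^ m) ^ 3 * (16 * ((2 : ℝ) ^ E)⁻¹)) ≤ 1 := by
  obtain ⟨hm, hH, hβ, hE, hFE, hF, -, -, -⟩ := hh
  have hεlow : ((2 : ℝ) ^ E)⁻¹ ≤ 16 * ((2 : ℝ) ^ E)⁻¹ :=
    le_mul_of_one_le_left (by positivity) (by norm_num)
  have ht3 := (tail_small (E := E) (by omega) hH).trans (pow_le_pow_left₀ (by positivity) hεlow 6)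
  refine ⟨?_, ⟨?_, ?_⟩, (lin_small (by omega) hH).trans (pow_le_pow_left₀ (by positivity) hεlow 4),
    ⟨(inv_le_inv_pow (Nat.pow_le_pow_right (by norm_num) (by omega : 3 * H ≤ 9 * H))).trans ht3,
      ht3⟩, ?_, ?_, ?_⟩
  · rw [show (16 : ℝ) = 2 ^ 4 by norm_num]
    exact (two_pow_mul_inv (c := 0) (by omega)).trans (by norm_num)
  · rw [show 9 * H = 7 * H + 2 * H by ring, pow_add]
    exact Nat.mul_le_mul_right _ (le_trans (by omega) Nat.lt_two_pow_self.le)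
  · rw [show 3 * H = H + 2 * H by ring, pow_add]
    exact Nat.mul_le_mul_right _ (le_trans (by omega) Nat.lt_two_pow_self.le)
  · refine inv_anti₀ (by positivity) (Real.sqrt_le_iff.2 ⟨by positivity, ?_⟩)
    rw [← pow_mul]
    refine pow_le_pow_right₀ (by norm_num) ?_
    have h4 := Nat.lt_two_pow_self (n := β)
    have h5 : 2 ^ β ≤ 2 ^ (2 * β) := Nat.pow_le_pow_right (by norm_num) (by omega)
    omega
  · rw [show (32 : ℝ) = 2 ^ 5 by norm_num, show (16 : ℝ) = 2 ^ 4 by norm_num, ← pow_mul,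
      ← mul_assoc, ← pow_add, ← pow_add]
    exact (two_pow_mul_inv (c := 0) (by omega)).trans (by norm_num)
  · rw [show (256 : ℝ) = 2 ^ 8 by norm_num, show (16 : ℝ) = 2 ^ 4 by norm_num, ← pow_mul,
      ← mul_assoc (2 ^ (m * 3) : ℝ), ← pow_add, ← mul_assoc, ← pow_add]
    exact (two_pow_mul_inv (c := 0) (by omega)).trans (by norm_num)

/-- The error terms of the distance. -/
lemma dist_numbers {E F β R m H E' : ℕ} (hh : StageHyp E F β R m H)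
    (h1 : 2 * (E' + (5 * H + 30 * m + 200)) ≤ 8 * E + β)
    (h2 : 2 * (E' + (5 * H + 30 * m + 200)) + β ≤ 8 * E + 2 * F)
    (h3 : 12 * E' + 2 * F + 16 * β + 100 * H ≤ R) :
    (2 ^ 13 * ((2 : ℝ) ^ m) ^ 6 * (16 * ((2 : ℝ) ^ E)⁻¹) ^ 4 *
      ((Real.sqrt (2 ^ β))⁻¹ + 4 * Real.sqrt (stageZ F β m H) +
        ((2 : ℝ) ^ m) ^ 3 * (16 * ((2 : ℝ) ^ E)⁻¹))) ^ 2 +
      5 * (2 ^ (21 * H + 3 * β + 36 + (F + 2)) * ((2 : ℝ) ^ R)⁻¹) +
      ((16 * stageZ F β m H) ^ stageK + ((2 : ℝ) ^ stageT E β R H)⁻¹) +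
      2 * (3 * ((2 : ℝ) ^ stageT E β R H)⁻¹) ≤ (((2 : ℝ) ^ E')⁻¹) ^ 2 := by
  obtain ⟨hm, hH, hβ, hE, hFE, hF, -, hR2, -⟩ := hh
  have hz0 : 0 ≤ stageZ F β m H := by unfold stageZ; positivity
  set c := 2 * E' + 4 with hc
  have g1 : (2 : ℝ) ^ (60 + 12 * m) * ((2 : ℝ) ^ (8 * E + β))⁻¹ ≤ ((2 : ℝ) ^ c)⁻¹ :=
    two_pow_mul_inv (by omega)
  have g2 : (2 : ℝ) ^ (64 + 12 * m) * ((2 : ℝ) ^ (8 * E))⁻¹ * stageZ F β m H ≤
      ((2 : ℝ) ^ c)⁻¹ := by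
    rw [stageZ, show ∀ a b p q : ℝ, a * b * (p * q) = a * p * (b * q) from fun a b p q => by ring,
      ← pow_add, ← mul_inv, ← pow_add]
    exact two_pow_mul_inv (by omega)
  have g3 : (2 : ℝ) ^ (68 + 18 * m) * ((2 : ℝ) ^ (10 * E))⁻¹ ≤ ((2 : ℝ) ^ c)⁻¹ :=
    two_pow_mul_inv (by omega)
  have g4 : 5 * (2 ^ (21 * H + 3 * β + 36 + (F + 2)) * ((2 : ℝ) ^ R)⁻¹) ≤ ((2 : ℝ) ^ c)⁻¹ := by
    refine le_trans (mul_le_mul_of_nonneg_right (show (5 : ℝ) ≤ 2 ^ 3 by norm_num) (by positivity))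
      ?_
    rw [← mul_assoc, ← pow_add]
    exact two_pow_mul_inv (by clear * - h3 hβ hH hm hc; omega)
  have g5 : (16 * stageZ F β m H) ^ stageK ≤ ((2 : ℝ) ^ c)⁻¹ := by
    refine drift_bad_le hz0 (d := 2 * F - (49 + 2 * m + 6 * H + β)) ?_ ?_
    · rw [stageZ]
      exact two_pow_mul_inv (by omega)
    · rw [stageK_eq]; omega
  have g6 : ((2 : ℝ) ^ stageT E β R H)⁻¹ ≤ ((2 : ℝ) ^ c)⁻¹ :=
    inv_le_inv_pow (by rw [stageT]; omega)
  have g7 : (((2 : ℝ) ^ E')⁻¹) ^ 2 = 2 ^ 4 * ((2 : ℝ) ^ c)⁻¹ := by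
    rw [hc, inv_pow, ← pow_mul, mul_comm E', pow_add _ (2 * E'), mul_inv]
    field_simp
  rw [g7]
  have hsq := gain_sq (m := m) (E := E) (β := β) hz0
  have hi : (0 : ℝ) ≤ ((2 : ℝ) ^ c)⁻¹ := by positivity
  linarith

/-- The weighted distance of the new pair. -/
theorem dist_stage (hD : DriftStmt) {E F β R m H E' : ℕ} (hh : StageHyp E F β R m H)
    (h1 : 2 * (E' + (5 * H + 30 * m + 200)) ≤ 8 * E + β)
    (h2 : 2 * (E' + (5 * H + 30 * m + 200)) + β ≤ 8 * E + 2 * F)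
    (h3 : 12 * E' + 2 * F + 16 * β + 100 * H ≤ R) {U V : Alg} (hU : IsProb U) (hV : IsProb V)
    (hdist : Dev (U - V) (U + V) ((2 : ℝ) ^ E)⁻¹)
    (hexc : Exc U V ((2 : ℝ) ^ F)⁻¹ ((2 : ℝ) ^ R)⁻¹)
    (hov : nrm (U ^ (2 ^ β + 1) - U ^ 2 ^ β) ≤ 1 / 2) :
    Dev (wd U V (stageMask (2 ^ (9 * H)) (2 ^ (3 * H)) (2 ^ β) (stageBX H β) m (winA m)) -
        wd U V (stageMask (2 ^ (9 * H)) (2 ^ (3 * H)) (2 ^ β) (stageBX H β) m (winB m)))
      (wd U V (stageMask (2 ^ (9 * H)) (2 ^ (3 * H)) (2 ^ β) (stageBX H β) m (winA m)) +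
        wd U V (stageMask (2 ^ (9 * H)) (2 ^ (3 * H)) (2 ^ β) (stageBX H β) m (winB m)))
      ((2 : ℝ) ^ E')⁻¹ := by
  obtain ⟨U', V', T, hdU, hdV⟩ := first_world hh hU hV hdist hexc hov
  obtain ⟨hovX, hdr⟩ := first_drift hD hh T.hU T.hV T.le T.overlap
  obtain ⟨p1, ⟨p2, p3⟩, p4, ⟨p5, p6⟩, p7, p8, p9⟩ := gain_params hh
  have hnum := dist_numbers hh h1 h2 h3
  have hsqrt := sqrt_small hh.stageZ_le
  have hmH : m ≤ H := le_trans (Nat.le_mul_of_pos_left m (by norm_num)) hh.hH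
  have hH1 : 1000 ≤ H := le_trans hh.hm hmH
  obtain ⟨-, ⟨hLA, hL2⟩, -, -, -, -, hpad⟩ := stage_sizes (β := β) hmH hH1
  have hg := gain_allq T (w := (2 : ℝ) ^ m) (h₁ := 2 ^ (2 * H)) (BX := stageBX H β)
    (ζ := 4 * Real.sqrt (stageZ F β m H))
    (τ := ((2 : ℝ) ^ stageT E β R H)⁻¹)
    (bad := (16 * stageZ F β m H) ^ stageK + ((2 : ℝ) ^ stageT E β R H)⁻¹) rfl
    p1 p2 p3 p4 p5 p6 p7 p8 (by positivity) p9
    hpad rfl (hovX.trans (by norm_num)) (by linarith)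
    (inv_le_one_of_one_le₀ (one_le_pow₀ (by norm_num)))
    (hdr _ (le_trans (le_two_mul_add _ _) hL2)).1 (hdr _ hL2).2
  set hA := 2 ^ (9 * H)
  set hB := 2 ^ (3 * H)
  set BX := stageBX H β
  have hδ : ∀ l : List Bool, l.length = 2 ^ m →
      nrm (wd U V (stageMask hA hB (2 ^ β) BX m l) - wd U' V' (stageMask hA hB (2 ^ β) BX m l)) ≤
        2 ^ (21 * H + 3 * β + 36 + (F + 2)) * ((2 : ℝ) ^ R)⁻¹ := fun l hl => by
    refine (nrm_wd_sub hU hV T.hU T.hV hdU hdV _).trans ?_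
    rw [length_stageMask hl, pow_add _ (21 * H + 3 * β + 36), mul_assoc,
      show 21 * H + 3 * β + 36 = 12 * H + 2 * β + 27 + (9 * H + β + 9) by ring, pow_add]
    exact mul_le_mul_of_nonneg_right ((Nat.cast_le.2 (Nat.mul_le_mul hL2 hLA)).trans_eq
      (by rw [Nat.cast_mul, Nat.cast_pow, Nat.cast_pow, Nat.cast_ofNat, ← pow_add])) (by positivity)
  have hz0 : 0 ≤ stageZ F β m H := by unfold stageZ; positivity
  exact dev_transfer_add (isProb_wd hU hV _) (isProb_wd hU hV _) (by positivity) (by positivity)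
    (hδ _ (length_winA m)) (hδ _ (length_winB m)) (fun φ hφ => hg φ hφ) (by positivity) hnum

/-- The likelihood ratios and the overlap of the new pair. -/
theorem exc_ov_stage (hD : DriftStmt) {E F β R m H : ℕ} (hh : StageHyp E F β R m H) {U V : Alg}
    (hU : IsProb U) (hV : IsProb V) (hdist : Dev (U - V) (U + V) ((2 : ℝ) ^ E)⁻¹)
    (hexc : Exc U V ((2 : ℝ) ^ F)⁻¹ ((2 : ℝ) ^ R)⁻¹)
    (hov : nrm (U ^ (2 ^ β + 1) - U ^ 2 ^ β) ≤ 1 / 2) :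
    Exc (wd U V (stageMask (2 ^ (9 * H)) (2 ^ (3 * H)) (2 ^ β) (stageBX H β) m (winA m)))
        (wd U V (stageMask (2 ^ (9 * H)) (2 ^ (3 * H)) (2 ^ β) (stageBX H β) m (winB m)))
        ((2 : ℝ) ^ (4 * F - 6 * m - 40))⁻¹
        ((2 : ℝ) ^ (R - (4 * β + 21 * H + F + 100)))⁻¹ ∧
      nrm (wd U V (stageMask (2 ^ (9 * H)) (2 ^ (3 * H)) (2 ^ β) (stageBX H β) m (winA m)) ^
            (2 ^ (4 * β + 21 * H + 100) + 1) -
          wd U V (stageMask (2 ^ (9 * H)) (2 ^ (3 * H)) (2 ^ β) (stageBX H β) m (winA m)) ^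
            2 ^ (4 * β + 21 * H + 100)) ≤ 1 / 2 := by
  obtain ⟨U', V', T, hdU, hdV⟩ := first_world hh hU hV hdist hexc hov
  obtain ⟨hovX, -⟩ := first_drift hD hh T.hU T.hV T.le T.overlap
  obtain ⟨X₁, Y₁, Tw, hdX, hdY⟩ :=
    second_world hh T.hU T.hV T.le T.overlap (hovX.trans (by norm_num))
  have hroom := hh.room
  have h2p := hh.two_pow 3 (by norm_num)
  obtain ⟨hm, hH, hβ, hE, hFE, hF, -, hR2, hR3⟩ := hh
  obtain ⟨⟨-, hwB⟩, ⟨hLA, hL2⟩, ⟨-, hB'⟩, ⟨-, hjB⟩, -, hLB, -⟩ :=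
    stage_sizes (β := β) (by omega : m ≤ H) (by omega)
  set hA := 2 ^ (9 * H) with hAdef
  set hB := 2 ^ (3 * H) with hBdef
  set BX := stageBX H β with hBXdef
  set b' := 4 * β + 21 * H + 100 with hb'
  set TT := stageT E β R H with hTT
  set P₂ := padLen hB BX with hP₂
  -- distance to the truncated world
  set δ : ℝ := 2 ^ (21 * H + 3 * β + F + 39) * ((2 : ℝ) ^ R)⁻¹ with hδdef
  have hcell : ∀ l : List Bool, l.length = 2 ^ m →
      nrm (wd U V (cellMask hA (2 ^ β) l) - wd U' V' (cellMask hA (2 ^ β) l)) ≤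
        2 ^ (9 * H + β + F + 11) * ((2 : ℝ) ^ R)⁻¹ := fun l hl => by
    refine (nrm_wd_sub hU hV T.hU T.hV hdU hdV _).trans ?_
    rw [length_cellMask _ _ hl,
      show 9 * H + β + F + 11 = 9 * H + β + 9 + (F + 2) by omega, pow_add _ (9 * H + β + 9),
      mul_assoc]
    exact mul_le_mul_of_nonneg_right
      ((Nat.cast_le.2 hLA).trans_eq (by rw [Nat.cast_pow, Nat.cast_ofNat])) (by positivity)
  have hTR : 2 ^ (2 * F + 2) * ((2 : ℝ) ^ TT)⁻¹ ≤ 2 ^ (9 * H + β + F + 11) * ((2 : ℝ) ^ R)⁻¹ := by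
    refine (two_pow_mul_inv (c := R) (by rw [hTT, stageT]; omega)).trans ?_
    exact le_mul_of_one_le_left (by positivity) (one_le_pow₀ (by norm_num))
  have hnear : ∀ (l : List Bool) (Z : Alg), l.length = 2 ^ m →
      nrm (wd U' V' (cellMask hA (2 ^ β) l) - Z) ≤ 2 ^ (2 * F + 2) * ((2 : ℝ) ^ TT)⁻¹ →
      nrm (wd U V (cellMask hA (2 ^ β) l) - Z) ≤
        2 ^ (9 * H + β + F + 12) * ((2 : ℝ) ^ R)⁻¹ := fun l Z hl hZ => by
    rw [show wd U V (cellMask hA (2 ^ β) l) - Z =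
      (wd U V (cellMask hA (2 ^ β) l) - wd U' V' (cellMask hA (2 ^ β) l)) +
        (wd U' V' (cellMask hA (2 ^ β) l) - Z) by abel]
    refine (nrm_add _ _).trans ((add_le_add (hcell l hl) (hZ.trans hTR)).trans (le_of_eq ?_))
    rw [show 9 * H + β + F + 12 = 9 * H + β + F + 11 + 1 by omega, pow_succ]
    ring
  have hδ : ∀ l : List Bool, l.length = 2 ^ m →
      nrm (wd U V (stageMask hA hB (2 ^ β) BX m l) - wd X₁ Y₁ (cellMask hB BX l)) ≤ δ :=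
    fun l hl => by
    rw [stageMask, wd_wdList]
    refine (nrm_wd_sub (isProb_wd hU hV _) (isProb_wd hU hV _) Tw.hU Tw.hV
      (hnear _ X₁ (length_winA m) hdX) (hnear _ Y₁ (length_winB m) hdY) _).trans ?_
    rw [length_cellMask _ _ hl, hδdef,
      show 21 * H + 3 * β + F + 39 = 12 * H + 2 * β + 27 + (9 * H + β + F + 12) by omega,
      pow_add _ (12 * H + 2 * β + 27), mul_assoc]
    exact mul_le_mul_of_nonneg_right
      ((Nat.cast_le.2 hL2).trans_eq (by rw [Nat.cast_pow, Nat.cast_ofNat])) (by positivity)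
  refine ⟨?_, ?_⟩
  · obtain ⟨R₂, hR₂, hR₂m, hR₂le⟩ := level_ratio (h := hB) (m := m) (h₁ := 2 ^ (2 * H))
      Tw.hU Tw.hV (by positivity) Tw.le Tw.overlap (by
        rw [hBdef, show 3 * H = H + 2 * H by ring, pow_add]
        exact Nat.mul_le_mul_right _ (le_trans (by omega) Nat.lt_two_pow_self.le))
      ((lin_small (E := E) (by omega) hH).trans (by
        rw [inv_pow, ← pow_mul]
        exact (inv_le_inv_pow (by omega : 2 * F ≤ E * 4)).trans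
          (le_mul_of_one_le_left (by positivity) (one_le_pow₀ (by norm_num)))))
      (by
        rw [show (32 : ℝ) = 2 ^ 5 by norm_num, ← pow_mul, ← mul_assoc, ← pow_add, ← pow_add]
        exact (two_pow_mul_inv (c := 0) (by omega)).trans (by norm_num))
    have hη₂ : 8 * ((2 : ℝ) ^ m) ^ 2 * (2 ^ (15 + 2 * m) * ((2 : ℝ) ^ (2 * F))⁻¹) ^ 2 =
        2 ^ (33 + 6 * m) * ((2 : ℝ) ^ (4 * F))⁻¹ := by
      rw [mul_pow (2 ^ (15 + 2 * m) : ℝ), inv_pow, ← pow_mul, ← pow_mul, ← pow_mul,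
        show 4 * F = 2 * F * 2 by ring]
      ring
    rw [hη₂] at hR₂le
    set η₂ := (2 : ℝ) ^ (33 + 6 * m) * ((2 : ℝ) ^ (4 * F))⁻¹ with hη₂def
    have hη₂1 : η₂ ≤ 1 := (two_pow_mul_inv (c := 0) (by omega)).trans (by norm_num)
    have hxe := exc_transfer (by positivity) hη₂1 (hδ _ (length_winA m)) (hδ _ (length_winB m))
      (exc_of_le (isProb_wd Tw.hU Tw.hV _).pos (by positivity) hR₂
        (hR₂m.trans (inv_le_inv_pow h2p)) hR₂le)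
    refine hxe.mono (isProb_wd hU hV _).pos (isProb_wd hU hV _).pos (two_pow_mul_inv (by omega)) ?_
    have q1 : 4 * δ ≤ ((2 : ℝ) ^ (R - b' - F + 1))⁻¹ := by
      rw [hδdef, show (4 : ℝ) = 2 ^ 2 by norm_num, ← mul_assoc, ← pow_add]
      exact two_pow_mul_inv (by omega)
    have q2 : ((2 : ℝ) ^ TT)⁻¹ ≤ ((2 : ℝ) ^ (R - b' - F + 1))⁻¹ :=
      inv_le_inv_pow (by rw [hTT, stageT]; omega)
    have q3 : ((2 : ℝ) ^ (R - b' - F + 1))⁻¹ * 2 =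
        ((2 : ℝ) ^ (R - (4 * β + 21 * H + F + 100)))⁻¹ := by
      rw [show R - (4 * β + 21 * H + F + 100) = R - b' - F by omega, pow_succ, mul_inv]
      ring
    linarith
  · set z₂ : ℝ := 2 ^ (108 + 6 * m + 2 * β + 11 * H) * ((2 : ℝ) ^ (4 * F))⁻¹ with hz₂
    have hz₂' : z₂ ≤ ((2 : ℝ) ^ 14)⁻¹ := two_pow_mul_inv (by omega)
    have hlen : (winA m).length = 2 ^ m := length_winA m
    have hL : 2 ^ b' + 1 ≤ 2 ^ (b' + 2) := succ_le_two_pow (by omega)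
    have hPle : P₂ ≤ 2 ^ (b' + 2) :=
      le_trans (le_two_mul_add P₂ _)
        (hL2.trans (Nat.pow_le_pow_right (by norm_num) (by omega)))
    have h := overlap_drift hD (z := z₂) (τ := ((2 : ℝ) ^ TT)⁻¹) (k := stageK) (B' := 2 ^ b')
      (hj := 2 ^ H) (P := P₂) (l := winA m)
      Tw.hU Tw.hV (by positivity) Tw.le Tw.overlap stageK_pos (Nat.two_pow_pos H)
      (hlen.le.trans hwB) hjB hLB (by
        rw [hlen]
        refine (driftZ_le (s := 2 * β + 11 * H + 51)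
          (hL.trans (Nat.pow_le_pow_right (by norm_num) (by omega)))).trans_eq ?_
        rw [hz₂, show 2 * (2 * F) = 4 * F by ring,
          show 27 + 2 * (15 + 2 * m) + 2 * m + (2 * β + 11 * H + 51) =
            108 + 6 * m + 2 * β + 11 * H by omega])
      (hz₂'.trans (by norm_num))
      (driftTail_le (by omega) hL hPle (by rw [hTT, stageT]; omega))
      (Nat.mul_pos (by rw [hlen]; exact Nat.lt_of_lt_of_le (Nat.two_pow_pos m) (Nat.le_add_left _ _))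
        (Nat.two_pow_pos _))
      (by rw [hlen]; exact hB')
    refine (overlap_transfer (isProb_wd hU hV _) (isProb_wd Tw.hU Tw.hV _)
      (hδ _ (length_winA m)) _).trans ?_
    rw [show cellMask hB BX (winA m) = padMask P₂ (winA m) from rfl]
    have hd : (2 * ((2 ^ b' : ℕ) : ℝ) + 1) * δ ≤ 1 / 16 := by
      refine (mul_le_mul_of_nonneg_right (two_mul_cast_add_one_le b') (by positivity)).trans ?_
      rw [hδdef, ← mul_assoc, ← pow_add]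
      exact (two_pow_mul_inv (c := 4) (by omega)).trans (by norm_num)
    have hτ : ((2 : ℝ) ^ TT)⁻¹ ≤ 1 / 64 :=
      (inv_le_inv_pow (a := 6) (by rw [hTT, stageT]; omega)).trans (by norm_num)
    have hsz := sqrt_small hz₂'
    linarith

/-- **One stage**, from the drift. -/
theorem stage_allq (hD : DriftStmt) : StageStmt := by
  intro p x y E F β R m H E' h0 h1 hi hm hH hβ hE hFE _ hF hR hR2 he1 he2 he3
  have hh : StageHyp E F β R m H := ⟨hm, hH, hβ, hE, hFE, hF, hR, hR2, by omega⟩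
  have hU : IsProb (tr p x) := isProb_tr h0 h1 x
  have hV : IsProb (tr p y) := isProb_tr h0 h1 y
  obtain ⟨hex, hov⟩ := exc_ov_stage hD hh hU hV hi.dist hi.exc hi.overlap
  have hd := dist_stage hD hh he1 he2 he3 hU hV hi.dist hi.exc hi.overlap
  set mk := stageMask (2 ^ (9 * H)) (2 ^ (3 * H)) (2 ^ β) (stageBX H β) m with hmk
  refine ⟨wdList x y (mk (winA m)), wdList x y (mk (winB m)), ⟨?_, ?_, ?_, ?_, ?_, ?_⟩⟩
  · rw [wdList_length hi.len, wdList_length hi.len, hmk, length_stageMask (length_winA m),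
      length_stageMask (length_winB m)]
  · intro e'
    have e1 := wdList_inj hi.len hi.ne
      (by rw [hmk, length_stageMask (length_winA m), length_stageMask (length_winB m)]) e'
    have hinj : ∀ {P : ℕ} {l l' : List Bool}, padMask P l = padMask P l' → l = l' := fun e =>
      List.append_cancel_left (List.append_cancel_right e)
    rw [hmk, stageMask, stageMask] at e1
    have hcl : (cellMask (2 ^ (9 * H)) (2 ^ β) (winA m)).length =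
        (cellMask (2 ^ (9 * H)) (2 ^ β) (winB m)).length := by
      rw [length_cellMask _ _ (length_winA m), length_cellMask _ _ (length_winB m)]
    have e2 := wdList_inj hcl (fun e => winA_ne m (hinj e))
      (by rw [length_cellMask _ _ (length_winA m), length_cellMask _ _ (length_winB m)])
      e1
    exact winA_ne m (hinj e2)
  · rw [wdList_length hi.len, hmk, length_stageMask (length_winA m)]
    obtain ⟨-, ⟨hLA, hL2⟩, -⟩ := stage_sizes (β := β) (by omega : m ≤ H) (by omega)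
    refine (Nat.mul_le_mul (Nat.mul_le_mul hL2 hLA) hi.short).trans ?_
    rw [← pow_add, ← pow_add]
    exact Nat.pow_le_pow_right (by norm_num) (by omega)
  · rw [tr_wdList, tr_wdList]; exact hd
  · rw [tr_wdList, tr_wdList]; exact hex
  · rw [tr_wdList]; exact hov

end Vale.Agent.P321
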