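import Vale.Agent.P321.Super.Gain
import Vale.Agent.P321.AllQ.Interfaces

/-!
P321, every deletion probability, module C: the gain of one stage in the truncated world. The two
powers of the padded window are replaced by pure powers through the drift (given as hypotheses),
so that no union bound over the marks is needed.
-/

open Finset

namespace Vale.Agent.P321

/-- The mask of the next word: a window over the two padded windows, padded by the first. -/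
def stageMask (hA hB B BX m : ℕ) (l : List Bool) : List Bool :=
  wdList (cellMask hA B (winA m)) (cellMask hA B (winB m)) (cellMask hB BX l)

lemma length_cellMask (h B : ℕ) {m : ℕ} {l : List Bool} (hl : l.length = 2 ^ m) :
    (cellMask h B l).length = 2 * padLen h B + 2 ^ m := by
  rw [cellMask, length_padMask, hl]

lemma count_cellMask_le (h B : ℕ) {m : ℕ} {l : List Bool} (hl : l.length = 2 ^ m) :
    (cellMask h B l).count true ≤ 2 ^ m := by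
  rw [cellMask, count_padMask]
  exact List.count_le_length.trans hl.le

lemma length_stageMask {hA hB B BX m : ℕ} {l : List Bool} (hl : l.length = 2 ^ m) :
    (stageMask hA hB B BX m l).length =
      (2 * padLen hB BX + 2 ^ m) * (2 * padLen hA B + 2 ^ m) := by
  rw [stageMask, wdList_length, length_cellMask _ _ hl, length_cellMask _ _ (length_winA m)]
  rw [length_cellMask _ _ (length_winA m), length_cellMask _ _ (length_winB m)]

lemma nrm_mul3 (f g k : Alg) : nrm (f * g * k) ≤ nrm f * nrm g * nrm k :=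
  (nrm_mul _ _).trans (mul_le_mul_of_nonneg_right (nrm_mul _ _) (nrm_nonneg _))

/-- The middle of the pair part against its pure counterpart. -/
theorem middle_facts {U D X D₁ Q : Alg} {ε δ d w : ℝ} {m LA : ℕ} (hU : IsProb U)
    (hdev : Dev D U ε) (hwdef : w = (2 : ℝ) ^ m) (hd : d = 3 * w ^ 2 * ε ^ 2)
    (hδ : δ = 2 * w * ε) (hsmall : 256 * (w ^ 2 * ε) ≤ 1)
    (hQc : Comb U D LA 2 (2 * (2 ^ m) ^ 2) Q) (hQd : Dev Q (U ^ LA) d)
    (hE₁ : Dev (D₁ - Q) (U ^ LA) (δ * d)) (hD₁d : Dev D₁ (U ^ LA) d)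
    (hXU : Dev (X - U ^ LA) (U ^ LA) δ) :
    ∃ M₀ : Alg, Comb U D (2 ^ m * LA) 4 (16 * (2 ^ m) ^ 6) M₀ ∧
      Dev (Lr X D₁ 2 (winB m) - Lr X D₁ 2 (winA m) - M₀) (U ^ (2 ^ m * LA))
        (2 ^ 11 * w ^ 6 * ε ^ 4 * (w ^ 2 * ε)) ∧
      Dev (Lr X D₁ 2 (winB m) - Lr X D₁ 2 (winA m)) (U ^ (2 ^ m * LA))
        (24 * w ^ 6 * ε ^ 4) := by
  have hε := hdev.nonneg
  have hw : 1 ≤ w := by rw [hwdef]; exact one_le_pow₀ (by norm_num)
  have hδ0 : 0 ≤ δ := hXU.nonneg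
  have hUL := hU.pow LA
  set M₀ := Lr (U ^ LA) Q 2 (winB m) - Lr (U ^ LA) Q 2 (winA m) with hM₀
  have hc : Comb U D (2 ^ m * LA) 4 (16 * (2 ^ m) ^ 6) M₀ := by
    have a := Comb.lr hQc (winA m) 2
    have b := Comb.lr hQc (winB m) 2
    rw [length_winA] at a
    rw [length_winB] at b
    refine (b.sub a).mono ?_
    have hcount : ∀ l : List Bool, l.length = 2 ^ m →
        (l.count true * (2 * (2 ^ m) ^ 2)) ^ 2 ≤ 4 * (2 ^ m) ^ 6 := fun l hl => by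
      calc (l.count true * (2 * (2 ^ m) ^ 2)) ^ 2 ≤ (2 ^ m * (2 * (2 ^ m) ^ 2)) ^ 2 :=
            Nat.pow_le_pow_left (Nat.mul_le_mul_right _ (hl ▸ List.count_le_length)) 2
        _ = _ := by ring
    have h1 := hcount _ (length_winA m)
    have h2 := hcount _ (length_winB m)
    omega
  have hsub : Dev (Lr X D₁ 2 (winB m) - Lr X D₁ 2 (winA m) - M₀) (U ^ (2 ^ m * LA))
      (2 ^ 11 * w ^ 6 * ε ^ 4 * (w ^ 2 * ε)) := by
    have a := dev_Lr_sub hUL hδ0 hXU hE₁ hD₁d hQd (winA m) 2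
    have b := dev_Lr_sub hUL hδ0 hXU hE₁ hD₁d hQd (winB m) 2
    rw [length_winA, ← pow_mul, mul_comm LA] at a
    rw [length_winB, ← pow_mul, mul_comm LA] at b
    have e : Lr X D₁ 2 (winB m) - Lr X D₁ 2 (winA m) - M₀ =
        Lr X D₁ 2 (winB m) - Lr (U ^ LA) Q 2 (winB m) -
          (Lr X D₁ 2 (winA m) - Lr (U ^ LA) Q 2 (winA m)) := by rw [hM₀]; abel
    rw [e]
    refine (b.sub a).mono ?_
    have hwn : ((2 ^ m : ℕ) : ℝ) = w := by rw [hwdef]; norm_num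
    rw [hwn]
    have hg : (1 + δ) ^ 2 ^ m ≤ 2 := add_one_pow_le_two hδ0 le_rfl (by
      rw [hwn, hδ]; nlinarith)
    have hw1 : (w + 1) ^ 3 ≤ (2 * w) ^ 3 := pow_le_pow_left₀ (by linarith) (by linarith) 3
    calc _ = (w + 1) ^ 3 * d ^ 2 * (1 + δ) ^ 2 ^ m * (δ + δ) * 2 := by ring
      _ ≤ (2 * w) ^ 3 * d ^ 2 * 2 * (δ + δ) * 2 := by gcongr
      _ = 1152 * (w ^ 8 * ε ^ 5) := by rw [hd, hδ]; ring
      _ ≤ 2 ^ 11 * (w ^ 8 * ε ^ 5) := by
          refine mul_le_mul_of_nonneg_right (by norm_num) (by positivity)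
      _ = _ := by ring
  refine ⟨M₀, hc, hsub, ?_⟩
  have := (hc.dev hU hdev).add hsub
  rw [add_sub_cancel] at this
  refine this.mono ?_
  push_cast
  rw [← hwdef]
  nlinarith [mul_le_mul_of_nonneg_left hsmall (by positivity : (0 : ℝ) ≤ 8 * (w ^ 6 * ε ^ 4))]

/-- Long pure pads dilute the main part by `2^(-β/2)`. -/
theorem dev_pure_pads {U D S : Alg} {ε σ w : ℝ} {B β N N₀ m : ℕ} (hU : IsProb U) (hdev : Dev D U ε)
    (hD0 : mass D = 0) (hovU : nrm (U ^ (B + 1) - U ^ B) ≤ 1)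
    (hN : padLen (2 ^ (2 * β)) B ≤ N) (hσ : σ = (Real.sqrt (2 ^ β))⁻¹)
    (hwdef : w = (2 : ℝ) ^ m) (htail : ((2 : ℝ) ^ 2 ^ (2 * β))⁻¹ ≤ σ)
    (hS : Comb U D N₀ 4 (16 * (2 ^ m) ^ 6) S) :
    Dev (U ^ N * S * U ^ N) (U ^ (N + N₀ + N)) (32 * w ^ 6 * ε ^ 4 * σ) := by
  have hε := hdev.nonneg
  obtain ⟨e, rfl⟩ := Nat.exists_eq_add_of_le hN
  have e2 := pad_dev hU hovU (2 ^ (2 * β)) (dev_sh_comb hU hdev hD0 (by norm_num) hS _)
    (hS.dev hU hdev)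
  rw [show 48 * 2 ^ (2 * β) * (B + 1) = padLen (2 ^ (2 * β)) B from rfl] at e2
  set Q := padLen (2 ^ (2 * β)) B
  have hP := hU.pow e
  have := ((Dev.self hP).mul hP.pos (hU.pow _).pos e2).mul (hP.pos.mul (hU.pow _).pos) hP.pos
    (Dev.self hP)
  rw [← pow_add, ← pow_add, show e + (Q + N₀ + Q) + e = Q + e + N₀ + (Q + e) by omega] at this
  have he : U ^ (Q + e) * S * U ^ (Q + e) = U ^ e * (U ^ Q * S * U ^ Q) * U ^ e := by
    nth_rw 1 [add_comm Q e]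
    simp only [pow_add, mul_assoc]
  rw [he]
  refine this.mono ?_
  have hq : Real.sqrt (1 / Real.sqrt (((2 ^ (2 * β) : ℕ) : ℝ) + 1)) ≤ σ := by
    rw [Real.sqrt_div zero_le_one, Real.sqrt_one, one_div, hσ]
    refine inv_anti₀ (by positivity) (Real.sqrt_le_sqrt ?_)
    refine Real.le_sqrt_of_sq_le ?_
    push_cast
    rw [← pow_mul, mul_comm β]
    linarith
  push_cast at hq ⊢
  rw [← hwdef, one_mul, mul_one]
  calc 16 * w ^ 6 * ε ^ 4 * Real.sqrt (1 / Real.sqrt ((2 : ℝ) ^ (2 * β) + 1)) +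
        ((2 : ℝ) ^ 2 ^ (2 * β))⁻¹ * (16 * w ^ 6 * ε ^ 4)
      ≤ 16 * w ^ 6 * ε ^ 4 * σ + σ * (16 * w ^ 6 * ε ^ 4) := by gcongr
    _ = _ := by ring

/-- The pair part, with the long blocks replaced through the drift. -/
theorem dev_pair_part {U X M M₀ G R : Alg} {ζ τ dM dS dM₀ : ℝ} {P n₀ N : ℕ} (hU : IsProb U)
    (hX : IsProb X) (hG : X ^ P - U ^ N = G + R) (hGd : Dev G (U ^ N) ζ) (hR : nrm R ≤ τ)
    (hζ1 : ζ ≤ 1) (hτ1 : τ ≤ 1) (hM : Dev M (U ^ n₀) dM) (hS : Dev (M - M₀) (U ^ n₀) dS)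
    (hM₀ : Dev (U ^ N * M₀ * U ^ N) (U ^ (N + n₀ + N)) dM₀) (hdM : dM ≤ 1) :
    ∃ Gd Rd : Alg, X ^ P * M * X ^ P = Gd + Rd ∧
      Dev Gd (U ^ (N + n₀ + N)) (dM₀ + dS + 3 * ζ * dM) ∧ nrm Rd ≤ 3 * τ := by
  have hN := hU.pow N
  have hn₀ := hU.pow n₀
  set A := U ^ N + G with hAdef
  have hXA : X ^ P = A + R := by rw [hAdef, add_assoc, ← hG]; abel
  refine ⟨A * M * A, R * M * X ^ P + A * M * R, ?_, ?_, ?_⟩
  · rw [hXA]; noncomm_ring
  · have e : A * M * A = U ^ N * M₀ * U ^ N + U ^ N * (M - M₀) * U ^ N +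
        (G * M * A + U ^ N * M * G) := by rw [hAdef]; noncomm_ring
    have tri : ∀ {f g k : Alg} {a b c : ℝ}, Dev f (U ^ N) a → Dev g (U ^ n₀) b →
        Dev k (U ^ N) c → Dev (f * g * k) (U ^ (N + n₀ + N)) (a * b * c) := fun hf hg hk => by
      have := (hf.mul hN.pos hn₀.pos hg).mul (hN.pos.mul hn₀.pos) hN.pos hk
      rwa [← pow_add, ← pow_add] at this
    rw [e]
    refine ((hM₀.add (tri (Dev.self hN) hS (Dev.self hN))).add
      ((tri hGd hM ((Dev.self hN).add hGd)).add (tri (Dev.self hN) hM hGd))).mono ?_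
    nlinarith [mul_le_mul_of_nonneg_left hζ1 (mul_nonneg hGd.nonneg hM.nonneg), hS.nonneg]
  · have hMn : nrm M ≤ 1 := hM.nrm_le.trans (by
      rw [hn₀.mass_one, Real.sqrt_one, mul_one]; exact hdM)
    have hAn : nrm A ≤ 2 := by
      rw [show A = X ^ P - R by rw [hXA]; abel]
      refine (nrm_sub _ _).trans ?_
      rw [nrm_of_pos (hX.pow P).pos, (hX.pow P).mass_one]
      linarith
    have hXn : nrm (X ^ P) = 1 := by rw [nrm_of_pos (hX.pow P).pos, (hX.pow P).mass_one]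
    have hR0 : 0 ≤ nrm R := nrm_nonneg _
    refine (nrm_add _ _).trans ((add_le_add (nrm_mul3 _ _ _) (nrm_mul3 _ _ _)).trans ?_)
    rw [hXn, mul_one]
    have h1 : nrm R * nrm M ≤ τ * 1 := mul_le_mul hR hMn (nrm_nonneg _) (hR0.trans hR)
    have h2 : nrm A * nrm M * nrm R ≤ 2 * 1 * τ :=
      mul_le_mul (mul_le_mul hAn hMn (nrm_nonneg _) two_pos.le) hR hR0 (by norm_num)
    linarith

/-- The part of the second level that is small against the first padded window. -/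
theorem dev_level_two_rest {X D₁ : Alg} {ε d w : ℝ} {h h₁ m B' : ℕ} (hX : IsProb X) (hε : 0 ≤ ε)
    (hD₁X : Dev D₁ X (2 * d)) (hov : nrm (X ^ (B' + 1) - X ^ B') ≤ 1) (hmh : m * h₁ ≤ h)
    (hlin : ((2 : ℝ) ^ m * (2 / Real.sqrt (h₁ + 1))) ^ m ≤ ε ^ 4)
    (htail : ((2 : ℝ) ^ h)⁻¹ ≤ ε ^ 6) (hwdef : w = (2 : ℝ) ^ m) (hd : d = 3 * w ^ 2 * ε ^ 2)
    (hsmall : 256 * (w ^ 3 * ε) ≤ 1) (hε1 : ε ≤ 1) :
    Dev (-(X ^ padLen h B' * tmLin X D₁ m * X ^ padLen h B') +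
        X ^ padLen h B' * ((wd X (X + D₁) (winB m) - ∑ i ∈ range 3, Lr X D₁ i (winB m)) -
          (wd X (X + D₁) (winA m) - ∑ i ∈ range 3, Lr X D₁ i (winA m))) * X ^ padLen h B')
      (X ^ (2 * padLen h B' + 2 ^ m)) (2 ^ 10 * w ^ 6 * ε ^ 4 * (w ^ 3 * ε)) := by
  have hw : 1 ≤ w := by rw [hwdef]; exact one_le_pow₀ (by norm_num)
  have hd0 : 0 ≤ d := by rw [hd]; positivity
  have hwd : 12 * (w * d) ≤ 1 := by
    rw [hd]
    nlinarith [mul_le_mul_of_nonneg_left hε1 (by positivity : (0 : ℝ) ≤ w ^ 3 * ε)]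
  refine ((dev_pad_lin hX hD₁X hov hmh).neg.add
    (dev_pad_high hX hD₁X (by rw [← hwdef]; linarith))).mono ?_
  rw [← hwdef]
  have h1 := mul_le_mul_of_nonneg_left hlin (by positivity : (0 : ℝ) ≤ 2 * d)
  rw [← hwdef] at h1
  have h2 := mul_le_mul_of_nonneg_right htail (by positivity : (0 : ℝ) ≤ 2 * w * (2 * d))
  have h4 : 4 * (w * ε) * ε ≤ 1 := by
    have := mul_le_of_le_one_right (by positivity : (0 : ℝ) ≤ 4 * (w * ε)) hε1
    have : w * ε ≤ w ^ 3 * ε :=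
      mul_le_mul_of_nonneg_right (le_self_pow₀ hw (by norm_num)) hε
    linarith
  calc _ ≤ 2 * d * ε ^ 4 + ε ^ 6 * (2 * w * (2 * d)) + 4 * (w * (2 * d)) ^ 3 := by linarith
    _ ≤ 3 * d * ε ^ 4 + 4 * (w * (2 * d)) ^ 3 := by
      nlinarith [mul_le_mul_of_nonneg_right h4 (by positivity : (0 : ℝ) ≤ d * ε ^ 4)]
    _ = (9 * w ^ 2 + 864 * w ^ 9) * ε ^ 6 := by rw [hd]; ring
    _ ≤ 873 * w ^ 9 * ε ^ 6 := by
      refine mul_le_mul_of_nonneg_right ?_ (by positivity)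
      linarith [pow_le_pow_right₀ hw (show 2 ≤ 9 by norm_num)]
    _ ≤ 873 * w ^ 9 * ε ^ 5 :=
      mul_le_mul_of_nonneg_left (pow_le_pow_of_le_one hε hε1 (by norm_num)) (by positivity)
    _ ≤ 2 ^ 10 * (w ^ 9 * ε ^ 5) := by
      rw [mul_assoc]; exact mul_le_mul_of_nonneg_right (by norm_num) (by positivity)
    _ = _ := by ring

/-- **The gain.** -/
theorem gain_allq {U V : Alg} {ε η : ℝ} {B : ℕ} (T : Til U V ε η B)
    {m hA hB h₁ BX β : ℕ} {w ζ τ bad : ℝ} (hwdef : w = (2 : ℝ) ^ m) (hε1 : ε ≤ 1)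
    (hmA : m * h₁ ≤ hA) (hmB : m * h₁ ≤ hB)
    (hlin : ((2 : ℝ) ^ m * (2 / Real.sqrt (h₁ + 1))) ^ m ≤ ε ^ 4)
    (htA : ((2 : ℝ) ^ hA)⁻¹ ≤ ε ^ 6) (htB : ((2 : ℝ) ^ hB)⁻¹ ≤ ε ^ 6)
    (htail3 : ((2 : ℝ) ^ 2 ^ (2 * β))⁻¹ ≤ (Real.sqrt (2 ^ β))⁻¹)
    (hη : 32 * w ^ 2 * η ≤ 1) (hη0 : 0 ≤ η) (hsmall : 256 * (w ^ 3 * ε) ≤ 1)
    (hpad : padLen (2 ^ (2 * β)) B ≤ padLen hB BX * (2 * padLen hA B + 2 ^ m))
    {X : Alg} (hXdef : X = wd U V (cellMask hA B (winA m)))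
    (hovX : nrm (X ^ (BX + 1) - X ^ BX) ≤ 1) (hζ1 : ζ ≤ 1) (hτ1 : τ ≤ 1)
    (hdrift : ∃ G R : Alg,
      X ^ padLen hB BX - U ^ (padLen hB BX * (2 * padLen hA B + 2 ^ m)) = G + R ∧
        Dev G (U ^ (padLen hB BX * (2 * padLen hA B + 2 ^ m))) ζ ∧ nrm R ≤ τ)
    (hpure : ∃ R : Alg, Pos R ∧ mass R ≤ bad ∧
      Pos ((2 : ℝ) • X ^ (2 * padLen hB BX + 2 ^ m) + R -
        U ^ ((2 * padLen hB BX + 2 ^ m) * (2 * padLen hA B + 2 ^ m))))
    (φ : List Bool → ℝ) (hφ : ∀ v, |φ v| ≤ 1) :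
    |ev (wd U V (stageMask hA hB B BX m (winA m)) - wd U V (stageMask hA hB B BX m (winB m))) φ| ≤
      2 ^ 13 * w ^ 6 * ε ^ 4 * ((Real.sqrt (2 ^ β))⁻¹ + ζ + w ^ 3 * ε) *
        Real.sqrt (ev (wd U V (stageMask hA hB B BX m (winA m))) (φ ^ 2) + bad) + 3 * τ := by
  obtain ⟨hU, hV, hdev, hle, hovU⟩ := T
  set D := V - U with hDdef
  have hD0 : mass D = 0 := by rw [hDdef, map_sub, hV.mass_one, hU.mass_one, sub_self]
  have hε := hdev.nonneg
  have hw : 1 ≤ w := by rw [hwdef]; exact one_le_pow₀ (by norm_num)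
  have hw13 : w * ε ≤ w ^ 3 * ε :=
    mul_le_mul_of_nonneg_right (le_self_pow₀ hw (by norm_num)) hε
  have hw23 : w ^ 2 * ε ≤ w ^ 3 * ε :=
    mul_le_mul_of_nonneg_right (pow_le_pow_right₀ hw (by norm_num)) hε
  have h8 : 8 * ((2 : ℝ) ^ m * ε) ≤ 1 := by rw [← hwdef]; linarith [mul_nonneg (by linarith : (0:ℝ) ≤ w) hε]
  set LA := 2 * padLen hA B + 2 ^ m with hLA
  set P₂ := padLen hB BX with hP₂
  set la := cellMask hA B (winA m) with hla
  set lb := cellMask hA B (winB m) with hlb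
  subst hXdef
  set X := wd U V la with hXdef
  set Y := wd U V lb with hYdef
  have hX : IsProb X := isProb_wd hU hV _
  have hY : IsProb Y := isProb_wd hU hV _
  obtain ⟨hQc, hQd, hE₁, hD₁d, hXU⟩ :=
    first_level hU hdev hovU hε1 hmA hlin htA h8 hla hlb hLA
  rw [← hwdef] at hQd hE₁ hD₁d hXU
  set D₁ := Y - X with hD₁
  set Q := Lr U D 2 lb - Lr U D 2 la with hQ
  set d : ℝ := 3 * w ^ 2 * ε ^ 2 with hd
  set δ : ℝ := 2 * w * ε with hδ
  obtain ⟨-, hUX, hword⟩ := cell_compare hU hV hle (by rw [← hwdef]; exact hη) hη0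
    (length_cellMask hA B (length_winA m)) (length_cellMask hA B (length_winB m))
    (count_cellMask_le hA B (length_winA m)) (count_cellMask_le hA B (length_winB m))
  simp only [← hla, ← hlb, ← hLA, ← hXdef, ← hYdef] at hUX hword
  have hD₁X : Dev D₁ X (2 * d) := by
    refine (hD₁d.of_le zero_le_two hUX).mono ?_
    rw [mul_comm (2 : ℝ)]
    exact mul_le_mul_of_nonneg_left (Real.sqrt_le_iff.2 ⟨by norm_num, by norm_num⟩) (by positivity)
  obtain ⟨M₀, hM₀c, hMsub, hMd⟩ :=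
    middle_facts hU hdev hwdef hd hδ (by linarith) hQc hQd hE₁ hD₁d hXU
  obtain ⟨G, R, hGe, hGd, hRn⟩ := hdrift
  set σ : ℝ := (Real.sqrt (2 ^ β))⁻¹ with hσ
  have hσ0 : 0 ≤ σ := by positivity
  have hMd1 : 24 * w ^ 6 * ε ^ 4 ≤ 1 := by
    calc 24 * w ^ 6 * ε ^ 4 = 24 * ((w ^ 3 * ε) ^ 2 * ε ^ 2) := by ring
      _ ≤ 24 * ((1 / 256) ^ 2 * 1) := by
          gcongr
          · linarith
          · exact pow_le_one₀ hε hε1
      _ ≤ 1 := by norm_num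
  obtain ⟨Gd, Rd, hsplit, hGdd, hRdn⟩ := dev_pair_part hU hX hGe hGd hRn hζ1 hτ1 hMd hMsub
    (dev_pure_pads hU hdev hD0 hovU hpad hσ hwdef htail3 hM₀c) hMd1
  have hrest := dev_level_two_rest hX hε hD₁X hovX hmB hlin htB hwdef hd hsmall hε1
  rw [← hP₂] at hrest
  set F := -(X ^ P₂ * tmLin X D₁ m * X ^ P₂) +
    X ^ P₂ * ((wd X (X + D₁) (winB m) - ∑ i ∈ range 3, Lr X D₁ i (winB m)) -
      (wd X (X + D₁) (winA m) - ∑ i ∈ range 3, Lr X D₁ i (winA m))) * X ^ P₂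
  set L₂ := 2 * P₂ + 2 ^ m with hL₂
  have hn : P₂ * LA + 2 ^ m * LA + P₂ * LA = L₂ * LA := by rw [hL₂]; ring
  rw [hn] at hGdd
  set x := wd U V (stageMask hA hB B BX m (winA m)) with hx
  have hmask : ∀ l : List Bool,
      wd U V (stageMask hA hB B BX m l) = wd X Y (padMask P₂ l) := fun l => by
    rw [stageMask, wd_wdList]
    rfl
  have hlen₂ : (padMask P₂ (winA m)).length = L₂ := by rw [length_padMask, length_winA]
  have hXL : Pos ((2 : ℝ) • x - X ^ L₂) := by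
    have := hword (padMask P₂ (winA m)) (by
      rw [count_padMask]; exact (List.count_le_length).trans (length_winA m).le)
    rwa [hlen₂, ← hmask] at this
  have hfin : x - wd U V (stageMask hA hB B BX m (winB m)) = -F + -Gd + -Rd := by
    have := window_split X D₁ P₂ m
    rw [show X + D₁ = Y by simp [D₁], Lr_padMask, Lr_padMask] at this
    rw [← sub_mul, ← mul_sub, hsplit] at this
    rw [hx, hmask, hmask, ← neg_sub (wd X Y (padMask P₂ (winB m))), this]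
    simp only [F, show X + D₁ = Y by simp [D₁]]
    abel
  obtain ⟨R', hR', hR'm, hR'le⟩ := hpure
  have hbad : 0 ≤ bad := hR'.mass_nonneg.trans hR'm
  set Z := ev x (φ ^ 2)
  have hφ2 : ∀ v, 0 ≤ (φ ^ 2) v := fun v => sq_nonneg (φ v)
  have hxP : IsProb x := isProb_wd hU hV _
  have hZ : 0 ≤ Z := ev_sq_nonneg hxP.pos φ
  have hXZ : ev (X ^ L₂) (φ ^ 2) ≤ 2 * Z := by
    have := ev_le_of_pos hXL hφ2
    rwa [ev_smul] at this
  have hUZ : ev (U ^ (L₂ * LA)) (φ ^ 2) ≤ 4 * (Z + bad) := by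
    have h1 := ev_le_of_pos hR'le hφ2
    have h2 : ev R' (φ ^ 2) ≤ mass R' := by
      have := ev_mono hR' (φ := φ ^ 2) (ψ := fun _ => 1) fun v => by
        simpa using (sq_le_one_iff_abs_le_one _).2 (hφ v)
      rwa [ev_const, one_mul] at this
    rw [ev_add, ev_smul] at h1
    linarith
  have hS2 : Real.sqrt (ev (X ^ L₂) (φ ^ 2)) ≤ 2 * Real.sqrt (Z + bad) := by
    rw [show (2 : ℝ) = Real.sqrt (2 ^ 2) by rw [Real.sqrt_sq two_pos.le],
      ← Real.sqrt_mul (by norm_num)]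
    exact Real.sqrt_le_sqrt (by linarith)
  have hS4 : Real.sqrt (ev (U ^ (L₂ * LA)) (φ ^ 2)) ≤ 2 * Real.sqrt (Z + bad) := by
    rw [show (2 : ℝ) = Real.sqrt (2 ^ 2) by rw [Real.sqrt_sq two_pos.le],
      ← Real.sqrt_mul (by norm_num)]
    exact Real.sqrt_le_sqrt (by linarith)
  have hb1 := (hrest.neg.bound φ).trans (mul_le_mul_of_nonneg_left hS2 hrest.nonneg)
  have hb2 := (hGdd.neg.bound φ).trans (mul_le_mul_of_nonneg_left hS4 hGdd.nonneg)
  have hb3 : |ev (-Rd) φ| ≤ 3 * τ := (abs_ev_le _ _ hφ).trans (by rw [nrm_neg]; exact hRdn)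
  rw [hfin, ev_add, ev_add]
  refine (abs_add_le _ _).trans ((add_le_add ((abs_add_le _ _).trans (add_le_add hb1 hb2)) hb3).trans
    ((add_le_add_iff_right _).2 ?_))
  rw [← add_mul, ← mul_assoc, mul_comm _ (2 : ℝ)]
  refine mul_le_mul_of_nonneg_right ?_ (Real.sqrt_nonneg _)
  have hK : 0 ≤ w ^ 6 * ε ^ 4 := by positivity
  nlinarith [mul_le_mul_of_nonneg_left hw23 hK, mul_nonneg hK hGd.nonneg, mul_nonneg hK hσ0,
    mul_nonneg hK (by positivity : (0 : ℝ) ≤ w ^ 3 * ε)]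

end Vale.Agent.P321
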