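import Vale.Agent.P321.AllQ.StageTransfer
import Vale.Agent.P321.AllQ.StageGain

/-!
P321, every deletion probability, module C: the numbers of one stage. The pads have `2^(9H)` shifts
at the first level and `2^(3H)` at the second, a gap gets `2^H` moves, the moment has order `2^13`.
-/

open Finset

namespace Vale.Agent.P321

/-- The overlap exponent of the padded window of the first level. -/
def stageBX (H β : ℕ) : ℕ := 2 ^ (9 * H + 2 * β + 18)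

/-- Half the order of the moment. -/
@[irreducible] def stageK : ℕ := 4096

lemma stageK_eq : stageK = 4096 := by unfold stageK; rfl

lemma stageK_pos : 0 < stageK := by rw [stageK_eq]; norm_num

lemma succ_le_two_pow {a b : ℕ} (h : a + 1 ≤ b) : 2 ^ a + 1 ≤ 2 ^ b :=
  le_trans (by rw [pow_succ]; have := Nat.one_le_two_pow (n := a); omega)
    (Nat.pow_le_pow_right (by norm_num) h)

lemma le_two_mul_add (P n : ℕ) : P ≤ 2 * P + n := by omega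

lemma two_mul_cast_add_one_le (b : ℕ) : 2 * ((2 ^ b : ℕ) : ℝ) + 1 ≤ (2 : ℝ) ^ (b + 2) := by
  rw [Nat.cast_pow, Nat.cast_ofNat, pow_add]
  linarith [one_le_pow₀ (M₀ := ℝ) (a := 2) (by norm_num) (n := b)]

lemma padLen_two_pow (a b : ℕ) :
    2 ^ (5 + a + b) ≤ padLen (2 ^ a) (2 ^ b) ∧ padLen (2 ^ a) (2 ^ b) ≤ 2 ^ (7 + a + b) := by
  have hb := Nat.one_le_two_pow (n := b)
  constructor
  · rw [padLen, pow_add, pow_add]
    exact Nat.mul_le_mul (Nat.mul_le_mul_right _ (by norm_num)) (Nat.le_succ _)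
  · calc padLen (2 ^ a) (2 ^ b) ≤ 2 ^ 6 * 2 ^ a * (2 ^ b * 2) := by
          rw [padLen]
          exact Nat.mul_le_mul (Nat.mul_le_mul_right _ (by norm_num)) (by omega)
      _ = 2 ^ (7 + a + b) := by ring

/-- All the sizes of a stage. -/
lemma stage_sizes {m H β : ℕ} (hmH : m ≤ H) (hH : 1000 ≤ H) :
    (2 ^ m ≤ padLen (2 ^ (9 * H)) (2 ^ β) ∧ 2 ^ m ≤ padLen (2 ^ (3 * H)) (stageBX H β)) ∧
      (2 * padLen (2 ^ (9 * H)) (2 ^ β) + 2 ^ m ≤ 2 ^ (9 * H + β + 9) ∧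
        2 * padLen (2 ^ (3 * H)) (stageBX H β) + 2 ^ m ≤ 2 ^ (12 * H + 2 * β + 27)) ∧
      (256 * (2 * padLen (2 ^ (9 * H)) (2 ^ β) + 2 ^ m) * (2 ^ β + 1) ≤ stageBX H β ∧
        256 * (2 * padLen (2 ^ (3 * H)) (stageBX H β) + 2 ^ m) * (stageBX H β + 1) ≤
          2 ^ (4 * β + 21 * H + 100)) ∧
      (2 ^ 12 * 2 ^ H * (2 ^ β + 1) ≤ padLen (2 ^ (9 * H)) (2 ^ β) ∧
        2 ^ 12 * 2 ^ H * (stageBX H β + 1) ≤ padLen (2 ^ (3 * H)) (stageBX H β)) ∧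
      (∀ L : ℕ, L ≤ 2 ^ (12 * H + 2 * β + 27) →
          L * (2 ^ H) ^ 2 ≤ padLen (2 ^ (9 * H)) (2 ^ β) ^ 2) ∧
      (2 ^ (4 * β + 21 * H + 100) + 1) * (2 ^ H) ^ 2 ≤
          padLen (2 ^ (3 * H)) (stageBX H β) ^ 2 ∧
      padLen (2 ^ (2 * β)) (2 ^ β) ≤
        padLen (2 ^ (3 * H)) (stageBX H β) * (2 * padLen (2 ^ (9 * H)) (2 ^ β) + 2 ^ m) := by
  obtain ⟨a1, a2⟩ := padLen_two_pow (9 * H) β
  obtain ⟨b1, b2⟩ := padLen_two_pow (3 * H) (9 * H + 2 * β + 18)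
  have hX : stageBX H β = 2 ^ (9 * H + 2 * β + 18) := rfl
  rw [hX]
  generalize padLen (2 ^ (9 * H)) (2 ^ β) = P at *
  generalize padLen (2 ^ (3 * H)) (2 ^ (9 * H + 2 * β + 18)) = P₂ at *
  have pw : ∀ {a b : ℕ}, a ≤ b → 2 ^ a ≤ 2 ^ b := fun h => Nat.pow_le_pow_right (by norm_num) h
  have sc : ∀ n : ℕ, 2 ^ n + 1 ≤ 2 ^ (n + 1) := fun n => by
    rw [pow_succ]; have := Nat.one_le_two_pow (n := n); omega
  have hLA : 2 * P + 2 ^ m ≤ 2 ^ (9 * H + β + 9) := by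
    have := pw (show m ≤ 9 * H + β + 8 by omega)
    rw [show 9 * H + β + 9 = 7 + 9 * H + β + 1 + 1 by omega, pow_succ, pow_succ]
    rw [show 9 * H + β + 8 = 7 + 9 * H + β + 1 by omega, pow_succ] at this
    omega
  have hL2 : 2 * P₂ + 2 ^ m ≤ 2 ^ (12 * H + 2 * β + 27) := by
    have := pw (show m ≤ 12 * H + 2 * β + 26 by omega)
    rw [show 12 * H + 2 * β + 27 = 7 + 3 * H + (9 * H + 2 * β + 18) + 1 + 1 by omega, pow_succ,
      pow_succ]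
    rw [show 12 * H + 2 * β + 26 = 7 + 3 * H + (9 * H + 2 * β + 18) + 1 by omega, pow_succ] at this
    omega
  refine ⟨⟨(pw (by omega)).trans a1, (pw (by omega)).trans b1⟩, ⟨hLA, hL2⟩, ⟨?_, ?_⟩, ⟨?_, ?_⟩,
    ?_, ?_, ?_⟩
  · calc 256 * (2 * P + 2 ^ m) * (2 ^ β + 1) ≤ 256 * 2 ^ (9 * H + β + 9) * 2 ^ (β + 1) :=
          Nat.mul_le_mul (Nat.mul_le_mul_left 256 hLA) (sc β)
      _ = 2 ^ (8 + (9 * H + β + 9) + (β + 1)) := by
          rw [show (256 : ℕ) = 2 ^ 8 by norm_num, ← pow_add, ← pow_add]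
      _ ≤ 2 ^ (9 * H + 2 * β + 18) := pw (by omega)
  · calc 256 * (2 * P₂ + 2 ^ m) * (2 ^ (9 * H + 2 * β + 18) + 1)
        ≤ 256 * 2 ^ (12 * H + 2 * β + 27) * 2 ^ (9 * H + 2 * β + 18 + 1) :=
          Nat.mul_le_mul (Nat.mul_le_mul_left 256 hL2) (sc _)
      _ = 2 ^ (8 + (12 * H + 2 * β + 27) + (9 * H + 2 * β + 18 + 1)) := by
          rw [show (256 : ℕ) = 2 ^ 8 by norm_num, ← pow_add, ← pow_add]
      _ ≤ _ := pw (by omega)
  · calc 2 ^ 12 * 2 ^ H * (2 ^ β + 1) ≤ 2 ^ 12 * 2 ^ H * 2 ^ (β + 1) :=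
          Nat.mul_le_mul_left _ (sc β)
      _ ≤ 2 ^ (5 + 9 * H + β) := by rw [← pow_add, ← pow_add]; exact pw (by omega)
      _ ≤ P := a1
  · calc 2 ^ 12 * 2 ^ H * (2 ^ (9 * H + 2 * β + 18) + 1)
        ≤ 2 ^ 12 * 2 ^ H * 2 ^ (9 * H + 2 * β + 18 + 1) := Nat.mul_le_mul_left _ (sc _)
      _ ≤ 2 ^ (5 + 3 * H + (9 * H + 2 * β + 18)) := by
          rw [← pow_add, ← pow_add]; exact pw (by omega)
      _ ≤ P₂ := b1
  · intro L hL
    calc L * (2 ^ H) ^ 2 ≤ 2 ^ (12 * H + 2 * β + 27) * (2 ^ H) ^ 2 := Nat.mul_le_mul_right _ hL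
      _ ≤ (2 ^ (5 + 9 * H + β)) ^ 2 := by
          rw [← pow_mul, ← pow_mul, ← pow_add]; exact pw (by omega)
      _ ≤ P ^ 2 := Nat.pow_le_pow_left a1 2
  · calc (2 ^ (4 * β + 21 * H + 100) + 1) * (2 ^ H) ^ 2
        ≤ 2 ^ (4 * β + 21 * H + 100 + 1) * (2 ^ H) ^ 2 := Nat.mul_le_mul_right _ (sc _)
      _ ≤ (2 ^ (5 + 3 * H + (9 * H + 2 * β + 18))) ^ 2 := by
          rw [← pow_mul, ← pow_mul, ← pow_add]; exact pw (by omega)
      _ ≤ P₂ ^ 2 := Nat.pow_le_pow_left b1 2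
  · calc padLen (2 ^ (2 * β)) (2 ^ β) ≤ 2 ^ (7 + 2 * β + β) := (padLen_two_pow _ _).2
      _ ≤ 2 ^ (5 + 3 * H + (9 * H + 2 * β + 18)) * 2 ^ (5 + 9 * H + β) := by
          rw [← pow_add]; exact pw (by omega)
      _ ≤ _ := Nat.mul_le_mul b1
          (a1.trans ((Nat.le_mul_of_pos_left _ two_pos).trans (Nat.le_add_right _ _)))

lemma driftZ_le {m H L s c f : ℕ} (hL : L ≤ 2 ^ (2 * s)) :
    driftZ stageK (2 ^ m) L (2 ^ H) (2 ^ c * ((2 : ℝ) ^ f)⁻¹) ≤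
      2 ^ (27 + 2 * c + 2 * m + s) * ((2 : ℝ) ^ (2 * f))⁻¹ := by
  rw [stageK_eq, show (4096 : ℕ) = 2 ^ 12 by norm_num]
  unfold driftZ
  have hj : (1 : ℝ) ≤ Real.sqrt ((2 ^ H : ℕ) : ℝ) := by
    rw [Real.one_le_sqrt]; exact_mod_cast Nat.one_le_two_pow
  have hs : Real.sqrt (L : ℝ) ≤ 2 ^ s := by
    rw [Real.sqrt_le_left (by positivity), ← pow_mul, mul_comm s 2]
    exact_mod_cast hL
  have h1 : Real.sqrt (L : ℝ) / Real.sqrt ((2 ^ H : ℕ) : ℝ) + 1 ≤ 2 ^ (s + 1) := by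
    have := (div_le_self (Real.sqrt_nonneg (L : ℝ)) hj).trans hs
    have := one_le_pow₀ (M₀ := ℝ) (a := 2) (by norm_num) (n := s)
    rw [pow_succ]
    linarith
  refine (mul_le_mul_of_nonneg_left h1 (by positivity)).trans_eq ?_
  push_cast
  rw [mul_pow (2 ^ c : ℝ), inv_pow, ← pow_mul, ← pow_mul, ← pow_mul, mul_comm f 2]
  ring

lemma driftTail_le {H L P l T : ℕ} (hH : 12 ≤ H) (hL : L ≤ 2 ^ l) (hP : P ≤ 2 ^ l)
    (h : 4 * (l + 2) + T ≤ 2 ^ (H - 12)) : driftTail L P (2 ^ H) ≤ ((2 : ℝ) ^ T)⁻¹ := by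
  unfold driftTail
  have h1 : ((L : ℝ) + P + 2) ^ 4 ≤ 2 ^ (4 * (l + 2)) := by
    rw [mul_comm, pow_mul]
    refine pow_le_pow_left₀ (by positivity) ?_ 4
    have : L + P + 2 ≤ 2 ^ (l + 2) := by
      rw [pow_add]; have := Nat.one_le_two_pow (n := l); omega
    exact_mod_cast this
  have e : (-((2 ^ H : ℕ) : ℝ)) / 2 ^ 12 = ((2 ^ (H - 12) : ℕ) : ℝ) * (-1) := by
    push_cast
    rw [div_eq_iff (by positivity), mul_neg_one, neg_mul, ← pow_add, Nat.sub_add_cancel hH]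
  have h2 : Real.exp (-((2 ^ H : ℕ) : ℝ) / 2 ^ 12) ≤ ((2 : ℝ) ^ (2 ^ (H - 12)))⁻¹ := by
    rw [e, Real.exp_nat_mul, ← inv_pow]
    refine pow_le_pow_left₀ (Real.exp_pos _).le ?_ _
    rw [Real.exp_neg]
    exact inv_anti₀ (by norm_num) (by linarith [Real.add_one_le_exp 1])
  exact (mul_le_mul h1 h2 (Real.exp_pos _).le (by positivity)).trans (two_pow_mul_inv h)

/-- What the tails have to beat. -/
lemma tail_room {H X : ℕ} (hH : 20 ≤ H) (h : 2 ^ 20 * X ≤ 2 ^ H) : 256 * X ≤ 2 ^ (H - 12) := by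
  have e : 2 ^ H = 2 ^ 12 * 2 ^ (H - 12) := by rw [← pow_add]; congr 1; omega
  rw [e] at h
  refine Nat.le_of_mul_le_mul_left ?_ (show 0 < 2 ^ 12 by norm_num)
  calc 2 ^ 12 * (256 * X) = 2 ^ 20 * X := by ring
    _ ≤ _ := h

lemma drift_bad_le {z : ℝ} {d c : ℕ} (hz0 : 0 ≤ z) (hz : z ≤ ((2 : ℝ) ^ d)⁻¹)
    (h : c + stageK * 4 ≤ stageK * d) : (16 * z) ^ stageK ≤ ((2 : ℝ) ^ c)⁻¹ := by
  refine le_trans (pow_le_pow_left₀ (by positivity) (show 16 * z ≤ 2 ^ 4 * ((2 : ℝ) ^ d)⁻¹ by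
    norm_num; linarith) stageK) ?_
  rw [mul_pow, inv_pow, ← pow_mul, ← pow_mul]
  exact two_pow_mul_inv (by rw [Nat.mul_comm 4, Nat.mul_comm d]; omega)

end Vale.Agent.P321
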