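import Vale.Agent.P321.Super.Step
import Vale.Agent.P321.AllQ.Interfaces

/-!
P321, every deletion probability, module C: overlaps from the drift, and transfer between the true
laws and the truncated ones.
-/

open Finset

namespace Vale.Agent.P321

/-- The coefficientwise absolute value. -/
noncomputable def absA (f : Alg) : Alg :=
  MonoidAlgebra.ofCoeff (f.coeff.mapRange (fun r => |r|) abs_zero)

lemma coeff_absA (f : Alg) (w : FreeMonoid Bool) : (absA f).coeff w = |f.coeff w| := by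
  simp [absA]

lemma pos_absA (f : Alg) : Pos (absA f) := fun w => by
  rw [coeff_absA]; exact abs_nonneg _

lemma le1_absA (f : Alg) : Le1 f (absA f) := fun w => by rw [coeff_absA]

lemma mass_absA (f : Alg) : mass (absA f) = nrm f := by
  classical
  have hs : (absA f).coeff.support ⊆ f.coeff.support := fun w hw => by
    rw [Finsupp.mem_support_iff, coeff_absA] at hw
    rw [Finsupp.mem_support_iff]
    exact fun h => hw (by rw [h, abs_zero])
  rw [mass_eq_sum hs, nrm_eq_sum (f := f) subset_rfl]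
  exact Finset.sum_congr rfl fun w _ => coeff_absA f w

/-- A one-sided ratio bound gives `Exc`. -/
lemma exc_of_le {X Y R : Alg} {η e : ℝ} (hY : Pos Y) (hη : 0 ≤ η) (hR : Pos R) (hRe : mass R ≤ e)
    (h : Le1 (Y - X) (η • X + R)) : Exc X Y η e := by
  refine ⟨R, hR, hRe, ?_⟩
  have h' := h.neg
  rw [neg_sub] at h'
  refine h'.trans_pos ?_
  rw [show η • (X + Y) + R - (η • X + R) = η • Y by rw [smul_add]; abel]
  exact hY.smul hη

/-- `Exc` is stable under small changes of both laws. -/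
lemma exc_transfer {x y x' y' : Alg} {η e δ : ℝ} (hη : 0 ≤ η) (hη1 : η ≤ 1)
    (hx : nrm (x - x') ≤ δ) (hy : nrm (y - y') ≤ δ) (h : Exc x' y' η e) :
    Exc x y η (e + 4 * δ) := by
  obtain ⟨r, hr, hre, hle⟩ := h
  refine ⟨r + (1 + η) • (absA (x - x') + absA (y - y')),
    hr.add (((pos_absA _).add (pos_absA _)).smul (by linarith)), ?_, ?_⟩
  · rw [map_add, map_smul, map_add, mass_absA, mass_absA, smul_eq_mul]
    have h0 : 0 ≤ nrm (x - x') + nrm (y - y') := add_nonneg (nrm_nonneg _) (nrm_nonneg _)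
    nlinarith [mul_le_mul_of_nonneg_right hη1 h0]
  · intro w
    have h1 := abs_le.1 (hle w)
    have a1 := abs_le.1 (le1_absA (x - x') w)
    have a2 := abs_le.1 (le1_absA (y - y') w)
    simp only [MonoidAlgebra.coeff_sub, Finsupp.sub_apply, MonoidAlgebra.coeff_add,
      Finsupp.add_apply, MonoidAlgebra.coeff_smul, Finsupp.smul_apply, smul_eq_mul,
      coeff_absA] at h1 a1 a2 ⊢
    have b1 := mul_le_mul_of_nonneg_left a1.1 hη
    have b2 := mul_le_mul_of_nonneg_left a1.2 hη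
    have b3 := mul_le_mul_of_nonneg_left a2.1 hη
    have b4 := mul_le_mul_of_nonneg_left a2.2 hη
    rw [abs_le]
    constructor <;> linarith

/-- A crude weighted distance from a ratio bound. -/
lemma dev_of_exc_crude {X Y : Alg} {η e a : ℝ} (hX : IsProb X) (hY : IsProb Y) (ha : 0 ≤ a)
    (h : Exc X Y η e) (hb : 2 * η + e ≤ a ^ 2) : Dev (X - Y) (X + Y) a := by
  have hle : Le1 (X - Y) (X + Y) := (Le1.of_pos hX.pos).sub (Le1.of_pos hY.pos)
  refine dev_of_special ha hle ((le_abs_self _).trans ((abs_ev_le _ _ (special_le_one hle)).trans ?_))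
  obtain ⟨r, -, hre, hr3⟩ := h
  refine hr3.nrm_le.trans ?_
  rw [map_add, map_smul, map_add, hX.mass_one, hY.mass_one, smul_eq_mul]
  linarith

/-- A bound in the truncated world with an additive error gives the weighted distance. -/
lemma dev_transfer_add {x y x' y' : Alg} {a δ bad c : ℝ} (hx : IsProb x) (hy : IsProb y)
    (ha : 0 ≤ a) (hbad : 0 ≤ bad) (hδx : nrm (x - x') ≤ δ) (hδy : nrm (y - y') ≤ δ)
    (h : ∀ φ : List Bool → ℝ, (∀ w, |φ w| ≤ 1) →
      |ev (x' - y') φ| ≤ a * Real.sqrt (ev x' (φ ^ 2) + bad) + c) {a' : ℝ} (ha' : 0 ≤ a')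
    (hb : a ^ 2 + 5 * δ + bad + 2 * c ≤ a' ^ 2) : Dev (x - y) (x + y) a' := by
  have hle : Le1 (x - y) (x + y) := (Le1.of_pos hx.pos).sub (Le1.of_pos hy.pos)
  refine dev_of_special ha' hle ?_
  have e := ev_special hle
  set φ : List Bool → ℝ :=
    fun w => (x - y).coeff (FreeMonoid.ofList w) / (x + y).coeff (FreeMonoid.ofList w) with hφ
  have h1 : ∀ w, |φ w| ≤ 1 := special_le_one hle
  have h2 : ∀ w, |(φ ^ 2) w| ≤ 1 := fun w => by
    rw [Pi.pow_apply, abs_pow]; exact pow_le_one₀ (abs_nonneg _) (h1 w)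
  set X := ev (x - y) φ
  have d1 := abs_le.1 ((abs_ev_le (x - x') φ h1).trans hδx)
  have d2 := abs_le.1 ((abs_ev_le (y - y') φ h1).trans hδy)
  have d3 := abs_le.1 ((abs_ev_le (x - x') (φ ^ 2) h2).trans hδx)
  rw [ev_sub] at d1 d2 d3
  have hy2 := ev_sq_nonneg hy.pos φ
  rw [ev_add] at e
  have hX : ev x (φ ^ 2) ≤ X := by linarith
  have hz : ev x' (φ ^ 2) + bad ≤ X + δ + bad := by linarith
  have hδ0 : 0 ≤ δ := (nrm_nonneg _).trans hδx
  have hX0 : 0 ≤ X := (ev_sq_nonneg hx.pos φ).trans hX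
  have h3 := (le_abs_self _).trans ((h φ h1).trans ((add_le_add_iff_right c).2
    (mul_le_mul_of_nonneg_left (Real.sqrt_le_sqrt hz) ha)))
  rw [ev_sub] at h3
  have hXeq : X = ev x φ - ev y φ := ev_sub _ _ _
  have q := Real.sq_sqrt (by linarith : 0 ≤ X + δ + bad)
  nlinarith [sq_nonneg (a - Real.sqrt (X + δ + bad))]

/-- The drift parameter is monotone in the number of windows. -/
lemma driftZ_mono (k w hj : ℕ) (η : ℝ) {L L' : ℕ} (h : L ≤ L') :
    driftZ k w L hj η ≤ driftZ k w L' hj η := by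
  unfold driftZ
  gcongr

lemma driftZ_nonneg (k w L hj : ℕ) (η : ℝ) : 0 ≤ driftZ k w L hj η := by
  unfold driftZ
  positivity

lemma driftTail_mono (P hj : ℕ) {L L' : ℕ} (h : L ≤ L') :
    driftTail L P hj ≤ driftTail L' P hj := by
  unfold driftTail
  gcongr

/-- Long powers of a padded window overlap, by the drift and the smoothness of the cell. -/
theorem overlap_drift (hD : DriftStmt) {U V : Alg} {η : ℝ} {B P hj k B' : ℕ} {l : List Bool}
    {z τ : ℝ} (hU : IsProb U) (hV : IsProb V) (hη : 0 ≤ η) (hle : Le1 (V - U) (η • U))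
    (hov : nrm (U ^ (B + 1) - U ^ B) ≤ 1) (hk : 0 < k) (hj0 : 0 < hj) (hl : l.length ≤ P)
    (hP : 2 ^ 12 * hj * (B + 1) ≤ P) (hL : (B' + 1) * hj ^ 2 ≤ P ^ 2)
    (hz : driftZ k l.length (B' + 1) hj η ≤ z) (hz8 : z ≤ 1 / 8)
    (hτ : driftTail (B' + 1) P hj ≤ τ) (hK : 1 ≤ (2 * P + l.length) * B')
    (hB' : 256 * (2 * P + l.length) * (B + 1) ≤ B') :
    nrm (wd U V (padMask P l) ^ (B' + 1) - wd U V (padMask P l) ^ B') ≤
      1 / 4 + 2 * (4 * Real.sqrt z + τ) := by
  set X := wd U V (padMask P l)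
  set K := 2 * P + l.length
  have hone : ∀ L : ℕ, L ≤ B' + 1 → nrm (X ^ L - U ^ (K * L)) ≤ 4 * Real.sqrt z + τ := by
    intro L hL'
    obtain ⟨⟨G, R, hGR, hG, hR⟩, -⟩ := hD U V η B P hj k L l hU hV hη hle hov hk hj0 hl hP
      ((Nat.mul_le_mul_right _ hL').trans hL)
      (((driftZ_mono k l.length hj η hL').trans hz).trans hz8)
    rw [mul_comm K, hGR]
    refine (nrm_add _ _).trans (add_le_add ?_ (hR.trans ((driftTail_mono P hj hL').trans hτ)))
    refine hG.nrm_le.trans ?_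
    rw [(hU.pow _).mass_one, Real.sqrt_one, mul_one]
    exact mul_le_mul_of_nonneg_left
      (Real.sqrt_le_sqrt ((driftZ_mono k l.length hj η hL').trans hz)) (by norm_num)
  have hs := (smooth_of_overlap hU B hov).shift hU K hK
  have hsb : (K : ℝ) * (4 * Real.sqrt (B + 1) / Real.sqrt ((K * B' : ℕ) : ℝ)) ≤ 1 / 4 := by
    rw [mul_div_assoc', div_le_iff₀ (Real.sqrt_pos.2 (by exact_mod_cast hK))]
    refine le_of_pow_le_pow_left₀ two_ne_zero (by positivity) ?_
    rw [mul_pow, mul_pow, mul_pow, Real.sq_sqrt (by positivity), Real.sq_sqrt (Nat.cast_nonneg _)]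
    have : (256 : ℝ) * K * (B + 1) ≤ B' := by exact_mod_cast hB'
    push_cast
    nlinarith [mul_le_mul_of_nonneg_left this (Nat.cast_nonneg (α := ℝ) K)]
  have a := hone (B' + 1) le_rfl
  have b : nrm (U ^ (K * B') - X ^ B') ≤ 4 * Real.sqrt z + τ := by
    rw [nrm_sub_comm]; exact hone B' (Nat.le_succ _)
  rw [show X ^ (B' + 1) - X ^ B' = (X ^ (B' + 1) - U ^ (K * (B' + 1))) +
      (U ^ (K * B') - X ^ B') - U ^ (K * B') * (1 - U ^ K) by
    rw [Nat.mul_succ, pow_add U]; noncomm_ring]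
  refine (nrm_sub _ _).trans (le_trans (add_le_add ((nrm_add _ _).trans (add_le_add a b)) hs) ?_)
  push_cast at hsb ⊢
  linarith

/-- Overlaps are stable under small changes of the law. -/
lemma overlap_transfer {X X' : Alg} {d : ℝ} (hX : IsProb X) (hX' : IsProb X')
    (hd : nrm (X - X') ≤ d) (n : ℕ) :
    nrm (X ^ (n + 1) - X ^ n) ≤ nrm (X' ^ (n + 1) - X' ^ n) + (2 * n + 1) * d := by
  have hp : ∀ i : ℕ, nrm (X ^ i - X' ^ i) ≤ i * d := fun i => by
    simpa using nrm_wd_sub hX hX hX' hX' hd hd (List.replicate i false)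
  have h1 := hp (n + 1)
  have h2 : nrm (X' ^ n - X ^ n) ≤ n * d := by rw [nrm_sub_comm]; exact hp n
  rw [show X ^ (n + 1) - X ^ n = (X ^ (n + 1) - X' ^ (n + 1)) + (X' ^ (n + 1) - X' ^ n) +
    (X' ^ n - X ^ n) by abel]
  refine ((nrm_add _ _).trans (add_le_add (nrm_add _ _) le_rfl)).trans ?_
  push_cast at h1 ⊢
  linarith

end Vale.Agent.P321
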