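import Vale.Agent.P321.AllQ.Chaos

/-!
P321, every deletion probability: means (positive normalised functionals) and tuples of cells.
-/

open Finset

namespace Vale.Agent.P321

variable {α β : Type*}

/-- A positive normalised linear functional. -/
structure IsMean (E : (α → ℝ) → ℝ) : Prop where
  add : ∀ f g, E (fun a => f a + g a) = E f + E g
  smul : ∀ (c : ℝ) f, E (fun a => c * f a) = c * E f
  mono : ∀ f g, (∀ a, f a ≤ g a) → E f ≤ E g
  one : E (fun _ => 1) = 1

namespace IsMean

variable {E : (α → ℝ) → ℝ} (hE : IsMean E)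
include hE

lemma const (c : ℝ) : E (fun _ => c) = c := by simpa [hE.one] using hE.smul c fun _ => 1

lemma congr {f g : α → ℝ} (h : ∀ a, f a = g a) : E f = E g := by
  have := hE.one; rw [funext h]

lemma sub (f g : α → ℝ) : E (fun a => f a - g a) = E f - E g := by
  have := hE.add (fun a => f a - g a) g
  simp only [sub_add_cancel] at this
  linarith

lemma mul_right (f : α → ℝ) (c : ℝ) : E (fun a => f a * c) = E f * c := by
  rw [mul_comm _ c, ← hE.smul]; exact hE.congr fun a => mul_comm _ _

lemma nonneg {f : α → ℝ} (h : ∀ a, 0 ≤ f a) : 0 ≤ E f := by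
  simpa [hE.const] using hE.mono (fun _ => 0) f h

lemma le_const {f : α → ℝ} {c : ℝ} (h : ∀ a, f a ≤ c) : E f ≤ c := by
  simpa [hE.const] using hE.mono f (fun _ => c) h

lemma abs_le {f g : α → ℝ} (h : ∀ a, |f a| ≤ g a) : |E f| ≤ E g := by
  refine _root_.abs_le.2 ⟨?_, hE.mono _ _ fun a => (le_abs_self _).trans (h a)⟩
  have := hE.mono (fun a => (-1) * f a) g fun a => by linarith [neg_le_abs (f a), h a]
  rw [hE.smul] at this
  linarith

lemma cs (f g : α → ℝ) :
    |E (fun a => f a * g a)| ≤
      Real.sqrt (E fun a => f a ^ 2) * Real.sqrt (E fun a => g a ^ 2) := by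
  have hA : 0 ≤ E fun a => f a ^ 2 := hE.nonneg fun a => sq_nonneg _
  have h : ∀ x : ℝ, 0 ≤ E (fun a => g a ^ 2) * (x * x) + 2 * E (fun a => f a * g a) * x +
      E (fun a => f a ^ 2) := fun x => by
    have h0 := hE.nonneg (f := fun a => (f a + x * g a) ^ 2) fun a => sq_nonneg _
    have e : E (fun a => (f a + x * g a) ^ 2) =
        E fun a => f a ^ 2 + ((x * x) * g a ^ 2 + (2 * x) * (f a * g a)) :=
      hE.congr fun a => by ring
    rw [e, hE.add, hE.add, hE.smul, hE.smul] at h0
    linarith
  have hd := discrim_le_zero h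
  rw [discrim] at hd
  rw [← Real.sqrt_mul hA, ← Real.sqrt_sq_eq_abs]
  exact Real.sqrt_le_sqrt (by linarith)

end IsMean

lemma isMean_ev {U : Alg} (hU : IsProb U) : IsMean (ev U) where
  add f g := by simp [ev, Finsupp.sum, mul_add, Finset.sum_add_distrib]
  smul c f := by simp [ev, Finsupp.sum, Finset.mul_sum, mul_left_comm]
  mono _ _ h := ev_mono hU.pos h
  one := by rw [ev_const, hU.mass_one, one_mul]

lemma ev_comm (f g : Alg) (F : List Bool → List Bool → ℝ) :
    ev f (fun a => ev g (F a)) = ev g (fun b => ev f fun a => F a b) := by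
  simp only [ev, Finsupp.sum, Finset.mul_sum]
  rw [Finset.sum_comm]
  exact Finset.sum_congr rfl fun _ _ => Finset.sum_congr rfl fun _ _ => by ring

/-! ### Lists of independent samples -/

/-- The mean of `N` independent samples. -/
noncomputable def listE (E : (α → ℝ) → ℝ) : ℕ → (List α → ℝ) → ℝ
  | 0, F => F []
  | N + 1, F => E fun a => listE E N fun u => F (a :: u)

lemma tupE_eq (U : Alg) : ∀ N F, tupE U N F = listE (ev U) N F
  | 0, _ => rfl
  | N + 1, F => by simp only [tupE, listE, tupE_eq U N]

lemma isMean_listE {E : (α → ℝ) → ℝ} (hE : IsMean E) : ∀ N, IsMean (listE E N)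
  | 0 => ⟨fun _ _ => rfl, fun _ _ => rfl, fun _ _ h => h _, rfl⟩
  | N + 1 => by
      have ih := isMean_listE hE N
      refine ⟨fun f g => ?_, fun c f => ?_, fun f g h => ?_, ?_⟩
      · simp only [listE, ih.add, hE.add]
      · simp only [listE, ih.smul, hE.smul]
      · exact hE.mono _ _ fun a => ih.mono _ _ fun u => h _
      · simp only [listE, ih.one, hE.one]

lemma isMean_tupE {U : Alg} (hU : IsProb U) (N : ℕ) : IsMean (tupE U N) := by
  rw [funext (tupE_eq U N)]
  exact isMean_listE (isMean_ev hU) N

lemma listE_congr {E : (α → ℝ) → ℝ} : ∀ {N : ℕ} {F G : List α → ℝ},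
    (∀ u, u.length = N → F u = G u) → listE E N F = listE E N G
  | 0, _, _, h => h [] rfl
  | N + 1, _, _, h => congrArg E (funext fun a => listE_congr fun u hu => h _ (by simp [hu]))

lemma listE_mono {E : (α → ℝ) → ℝ} (hE : IsMean E) : ∀ {N : ℕ} {F G : List α → ℝ},
    (∀ u, u.length = N → F u ≤ G u) → listE E N F ≤ listE E N G
  | 0, _, _, h => h [] rfl
  | N + 1, _, _, h => hE.mono _ _ fun a => listE_mono hE fun u hu => h _ (by simp [hu])

lemma listE_add (E : (α → ℝ) → ℝ) : ∀ (m n : ℕ) (F : List α → ℝ),
    listE E (m + n) F = listE E m fun u => listE E n fun v => F (u ++ v)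
  | 0, n, F => by simp [listE]
  | m + 1, n, F => by
      simp only [Nat.succ_add, listE, listE_add E m n, List.cons_append]

lemma tupE_add (U : Alg) (m n : ℕ) (F : List (List Bool) → ℝ) :
    tupE U (m + n) F = tupE U m fun u => tupE U n fun v => F (u ++ v) := by
  simp only [tupE_eq, listE_add]

lemma tupE_congr {U : Alg} {N : ℕ} {F G : List (List Bool) → ℝ}
    (h : ∀ u, u.length = N → F u = G u) : tupE U N F = tupE U N G := by
  simp only [tupE_eq]; exact listE_congr h

/-! ### Likelihood ratios -/

lemma dens_nil (d : List Bool → ℝ) : dens d [] [] = 1 := rfl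

lemma dens_append (d : List Bool → ℝ) {T : List Bool} {u : List (List Bool)}
    (h : T.length = u.length) (T' : List Bool) (u' : List (List Bool)) :
    dens d (T ++ T') (u ++ u') = dens d T u * dens d T' u' := by
  simp [dens, List.zipWith_append h]

lemma dens_nonneg {d : List Bool → ℝ} (hd : ∀ a, -1 ≤ d a) :
    ∀ (T : List Bool) (u : List (List Bool)), 0 ≤ dens d T u
  | [], _ => by simp [dens]
  | _ :: _, [] => by simp [dens]
  | b :: T, a :: u => by
      rw [dens_cons]
      exact mul_nonneg (by split_ifs <;> linarith [hd a]) (dens_nonneg hd T u)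

/-- The relative difference of two cells. -/
noncomputable def ratioD (U V : Alg) (a : List Bool) : ℝ :=
  (V - U).coeff (FreeMonoid.ofList a) / U.coeff (FreeMonoid.ofList a)

lemma abs_ratioD_le {U V : Alg} {η : ℝ} (hη : 0 ≤ η) (hU : Pos U)
    (h : Le1 (V - U) (η • U)) (a : List Bool) : |ratioD U V a| ≤ η := by
  have hw := h (FreeMonoid.ofList a)
  simp only [MonoidAlgebra.coeff_smul, Finsupp.smul_apply, smul_eq_mul] at hw
  rcases (hU (FreeMonoid.ofList a)).eq_or_lt with h0 | h0
  · simp [ratioD, ← h0, hη]
  · rw [ratioD, abs_div, abs_of_pos h0, div_le_iff₀ h0]; exact hw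

lemma ev_ratioD {U V : Alg} {η : ℝ} (h : Le1 (V - U) (η • U)) (ψ : List Bool → ℝ) :
    ev V ψ = ev U fun a => (1 + ratioD U V a) * ψ a := by
  classical
  set D := V - U with hD
  have hsub : D.coeff.support ⊆ U.coeff.support := fun w hw => by
    rw [Finsupp.mem_support_iff] at hw ⊢
    intro h0
    have := h w
    rw [MonoidAlgebra.coeff_smul, Finsupp.smul_apply, h0, smul_zero, abs_nonpos_iff] at this
    exact hw this
  have e : ev D ψ = ev U fun a => ratioD U V a * ψ a := by
    simp only [ev]
    rw [Finsupp.sum_of_support_subset _ hsub _ (by simp), Finsupp.sum]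
    refine Finset.sum_congr rfl fun w hw => ?_
    rw [ratioD, FreeMonoid.ofList_toList, ← hD, div_mul_eq_mul_div,
      mul_div_cancel₀ _ (Finsupp.mem_support_iff.1 hw)]
  calc ev V ψ = ev U ψ + ev D ψ := by rw [← ev_add, hD, add_sub_cancel]
    _ = _ := by
      rw [e]
      simp only [ev, Finsupp.sum, ← Finset.sum_add_distrib]
      exact Finset.sum_congr rfl fun w _ => by ring

lemma ev_ratioD_self {U V : Alg} {η : ℝ} (hU : IsProb U) (hV : IsProb V)
    (h : Le1 (V - U) (η • U)) : ev U (ratioD U V) = 0 := by
  have := ev_ratioD h fun _ => 1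
  rw [ev_const, hV.mass_one, (isMean_ev hU).congr (fun a => mul_one (1 + ratioD U V a)),
    (isMean_ev hU).add (fun _ => 1) (ratioD U V), (isMean_ev hU).one] at this
  linarith

/-- A word in two cells through tuples of the first. -/
lemma ev_wd {U V : Alg} {η : ℝ} (hU : IsProb U) (h : Le1 (V - U) (η • U)) :
    ∀ (T : List Bool) (φ : List Bool → ℝ),
      ev (wd U V T) φ = tupE U T.length fun u => dens (ratioD U V) T u * φ u.flatten
  | [], φ => by simp [tupE, dens, ev_one]
  | b :: T, φ => by
      rw [wd_cons, ev_mul, List.length_cons, tupE]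
      have e : ∀ a, ev (wd U V T) (fun v => φ (a ++ v)) =
          tupE U T.length fun u => dens (ratioD U V) T u * φ (a :: u).flatten := fun a => by
        rw [ev_wd hU h T]; rfl
      simp only [e]
      cases b
      · simp [dens_cons]
      · rw [if_pos rfl, ev_ratioD h]
        refine congrArg (ev U) (funext fun a => ?_)
        rw [← (isMean_tupE hU _).smul]
        simp [dens_cons, mul_assoc]

lemma ev_pow {U : Alg} (hU : IsProb U) (N : ℕ) (φ : List Bool → ℝ) :
    ev (U ^ N) φ = tupE U N fun u => φ u.flatten := by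
  have h0 : Le1 (U - U) ((0 : ℝ) • U) := fun w => by simp
  have h := ev_wd hU h0 (List.replicate N false) φ
  rw [wd_replicate, List.length_replicate] at h
  rw [h]
  refine tupE_congr fun u hu => ?_
  suffices ∀ (N : ℕ) (u : List (List Bool)), dens (ratioD U U) (List.replicate N false) u = 1 by
    rw [this, one_mul]
  intro N
  induction N with
  | zero => simp [dens]
  | succ N ih =>
    intro u
    cases u with
    | nil => simp [dens]
    | cons a u => rw [List.replicate_succ, dens_cons, ih]; simp

lemma tupE_dens {U V : Alg} {η : ℝ} (hU : IsProb U) (hV : IsProb V)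
    (h : Le1 (V - U) (η • U)) (T : List Bool) :
    tupE U T.length (dens (ratioD U V) T) = 1 := by
  have := ev_wd hU h T fun _ => 1
  rw [ev_const, (isProb_wd hU hV T).mass_one, one_mul] at this
  simpa using this.symm

/-! ### Shared marks -/

lemma common_append {S T : List Bool} (h : S.length = T.length) (S' T' : List Bool) :
    common (S ++ S') (T ++ T') = common S T + common S' T' := by
  simp [common, List.zipWith_append h, List.count_append]

lemma common_le_count : ∀ S T : List Bool, common S T ≤ S.count true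
  | [], _ => by simp [common]
  | _ :: _, [] => by simp [common]
  | a :: S, b :: T => by
      have := common_le_count S T
      cases a <;> cases b <;> simp [common] at this ⊢ <;> omega

lemma common_replicate_left : ∀ (n : ℕ) (T : List Bool), common (List.replicate n false) T = 0
  | 0, _ => by simp [common]
  | n + 1, [] => by simp [common]
  | n + 1, b :: T => by
      simpa [common, List.replicate_succ] using common_replicate_left n T

end Vale.Agent.P321
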